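import Mathlib
import Vale.Agent.Lib.PolyTime.NatArith2
import Vale.Agent.Lib.PolyTime.Typed
import Vale.Agent.Lib.PolyTime.Lists3
import Vale.Agent.P049.GraphDefs
import Vale.Agent.Lib.PolyTime.Lists2
import Vale.Agent.Lib.PolyTime.Official
import Vale.Agent.Lib.PolyTime.TM2
import Vale.Agent.P049.GraphDefsT

set_option linter.all false

section

section

section

/-!
Integers in the typed polynomial time layer: encoding by sign and absolute value, ring operations,
Euclidean division, comparisons, sums and products of lists.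
-/

namespace Vale.Agent.Lib.PolyTime

open Function

variable {A : Set Word} {α β γ δ : Type*} [Enc α] [Enc β] [Enc γ] [Enc δ]

/-- Integers are encoded by sign and absolute value. -/
instance : Enc ℤ := ⟨fun z => enc (decide (z < 0), z.natAbs)⟩

theorem enc_int (z : ℤ) : enc z = enc (decide (z < 0), z.natAbs) := rfl

theorem esize_int (z : ℤ) : esize z = esize z.natAbs + 3 := by
  have h : esize z = esize (decide (z < 0), z.natAbs) := rfl
  rw [h, esize_pair, esize_bool]
  omega

theorem esize_int_le {z : ℤ} {k : ℕ} (h : z.natAbs < 2 ^ k) : esize z ≤ k + 3 := by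
  rw [esize_int]
  have := esize_nat_le h
  omega

theorem natAbs_lt_two_pow (z : ℤ) : z.natAbs < 2 ^ esize z := by
  refine (lt_two_pow_esize z.natAbs).trans_le (Nat.pow_le_pow_right (by norm_num) ?_)
  rw [esize_int]; omega

/-! ### Constructors and destructors -/

theorem PT.natAbs {f : α → ℤ} (hf : PT A f) : PT A (fun a => (f a).natAbs) := by
  have h : PT A (fun a => (decide (f a < 0), (f a).natAbs)) := by
    obtain ⟨F, hF, hF'⟩ := hf
    exact ⟨F, hF, fun a => by rw [hF', enc_int]⟩
  exact h.snd

theorem PT.intNeg? {f : α → ℤ} (hf : PT A f) : PT A (fun a => decide (f a < 0)) := by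
  have h : PT A (fun a => (decide (f a < 0), (f a).natAbs)) := by
    obtain ⟨F, hF, hF'⟩ := hf
    exact ⟨F, hF, fun a => by rw [hF', enc_int]⟩
  exact h.fst

/-- The difference of two natural numbers as an integer. -/
theorem PT.subNat {f g : α → ℕ} (hf : PT A f) (hg : PT A g) :
    PT A (fun a => (f a : ℤ) - (g a : ℤ)) := by
  have h : PT A (fun a => (decide (f a < g a), (f a - g a) + (g a - f a))) :=
    (PT.lt hf hg).pair ((hf.sub hg).add (hg.sub hf))
  obtain ⟨F, hF, hF'⟩ := h
  refine ⟨F, hF, fun a => ?_⟩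
  have e : (decide (f a < g a), (f a - g a) + (g a - f a)) =
      (decide ((f a : ℤ) - (g a : ℤ) < 0), ((f a : ℤ) - (g a : ℤ)).natAbs) :=
    Prod.ext (decide_eq_decide.2 (by omega)) (by simp only; omega)
  rw [hF', enc_int]
  exact congrArg enc e

theorem PT.natCast {f : α → ℕ} (hf : PT A f) : PT A (fun a => (f a : ℤ)) :=
  (PT.subNat hf (PT.const 0)).congr fun a => by simp

theorem PT.posPart {f : α → ℤ} (hf : PT A f) : PT A (fun a => (f a).toNat) :=
  (PT.ite (p := fun a => f a < 0) hf.intNeg? (PT.const 0) hf.natAbs).congr fun a => by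
    split_ifs with h <;> omega

theorem PT.intNeg {f : α → ℤ} (hf : PT A f) : PT A (fun a => - f a) := by
  have h : PT A (fun a => if f a < 0 then ((f a).natAbs : ℤ) - ((0 : ℕ) : ℤ)
      else ((0 : ℕ) : ℤ) - ((f a).natAbs : ℤ)) :=
    PT.ite (p := fun a => f a < 0) hf.intNeg? (PT.subNat hf.natAbs (PT.const 0))
      (PT.subNat (PT.const 0) hf.natAbs)
  exact h.congr fun a => by split_ifs with h <;> omega

theorem PT.negPart {f : α → ℤ} (hf : PT A f) : PT A (fun a => (- f a).toNat) := hf.intNeg.posPart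

/-! ### Ring operations -/

theorem PT.intAdd {f g : α → ℤ} (hf : PT A f) (hg : PT A g) : PT A (fun a => f a + g a) :=
  (PT.subNat (hf.posPart.add hg.posPart) (hf.negPart.add hg.negPart)).congr fun a => by
    push_cast; omega

theorem PT.intSub {f g : α → ℤ} (hf : PT A f) (hg : PT A g) : PT A (fun a => f a - g a) :=
  (PT.subNat (hf.posPart.add hg.negPart) (hf.negPart.add hg.posPart)).congr fun a => by
    push_cast; omega

theorem PT.intMul {f g : α → ℤ} (hf : PT A f) (hg : PT A g) : PT A (fun a => f a * g a) := by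
  refine (PT.subNat ((hf.posPart.mul hg.posPart).add (hf.negPart.mul hg.negPart))
    ((hf.posPart.mul hg.negPart).add (hf.negPart.mul hg.posPart))).congr fun a => ?_
  have h1 : f a = ((f a).toNat : ℤ) - ((- f a).toNat : ℤ) := by omega
  have h2 : g a = ((g a).toNat : ℤ) - ((- g a).toNat : ℤ) := by omega
  conv_rhs => rw [h1, h2]
  push_cast
  ring

theorem PT.intAbs {f : α → ℤ} (hf : PT A f) : PT A (fun a => |f a|) :=
  (PT.natCast hf.natAbs).congr fun a => by rw [Int.abs_eq_natAbs]

/-! ### Comparisons -/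

theorem PT.intLt {f g : α → ℤ} (hf : PT A f) (hg : PT A g) :
    PT A (fun a => decide (f a < g a)) :=
  (hf.intSub hg).intNeg?.congr fun a => decide_eq_decide.2 (by omega)

theorem PT.intLe {f g : α → ℤ} (hf : PT A f) (hg : PT A g) :
    PT A (fun a => decide (f a ≤ g a)) :=
  (PT.intLt hg hf).not.congr fun a => by
    rw [← _root_.decide_not]
    exact decide_eq_decide.2 not_lt

theorem PT.intEq {f g : α → ℤ} (hf : PT A f) (hg : PT A g) :
    PT A (fun a => decide (f a = g a)) :=
  ((hf.intLe hg).and (hg.intLe hf)).congr fun a => by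
    rw [← Bool.decide_and]
    exact decide_eq_decide.2 le_antisymm_iff.symm

/-! ### Division -/

theorem ediv_eq (x y : ℤ) : x / y =
    if y = 0 then 0 else
      if 0 ≤ x then (if 0 < y then ((x.natAbs / y.natAbs : ℕ) : ℤ)
        else - ((x.natAbs / y.natAbs : ℕ) : ℤ))
      else (if 0 < y then - (((x.natAbs - 1) / y.natAbs + 1 : ℕ) : ℤ)
        else (((x.natAbs - 1) / y.natAbs + 1 : ℕ) : ℤ)) := by
  by_cases hy : y = 0
  · rw [if_pos hy, hy, Int.ediv_zero]
  rw [if_neg hy]
  have key : ∀ y : ℤ, 0 < y → x / y = if 0 ≤ x then ((x.natAbs / y.natAbs : ℕ) : ℤ)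
      else - (((x.natAbs - 1) / y.natAbs + 1 : ℕ) : ℤ) := by
    intro y hy
    obtain ⟨n, rfl⟩ : ∃ n : ℕ, y = n := ⟨y.toNat, by omega⟩
    by_cases hx : 0 ≤ x
    · rw [if_pos hx]
      obtain ⟨k, rfl⟩ : ∃ k : ℕ, x = k := ⟨x.toNat, by omega⟩
      simp only [Int.natAbs_natCast, Int.natCast_ediv]
    · rw [if_neg hx]
      obtain ⟨k, rfl⟩ : ∃ k : ℕ, x = Int.negSucc k := ⟨(-x - 1).toNat, by omega⟩
      rw [Int.negSucc_ediv _ hy]
      simp only [neg_add_rev, Int.reduceNeg, Int.natAbs_negSucc, Nat.succ_eq_add_one, add_tsub_cancel_right, Int.natAbs_natCast, Nat.cast_add, Int.natCast_ediv, Nat.cast_one, add_right_inj, neg_inj]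
      rfl
  rcases lt_trichotomy y 0 with h | h | h
  · have h1 : x / y = - (x / (-y)) := by rw [Int.ediv_neg, neg_neg]
    rw [h1, key (-y) (by omega), Int.natAbs_neg]
    have h2 : ¬ 0 < y := by omega
    simp only [h2, if_false]
    split_ifs <;> simp
  · exact absurd h hy
  · rw [key y h]
    simp only [h, if_true]

theorem PT.intDiv {f g : α → ℤ} (hf : PT A f) (hg : PT A g) : PT A (fun a => f a / g a) := by
  have h0 : PT A (fun a => decide (0 < g a)) := (PT.intLt (PT.const 0) hg)
  have q1 : PT A (fun a => (((f a).natAbs / (g a).natAbs : ℕ) : ℤ)) :=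
    PT.natCast (hf.natAbs.div hg.natAbs)
  have q2 : PT A (fun a => ((((f a).natAbs - 1) / (g a).natAbs + 1 : ℕ) : ℤ)) :=
    PT.natCast (((hf.natAbs.sub (PT.const 1)).div hg.natAbs).add (PT.const 1))
  refine (PT.ite (p := fun a => g a = 0) (PT.intEq hg (PT.const 0)) (PT.const 0)
    (PT.ite (p := fun a => 0 ≤ f a) (PT.intLe (PT.const 0) hf)
      (PT.ite (p := fun a => 0 < g a) h0 q1 q1.intNeg)
      (PT.ite (p := fun a => 0 < g a) h0 q2.intNeg q2))).congr fun a => ?_
  exact (ediv_eq _ _).symm

/-! ### Sums and products of lists -/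

theorem natAbs_sum_lt (l : List ℤ) : l.sum.natAbs < 2 ^ esize l := by
  induction l with
  | nil => simp only [List.sum_nil, Int.natAbs_zero, esize_list_nil, pow_zero, Order.lt_one_iff]
  | cons a l ih =>
    rw [List.sum_cons, esize_list_cons]
    have h1 := natAbs_lt_two_pow a
    have h2 : 2 ^ esize a ≤ 2 ^ (2 * esize a + esize l) :=
      Nat.pow_le_pow_right (by norm_num) (by omega)
    have h3 : 2 ^ esize l ≤ 2 ^ (2 * esize a + esize l) :=
      Nat.pow_le_pow_right (by norm_num) (by omega)
    rw [pow_succ]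
    have := Int.natAbs_add_le a l.sum
    omega

theorem natAbs_prod_le (l : List ℤ) : l.prod.natAbs ≤ 2 ^ esize l := by
  induction l with
  | nil => simp [esize_list_nil]
  | cons a l ih =>
    rw [List.prod_cons, esize_list_cons, Int.natAbs_mul]
    have h1 := natAbs_lt_two_pow a
    calc a.natAbs * l.prod.natAbs ≤ 2 ^ esize a * 2 ^ esize l := Nat.mul_le_mul h1.le ih
      _ = 2 ^ (esize a + esize l) := (pow_add _ _ _).symm
      _ ≤ 2 ^ (2 * esize a + esize l + 1) := Nat.pow_le_pow_right (by norm_num) (by omega)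

theorem esize_intSum_le (l : List ℤ) : esize l.sum ≤ esize l + 3 :=
  esize_int_le (natAbs_sum_lt l)

theorem esize_intProd_le (l : List ℤ) : esize l.prod ≤ esize l + 4 := by
  have h : l.prod.natAbs < 2 ^ (esize l + 1) := by
    refine (natAbs_prod_le l).trans_lt ?_
    exact Nat.pow_lt_pow_right (by norm_num) (by omega)
  exact esize_int_le h

theorem PT.intSum {l : α → List ℤ} (hl : PT A l) : PT A (fun a => (l a).sum) := by
  refine (PT.foldr (init := fun _ => (0 : ℤ)) (f := fun _ x s => x + s) hl (PT.const 0)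
    (PT.intAdd PT.snd'.fst PT.snd'.snd) (b := fun a => PolyTime.esize (l a) + 3)
    (hl.pbd.add (PBd.const 3)) fun a i => ?_).congr fun a => ?_
  · rw [← List.sum_eq_foldr]
    have h1 := esize_intSum_le ((l a).drop i)
    have h2 := esize_drop_le i (l a)
    omega
  · rw [← List.sum_eq_foldr]

theorem PT.intProd {l : α → List ℤ} (hl : PT A l) : PT A (fun a => (l a).prod) := by
  refine (PT.foldr (init := fun _ => (1 : ℤ)) (f := fun _ x s => x * s) hl (PT.const 1)
    (PT.intMul PT.snd'.fst PT.snd'.snd) (b := fun a => PolyTime.esize (l a) + 4)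
    (hl.pbd.add (PBd.const 4)) fun a i => ?_).congr fun a => ?_
  · rw [← List.prod_eq_foldr]
    have h1 := esize_intProd_le ((l a).drop i)
    have h2 := esize_drop_le i (l a)
    omega
  · rw [← List.prod_eq_foldr]

theorem PT.zipWith {l : α → List β} {l' : α → List γ} {f : α → β → γ → δ} (hl : PT A l)
    (hl' : PT A l') (hf : PT A (fun p : α × β × γ => f p.1 p.2.1 p.2.2)) :
    PT A (fun a => List.zipWith (f a) (l a) (l' a)) :=
  (PT.map (l := fun a => (l a).zip (l' a)) (f := fun a p => f a p.1 p.2) (PT.zip hl hl')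
    hf).congr fun a => by
      rw [List.zip, List.map_zipWith]

/-- Power with a fixed exponent. -/
theorem PT.intPow {f : α → ℤ} (hf : PT A f) (k : ℕ) : PT A (fun a => f a ^ k) := by
  induction k with
  | zero => exact (PT.const 1).congr fun a => (pow_zero _).symm
  | succ k ih => exact (ih.intMul hf).congr fun a => (pow_succ _ _).symm

end Vale.Agent.Lib.PolyTime
end
end
end

section

section

section

/-!
The algorithm, as a computable function on lists.
Conventions: `L = [0, …, m-1]` is the list of left vertices, a block is the list of its elements,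
`zs` is the list of the diagonal / all-ones perturbations used for coefficient extraction.
-/

namespace Vale.Agent.P049

/-- dot product (truncating) -/
def dot (r s : List ℤ) : ℤ := (List.zipWith (· * ·) r s).sum

/-- product with a symmetric matrix -/
def mulS (M A : List (List ℤ)) : List (List ℤ) := M.map fun r => A.map fun s => dot r s

/-- trace of the product of two symmetric matrices -/
def frob (M A : List (List ℤ)) : ℤ := (List.zipWith dot M A).sum

/-- reversed list of signed power traces `tr A, -tr A^2, tr A^3, …` -/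
def powTrStep (A : List (List ℤ)) (s : List (List ℤ) × ℤ × List ℤ) : List (List ℤ) × ℤ × List ℤ :=
  (mulS s.1 A, -s.2.1, (s.2.1 * frob s.1 A) :: s.2.2)

def powTr (I A : List (List ℤ)) : List ℤ :=
  (A.foldl (fun s _ => powTrStep A s) (I, 1, [])).2.2.reverse

/-- one Newton step: `E = [e_k, …, e_0]` -/
def newtonStep (ps : List ℤ) (s : ℤ × List ℤ) : ℤ × List ℤ :=
  (s.1 + 1, (dot s.2 ps / (s.1 + 1)) :: s.2)

def newton (ps : List ℤ) : ℤ :=
  (ps.foldl (fun s _ => newtonStep ps s) (0, [1])).2.headD 1

/-- determinant of a symmetric integer matrix -/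
def detL (I A : List (List ℤ)) : ℤ := newton (powTr I A)

/-- balanced remainder -/
def bm (N B : ℤ) : ℤ := if B ≤ 2 * (N - B * (N / B)) then N - B * (N / B) - B else N - B * (N / B)

def digitStep (B : ℤ) (s : ℤ × List ℤ) : ℤ × List ℤ :=
  ((s.1 - bm s.1 B) / B, bm s.1 B :: s.2)

/-- balanced base-`B` digits of `N`, as many as `L` has elements -/
def digitsL (B : ℤ) (L : List ℕ) (N : ℤ) : List ℤ :=
  (L.foldl (fun s _ => digitStep B s) (N, [])).2.reverse

/-- identity matrix -/
def idL (L : List ℕ) : List (List ℤ) := L.map fun i => L.map fun k => if i = k then 1 else 0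

/-- matrix entry of `c - Σ_b 1_b1_bᵀ + Σ (z D_X + t 1_X1_Xᵀ)` -/
def entry (c : ℤ) (blocks : List (List ℕ)) (zs : List (List ℕ × ℤ × ℤ)) (i k : ℕ) : ℤ :=
  (if i = k then c else 0) -
    (blocks.map fun b => if i ∈ b ∧ k ∈ b then (1 : ℤ) else 0).sum +
    (zs.map fun z => (if i = k ∧ i ∈ z.1 then z.2.1 else 0) +
      (if i ∈ z.1 ∧ k ∈ z.1 then z.2.2 else 0)).sum

def matL (L : List ℕ) (c : ℤ) (blocks : List (List ℕ)) (zs : List (List ℕ × ℤ × ℤ)) :
    List (List ℤ) := L.map fun i => L.map fun k => entry c blocks zs i k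

/-- sum of the absolute values of the entries -/
def absSum (A : List (List ℤ)) : ℤ := (A.map fun r => (r.map fun a => |a|).sum).sum

/-- Kronecker base -/
def base (q : ℕ) (L : List ℕ) (N : ℤ) : ℤ :=
  5 * (L.map fun _ => ((L.length : ℤ) + 1) ^ (q + 1) * (N + q + 3)).prod

def wL (d : ℕ) (L : List ℕ) (s k : ℕ) : ℤ :=
  ((L.filter (· < k)).map fun j : ℕ => -((d : ℤ) * ((s : ℤ) - (j : ℤ)))).prod *
    ((L.filter (· < d * s - k - 1)).map fun j : ℕ => ((j : ℤ) + 1)).prod * ((d : ℤ) * ((s : ℤ) - k))

def vL (d : ℕ) (L : List ℕ) (s k : ℕ) : ℤ :=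
  ((L.filter (· < k + 1)).map fun j : ℕ => -((d : ℤ) * ((s : ℤ) - (j : ℤ)))).prod * ((d : ℤ) - 1) *
    ((L.filter (· < d * s - k - 2)).map fun j : ℕ => ((j : ℤ) + 1)).prod

/-- state used by the evaluation: the blocks and the perturbations -/
abbrev St := List (List ℕ) × List (List ℕ × ℤ × ℤ)

/-- the closed form operator, `g` = evaluation at the previous level -/
def closedL (d : ℕ) (c : ℤ) (L : List ℕ) (q : ℕ) (g : St → ℤ) (X : List ℕ) (st : St) : ℤ :=
  if X.length / d = 0 then g st else
    let B := base q L (absSum (matL L c st.1 st.2))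
    let v0 := g (st.1, (X, B, 0) :: st.2)
    let v1 := g (st.1, (X, B, 1) :: st.2) - v0
    dot ((L.filter (· < X.length / d + 1)).map fun k => wL d L (X.length / d) k) (digitsL B L v0) +
    dot ((L.filter (· < X.length / d)).map fun k => vL d L (X.length / d) k) (digitsL B L v1)

/-- `q` full pieces on `X₀` -/
def lvl (d : ℕ) (c : ℤ) (L X₀ : List ℕ) : ℕ → St → ℤ
  | 0 => fun st => detL (idL L) (matL L c st.1 st.2)
  | q + 1 => fun st => closedL d c L q (lvl d c L X₀ q) X₀ st

/-- value of a node: `q` full pieces, `X` = remaining elements of the current piece, `γ` = current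
partial block -/
def valF (d : ℕ) (c : ℤ) (L X₀ : List ℕ) (q : ℕ) : ℕ → List ℕ → List ℕ → List (List ℕ) → ℤ
  | 0, _, _, _ => 0
  | f + 1, X, γ, blocks =>
    if γ.length = d then closedL d c L q (lvl d c L X₀ q) X (γ :: blocks, [])
    else (X.map fun a => valF d c L X₀ q f (X.filter (· ≠ a)) (a :: γ) blocks).sum

/-- first element of `X` whose child has negative value -/
def pick (d : ℕ) (c : ℤ) (L X₀ : List ℕ) (q : ℕ) (X γ : List ℕ) (blocks : List (List ℕ)) : ℕ :=
  (X.filter fun a => valF d c L X₀ q (d + 1) (X.filter (· ≠ a)) (a :: γ) blocks < 0).headD 0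

/-- one greedy step on the state (blocks, remaining, partial block) -/
def step (d : ℕ) (c : ℤ) (L X₀ : List ℕ) (q : ℕ) (s : List (List ℕ) × List ℕ × List ℕ) :
    List (List ℕ) × List ℕ × List ℕ :=
  let a := pick d c L X₀ q s.2.1 s.2.2 s.1
  if s.2.2.length + 1 = d then ((a :: s.2.2) :: s.1, s.2.1.filter (· ≠ a), [])
  else (s.1, s.2.1.filter (· ≠ a), a :: s.2.2)

def runPiece (d : ℕ) (c : ℤ) (L X₀ : List ℕ) (q : ℕ) (blocks : List (List ℕ)) : List (List ℕ) :=
  (X₀.foldl (fun s _ => step d c L X₀ q s) (blocks, X₀, [])).1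

def run (d : ℕ) (c : ℤ) (L X₀ : List ℕ) : ℕ → List (List ℕ) → List (List ℕ)
  | 0, blocks => blocks
  | q + 1, blocks => run d c L X₀ q (runPiece d c L X₀ q blocks)

/-- the fixed blocks; `m = d * r + s` -/
def starB (d : ℕ) (L : List ℕ) (r s : ℕ) : List (List ℕ) :=
  (L.filter (· < d * s)).map fun t =>
    (d * r + t / d) :: L.filter fun x => t * (d - 1) ≤ x ∧ x < (t + 1) * (d - 1)

def plainB (d : ℕ) (L : List ℕ) (r s : ℕ) : List (List ℕ) :=
  (L.filter (· < r - (d - 1) * s)).map fun t =>
    L.filter fun x => d * s * (d - 1) + t * d ≤ x ∧ x < d * s * (d - 1) + (t + 1) * d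

/-- all blocks of the final graph (left vertices `L = range m`) -/
def blocksOf (d : ℕ) (L : List ℕ) : List (List ℕ) :=
  run d (4 * ((d : ℤ) - 1)) L (L.filter (· < d * (L.length / d))) (d - 1)
    (plainB d L (L.length / d) (L.length % d) ++ starB d L (L.length / d) (L.length % d))

end Vale.Agent.P049
end
end
end

section

section

section

/-!
All functions of `Alg.lean` are computable in polynomial time (`PT`).
-/

open Function Vale.Agent.Lib.PolyTime

namespace Vale.Agent.P049

universe u

variable {A : Set Word}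

/-! ### Constant folds -/

section fold

variable {α β γ : Type*} [Enc α] [Enc β] [Enc γ]

theorem pt_foldl_const {l : α → List γ} {init : α → β} {step : α → β → β} (hl : PT A l)
    (hi : PT A init) (hs : PT A (fun p : α × β => step p.1 p.2)) {b : α → ℕ} (hb : PBd b)
    (h : ∀ a, ∀ i ≤ (l a).length, esize ((step a)^[i] (init a)) ≤ b a) :
    PT A (fun a => (l a).foldl (fun s _ => step a s) (init a)) := by
  refine PT.foldl (f := fun a s _ => step a s) hl hi (hs.comp (PT.fst'.pair PT.snd'.fst)) hb
    fun a i => ?_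
  have h1 : ((l a).take i).foldl (fun s _ => step a s) (init a) =
      (step a)^[((l a).take i).length] (init a) := List.foldl_const _ _ _
  rw [h1]
  exact h a _ (by rw [List.length_take]; exact min_le_right _ _)

end fold

/-! ### Matrices and determinants -/

section det

variable {α : Type*} [Enc α]

theorem pt_dot {r s : α → List ℤ} (hr : PT A r) (hs : PT A s) :
    PT A (fun a => dot (r a) (s a)) :=
  PT.intSum (PT.zipWith (f := fun _ x y => x * y) hr hs (PT.intMul PT.snd'.fst PT.snd'.snd))

theorem pt_mulS {M B : α → List (List ℤ)} (hM : PT A M) (hB : PT A B) :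
    PT A (fun a => mulS (M a) (B a)) :=
  PT.map (f := fun a r => (B a).map fun s => dot r s) hM
    (PT.map (f := fun (p : α × List ℤ) s => dot p.2 s) (hB.comp PT.fst')
      (pt_dot PT.fst'.snd PT.snd'))

theorem pt_frob {M B : α → List (List ℤ)} (hM : PT A M) (hB : PT A B) :
    PT A (fun a => frob (M a) (B a)) :=
  PT.intSum (PT.zipWith (f := fun _ x y => dot x y) hM hB (pt_dot PT.snd'.fst PT.snd'.snd))

/-- sum of absolute values -/
def na (r : List ℤ) : ℕ := (r.map Int.natAbs).sum

def mna (M : List (List ℤ)) : ℕ := (M.map na).sum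

theorem na_lt (r : List ℤ) : na r < 2 ^ esize r := by
  induction r with
  | nil => simp only [na, List.map_nil, List.sum_nil, esize_list_nil, pow_zero, Order.lt_one_iff]
  | cons a l ih =>
    have e : na (a :: l) = a.natAbs + na l := by simp [na]
    rw [e, esize_list_cons]
    have h1 := natAbs_lt_two_pow a
    have h2 : 2 ^ esize a ≤ 2 ^ (2 * esize a + esize l) :=
      Nat.pow_le_pow_right (by norm_num) (by omega)
    have h3 : 2 ^ esize l ≤ 2 ^ (2 * esize a + esize l) :=
      Nat.pow_le_pow_right (by norm_num) (by omega)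
    rw [pow_succ]
    omega

theorem mna_lt (M : List (List ℤ)) : mna M < 2 ^ esize M := by
  induction M with
  | nil => simp [mna, esize_list_nil]
  | cons a l ih =>
    have e : mna (a :: l) = na a + mna l := by simp [mna]
    rw [e, esize_list_cons]
    have h1 := na_lt a
    have h2 : 2 ^ esize a ≤ 2 ^ (2 * esize a + esize l) :=
      Nat.pow_le_pow_right (by norm_num) (by omega)
    have h3 : 2 ^ esize l ≤ 2 ^ (2 * esize a + esize l) :=
      Nat.pow_le_pow_right (by norm_num) (by omega)
    rw [pow_succ]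
    omega

theorem na_le_mna {M : List (List ℤ)} {r : List ℤ} (h : r ∈ M) : na r ≤ mna M := by
  unfold mna
  exact List.single_le_sum (fun x _ => Nat.zero_le x) _ (List.mem_map_of_mem h)

theorem natAbs_le_na {r : List ℤ} {x : ℤ} (h : x ∈ r) : x.natAbs ≤ na r := by
  unfold na
  exact List.single_le_sum (fun x _ => Nat.zero_le x) _ (List.mem_map_of_mem h)

theorem natAbs_dot_le {b : ℕ} : ∀ (r s : List ℤ), (∀ x ∈ r, x.natAbs ≤ b) →
    (dot r s).natAbs ≤ b * na s := by
  intro r
  induction r with
  | nil => intro s _; simp only [dot, List.zipWith_nil_left, List.sum_nil, Int.natAbs_zero, zero_le]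
  | cons x r ih =>
    intro s h
    rcases s with _ | ⟨y, s⟩
    · simp only [dot, List.zipWith_nil_right, List.sum_nil, Int.natAbs_zero, zero_le]
    · have e : dot (x :: r) (y :: s) = x * y + dot r s := by simp [dot]
      have e2 : na (y :: s) = y.natAbs + na s := by simp [na]
      rw [e, e2]
      have h1 := ih s (fun z hz => h z (List.mem_cons_of_mem _ hz))
      have h2 := h x List.mem_cons_self
      have h3 := Int.natAbs_add_le (x * y) (dot r s)
      rw [Int.natAbs_mul] at h3
      have h4 : x.natAbs * y.natAbs ≤ b * y.natAbs := Nat.mul_le_mul_right _ h2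
      rw [mul_add]
      omega

theorem natAbs_frob_le {b : ℕ} : ∀ (M B : List (List ℤ)), (∀ r ∈ M, ∀ x ∈ r, x.natAbs ≤ b) →
    (frob M B).natAbs ≤ b * mna B := by
  intro M
  induction M with
  | nil => intro B _; simp only [frob, List.zipWith_nil_left, List.sum_nil, Int.natAbs_zero, zero_le]
  | cons r M ih =>
    intro B h
    rcases B with _ | ⟨s, B⟩
    · simp only [frob, List.zipWith_nil_right, List.sum_nil, Int.natAbs_zero, zero_le]
    · have e : frob (r :: M) (s :: B) = dot r s + frob M B := by simp [frob]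
      have e2 : mna (s :: B) = na s + mna B := by simp [mna]
      rw [e, e2]
      have h1 := ih B (fun z hz => h z (List.mem_cons_of_mem _ hz))
      have h2 := natAbs_dot_le r s (h r List.mem_cons_self)
      have h3 := Int.natAbs_add_le (dot r s) (frob M B)
      rw [mul_add]
      omega

/-- size of a list of integers with bounded entries -/
theorem esize_ints_le {r : List ℤ} {k : ℕ} (h : ∀ x ∈ r, x.natAbs < 2 ^ k) :
    esize r ≤ r.length * (2 * (k + 3) + 1) :=
  esize_list_le fun x hx => esize_int_le (h x hx)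

theorem esize_mat_le {M : List (List ℤ)} {k n : ℕ} (h : ∀ r ∈ M, ∀ x ∈ r, x.natAbs < 2 ^ k)
    (hn : ∀ r ∈ M, r.length ≤ n) :
    esize M ≤ M.length * (2 * (n * (2 * (k + 3) + 1)) + 1) :=
  esize_list_le fun r hr => (esize_ints_le (h r hr)).trans (Nat.mul_le_mul_right _ (hn r hr))

theorem pt_powTrStep {B : α → List (List ℤ)} {s : α → List (List ℤ) × ℤ × List ℤ}
    (hB : PT A B) (hs : PT A s) : PT A (fun a => powTrStep (B a) (s a)) :=
  (pt_mulS hs.fst hB).pair ((PT.intNeg hs.snd.fst).pair
    (PT.cons (PT.intMul hs.snd.fst (pt_frob hs.fst hB)) hs.snd.snd))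

theorem powTr_bound (I B : List (List ℤ)) (i : ℕ) :
    ((powTrStep B)^[i] (I, 1, [])).1.length = I.length ∧
    (∀ r ∈ ((powTrStep B)^[i] (I, 1, [])).1, r.length ≤ esize I + B.length) ∧
    (∀ r ∈ ((powTrStep B)^[i] (I, 1, [])).1, ∀ x ∈ r,
      x.natAbs < 2 ^ (esize I + i * esize B)) ∧
    ((powTrStep B)^[i] (I, 1, [])).2.1.natAbs ≤ 1 ∧
    ((powTrStep B)^[i] (I, 1, [])).2.2.length = i ∧
    (∀ x ∈ ((powTrStep B)^[i] (I, 1, [])).2.2, x.natAbs < 2 ^ (esize I + i * esize B)) := by
  induction i with
  | zero =>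
    simp only [iterate_zero, id_eq, Nat.zero_mul, Nat.add_zero]
    refine ⟨trivial, ?_, ?_, by simp, by simp, by simp⟩
    · intro r hr
      have h1 := length_le_esize r
      have h2 := esize_le_of_mem hr
      omega
    · intro r hr x hx
      have h1 := natAbs_le_na hx
      have h2 := na_le_mna hr
      have h3 := mna_lt I
      omega
  | succ i ih =>
    rw [iterate_succ_apply']
    set s := (powTrStep B)^[i] (I, 1, []) with hs
    obtain ⟨h1, h2, h3, h4, h5, h6⟩ := ih
    have hB := mna_lt B
    have hmul : ∀ y b : ℕ, y ≤ b * mna B → b < 2 ^ (esize I + i * esize B) →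
        y < 2 ^ (esize I + (i + 1) * esize B) := by
      intro y b hy hb
      have e : esize I + (i + 1) * esize B = (esize I + i * esize B) + esize B := by ring
      rw [e, pow_add]
      exact lt_of_le_of_lt hy (Nat.mul_lt_mul'' hb hB)
    have hpos : 0 < 2 ^ (esize I + i * esize B) := by positivity
    have h3' : ∀ r ∈ s.1, ∀ x ∈ r, x.natAbs ≤ 2 ^ (esize I + i * esize B) - 1 := by
      intro r hr x hx
      have := h3 r hr x hx
      omega
    refine ⟨?_, ?_, ?_, ?_, ?_, ?_⟩
    · simp only [powTrStep, mulS, List.length_map]; exact h1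
    · intro r hr
      simp only [powTrStep, mulS, List.mem_map] at hr
      obtain ⟨r', _, rfl⟩ := hr
      rw [List.length_map]; omega
    · intro r hr x hx
      simp only [powTrStep, mulS, List.mem_map] at hr
      obtain ⟨r', hr', rfl⟩ := hr
      rw [List.mem_map] at hx
      obtain ⟨t, ht, rfl⟩ := hx
      refine hmul _ (2 ^ (esize I + i * esize B) - 1) ?_ (by omega)
      exact (natAbs_dot_le r' t (h3' r' hr')).trans (Nat.mul_le_mul_left _ (na_le_mna ht))
    · simp only [powTrStep, Int.natAbs_neg]; exact h4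
    · simp only [powTrStep, List.length_cons, h5]
    · intro x hx
      simp only [powTrStep, List.mem_cons] at hx
      rcases hx with rfl | hx
      · refine hmul _ (2 ^ (esize I + i * esize B) - 1) ?_ (by omega)
        rw [Int.natAbs_mul]
        have h7 := natAbs_frob_le s.1 B h3'
        have h8 : s.2.1.natAbs * (frob s.1 B).natAbs ≤ 1 * (frob s.1 B).natAbs :=
          Nat.mul_le_mul_right _ h4
        omega
      · refine (h6 x hx).trans_le (Nat.pow_le_pow_right (by norm_num) ?_)
        have : i * esize B ≤ (i + 1) * esize B := Nat.mul_le_mul_right _ (by omega)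
        omega

theorem pt_powTr {I B : α → List (List ℤ)} (hI : PT A I) (hB : PT A B) :
    PT A (fun a => powTr (I a) (B a)) := by
  have h1 : PT A (fun a => (B a).foldl (fun s _ => powTrStep (B a) s) (I a, (1 : ℤ), [])) := by
    refine pt_foldl_const (step := fun a s => powTrStep (B a) s) hB
      (hI.pair ((PT.const 1).pair (PT.const [])))
      (pt_powTrStep (hB.comp PT.fst') PT.snd')
      (b := fun a => 2 * (esize (I a) * (2 * ((esize (I a) + esize (B a)) *
        (2 * (esize (I a) + esize (B a) * esize (B a) + 3) + 1)) + 1)) +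
        (2 * 4 + esize (B a) * (2 * (esize (I a) + esize (B a) * esize (B a) + 3) + 1) + 1) + 1)
      ?_ fun a i hi => ?_
    · have := hI.pbd
      have := hB.pbd
      fun_prop
    · obtain ⟨h1, h2, h3, h4, h5, h6⟩ := powTr_bound (I a) (B a) i
      set s := (powTrStep (B a))^[i] (I a, 1, []) with hs
      have hi' : i ≤ esize (B a) := hi.trans (length_le_esize _)
      have hk : esize (I a) + i * esize (B a) ≤ esize (I a) + esize (B a) * esize (B a) := by
        have := Nat.mul_le_mul_right (esize (B a)) hi'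
        omega
      have hlenB := length_le_esize (B a)
      have hlenI := length_le_esize (I a)
      have e1 := esize_mat_le (n := esize (I a) + esize (B a)) h3
        (fun r hr => (h2 r hr).trans (by omega))
      have e2 := esize_ints_le h6
      have e3 : esize s.2.1 ≤ 4 := by
        have : s.2.1.natAbs < 2 ^ 1 := by omega
        exact (esize_int_le this).trans (by omega)
      have e4 : esize s = 2 * esize s.1 + (2 * esize s.2.1 + esize s.2.2 + 1) + 1 := by
        have h7 := esize_pair s.1 s.2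
        have h8 := esize_pair s.2.1 s.2.2
        simp only [Prod.mk.eta] at h7 h8
        rw [h7, h8]
      rw [h1] at e1
      rw [h5] at e2
      have f1 : (I a).length * (2 * ((esize (I a) + esize (B a)) *
          (2 * (esize (I a) + i * esize (B a) + 3) + 1)) + 1) ≤
          esize (I a) * (2 * ((esize (I a) + esize (B a)) *
          (2 * (esize (I a) + esize (B a) * esize (B a) + 3) + 1)) + 1) := by
        (clear * - hlenI hk; gcongr)
      have f2 : i * (2 * (esize (I a) + i * esize (B a) + 3) + 1) ≤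
          esize (B a) * (2 * (esize (I a) + esize (B a) * esize (B a) + 3) + 1) := by
        (clear * - hi' hk; gcongr)
      rw [e4]
      omega
  exact h1.snd.snd.reverse

theorem pt_newtonStep {ps : α → List ℤ} {s : α → ℤ × List ℤ} (hp : PT A ps) (hs : PT A s) :
    PT A (fun a => newtonStep (ps a) (s a)) :=
  (PT.intAdd hs.fst (PT.const 1)).pair (PT.cons (PT.intDiv (pt_dot hs.snd hp)
    (PT.intAdd hs.fst (PT.const 1))) hs.snd)

theorem newton_bound (ps : List ℤ) (i : ℕ) :
    ((newtonStep ps)^[i] (0, [1])).1.natAbs ≤ i ∧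
    ((newtonStep ps)^[i] (0, [1])).2.length = i + 1 ∧
    (∀ x ∈ ((newtonStep ps)^[i] (0, [1])).2, x.natAbs < 2 ^ (1 + i * esize ps)) := by
  induction i with
  | zero => simp only [iterate_zero, id_eq, Int.natAbs_zero, Std.le_refl, List.length_cons, List.length_nil, zero_add, List.mem_cons, List.not_mem_nil, or_false, zero_mul, add_zero, pow_one, Order.lt_two_iff, forall_eq, isUnit_one, Int.natAbs_of_isUnit, and_self]
  | succ i ih =>
    rw [iterate_succ_apply']
    set s := (newtonStep ps)^[i] (0, [1]) with hs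
    obtain ⟨h1, h2, h3⟩ := ih
    have hB := na_lt ps
    have hpos : 0 < 2 ^ (1 + i * esize ps) := by positivity
    refine ⟨?_, ?_, ?_⟩
    · simp only [newtonStep]
      have := Int.natAbs_add_le s.1 1
      simp only [Int.natAbs_one] at this
      omega
    · simp only [newtonStep, List.length_cons, h2]
    · intro x hx
      simp only [newtonStep, List.mem_cons] at hx
      have e : 1 + (i + 1) * esize ps = (1 + i * esize ps) + esize ps := by ring
      rcases hx with rfl | hx
      · have h4 : (dot s.2 ps).natAbs ≤ (2 ^ (1 + i * esize ps) - 1) * na ps := by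
          apply natAbs_dot_le
          intro y hy
          have := h3 y hy
          omega
        have h5 := Int.natAbs_ediv_le_natAbs (dot s.2 ps) (s.1 + 1)
        refine lt_of_le_of_lt (h5.trans h4) ?_
        have e' : 2 ^ (1 + (i + 1) * esize ps) = 2 ^ (1 + i * esize ps) * 2 ^ esize ps := by
          rw [e, pow_add]
        rw [e']
        exact Nat.mul_lt_mul'' (by omega) hB
      · refine (h3 x hx).trans_le (Nat.pow_le_pow_right (by norm_num) ?_)
        rw [e]; omega

theorem pt_newton {ps : α → List ℤ} (hp : PT A ps) : PT A (fun a => newton (ps a)) := by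
  have h1 : PT A (fun a => (ps a).foldl (fun s _ => newtonStep (ps a) s) ((0 : ℤ), [(1 : ℤ)])) := by
    refine pt_foldl_const (step := fun a s => newtonStep (ps a) s) hp
      ((PT.const 0).pair (PT.const [1]))
      (pt_newtonStep (hp.comp PT.fst') PT.snd')
      (b := fun a => 2 * (esize (ps a) + 3) +
        (esize (ps a) + 1) * (2 * (1 + esize (ps a) * esize (ps a) + 3) + 1) + 1)
      ?_ fun a i hi => ?_
    · have := hp.pbd
      fun_prop
    · obtain ⟨h1, h2, h3⟩ := newton_bound (ps a) i
      set s := (newtonStep (ps a))^[i] (0, [1]) with hs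
      have hi' : i ≤ esize (ps a) := hi.trans (length_le_esize _)
      have e2 := esize_ints_le h3
      have e3 : esize s.1 ≤ esize (ps a) + 3 := by
        have : s.1.natAbs < 2 ^ (esize (ps a)) := by
          refine lt_of_le_of_lt (h1.trans hi') Nat.lt_two_pow_self
        exact esize_int_le this
      have e4 := esize_pair s.1 s.2
      simp only [Prod.mk.eta] at e4
      rw [h2] at e2
      have f2 : (i + 1) * (2 * (1 + i * esize (ps a) + 3) + 1) ≤
          (esize (ps a) + 1) * (2 * (1 + esize (ps a) * esize (ps a) + 3) + 1) := by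
        (clear * - hi'; gcongr)
      rw [e4]
      omega
  exact PT.headD h1.snd (PT.const 1)

theorem pt_detL {I B : α → List (List ℤ)} (hI : PT A I) (hB : PT A B) :
    PT A (fun a => detL (I a) (B a)) := pt_newton (pt_powTr hI hB)

end det

end Vale.Agent.P049
end
end
end

section

section

section

/-!
All functions of `Alg.lean` are computable in polynomial time (`PT`), second part.
-/

open Function Vale.Agent.Lib.PolyTime

namespace Vale.Agent.P049

universe u

variable {A : Set Word}

section digits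

variable {α : Type*} [Enc α]

theorem pt_bm {N B : α → ℤ} (hN : PT A N) (hB : PT A B) : PT A (fun a => bm (N a) (B a)) := by
  have hr : PT A (fun a => N a - B a * (N a / B a)) :=
    PT.intSub hN (PT.intMul hB (PT.intDiv hN hB))
  exact PT.ite (p := fun a => B a ≤ 2 * (N a - B a * (N a / B a)))
    (PT.intLe hB (PT.intMul (PT.const 2) hr)) (PT.intSub hr hB) hr

theorem pt_digitStep {B : α → ℤ} {s : α → ℤ × List ℤ} (hB : PT A B) (hs : PT A s) :
    PT A (fun a => digitStep (B a) (s a)) :=
  (PT.intDiv (PT.intSub hs.fst (pt_bm hs.fst hB)) hB).pair (PT.cons (pt_bm hs.fst hB) hs.snd)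

theorem natAbs_bm_le (N B : ℤ) : (bm N B).natAbs ≤ N.natAbs + 2 * B.natAbs := by
  unfold bm
  rw [← Int.emod_def]
  by_cases hB : B = 0
  · subst hB
    rw [Int.emod_zero]
    split_ifs <;> simp
  · have h1 := Int.emod_nonneg N hB
    have h2 := Int.emod_lt N hB
    split_ifs
    · omega
    · omega

theorem digits_bound (B N : ℤ) (i : ℕ) :
    ((digitStep B)^[i] (N, [])).1.natAbs + 2 * B.natAbs ≤ 2 ^ i * (N.natAbs + 2 * B.natAbs) ∧
    ((digitStep B)^[i] (N, [])).2.length = i ∧
    (∀ x ∈ ((digitStep B)^[i] (N, [])).2, x.natAbs ≤ 2 ^ i * (N.natAbs + 2 * B.natAbs)) := by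
  induction i with
  | zero => simp only [iterate_zero, id_eq, pow_zero, one_mul, Std.le_refl, List.length_nil, List.not_mem_nil, IsEmpty.forall_iff, implies_true, and_self]
  | succ i ih =>
    rw [iterate_succ_apply']
    set s := (digitStep B)^[i] (N, []) with hs
    obtain ⟨h1, h2, h3⟩ := ih
    have hb := natAbs_bm_le s.1 B
    have e : 2 ^ (i + 1) * (N.natAbs + 2 * B.natAbs) =
        2 * (2 ^ i * (N.natAbs + 2 * B.natAbs)) := by rw [pow_succ]; ring
    refine ⟨?_, ?_, ?_⟩
    · simp only [digitStep]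
      have h4 := Int.natAbs_ediv_le_natAbs (s.1 - bm s.1 B) B
      have h5 := Int.natAbs_sub_le s.1 (bm s.1 B)
      omega
    · simp only [digitStep, List.length_cons, h2]
    · intro x hx
      simp only [digitStep, List.mem_cons] at hx
      rcases hx with rfl | hx
      · omega
      · have := h3 x hx
        omega

theorem pt_digitsL {B N : α → ℤ} {L : α → List ℕ} (hB : PT A B) (hL : PT A L) (hN : PT A N) :
    PT A (fun a => digitsL (B a) (L a) (N a)) := by
  have h1 : PT A (fun a => (L a).foldl (fun s _ => digitStep (B a) s) (N a, ([] : List ℤ))) := by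
    refine pt_foldl_const (step := fun a s => digitStep (B a) s) hL
      (hN.pair (PT.const []))
      (pt_digitStep (hB.comp PT.fst') PT.snd')
      (b := fun a => 2 * ((esize (L a) + esize (N a) + esize (B a) + 2) + 3) +
        (esize (L a)) * (2 * ((esize (L a) + esize (N a) + esize (B a) + 2) + 3) + 1) + 1)
      ?_ fun a i hi => ?_
    · have := hB.pbd
      have := hL.pbd
      have := hN.pbd
      fun_prop
    · obtain ⟨h1, h2, h3⟩ := digits_bound (B a) (N a) i
      set s := (digitStep (B a))^[i] (N a, []) with hs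
      have hi' : i ≤ esize (L a) := hi.trans (length_le_esize _)
      have hbd : 2 ^ i * ((N a).natAbs + 2 * (B a).natAbs) <
          2 ^ (esize (L a) + esize (N a) + esize (B a) + 2) := by
        have g1 := natAbs_lt_two_pow (N a)
        have g2 := natAbs_lt_two_pow (B a)
        have g3 : 2 ^ esize (N a) ≤ 2 ^ (esize (N a) + esize (B a)) :=
          Nat.pow_le_pow_right (by norm_num) (by omega)
        have g4 : 2 ^ esize (B a) ≤ 2 ^ (esize (N a) + esize (B a)) :=
          Nat.pow_le_pow_right (by norm_num) (by omega)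
        have g5 : (N a).natAbs + 2 * (B a).natAbs < 2 ^ (esize (N a) + esize (B a) + 2) := by
          rw [pow_succ, pow_succ]; omega
        have g6 : 2 ^ i ≤ 2 ^ esize (L a) := Nat.pow_le_pow_right (by norm_num) hi'
        have e : esize (L a) + esize (N a) + esize (B a) + 2 =
          esize (L a) + (esize (N a) + esize (B a) + 2) := by ring
        rw [e, pow_add (2 : ℕ) (esize (L a))]
        exact Nat.mul_lt_mul_of_le_of_lt g6 g5 (by positivity)
      have e2 := esize_ints_le (r := s.2)
        (k := esize (L a) + esize (N a) + esize (B a) + 2)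
        (fun x hx => lt_of_le_of_lt (h3 x hx) hbd)
      have e3 : esize s.1 ≤ (esize (L a) + esize (N a) + esize (B a) + 2) + 3 := by
        apply esize_int_le
        omega
      have e4 := esize_pair s.1 s.2
      simp only [Prod.mk.eta] at e4
      rw [h2] at e2
      have f2 : i * (2 * ((esize (L a) + esize (N a) + esize (B a) + 2) + 3) + 1) ≤
          (esize (L a)) * (2 * ((esize (L a) + esize (N a) + esize (B a) + 2) + 3) + 1) := by
        (clear * - hi'; gcongr)
      rw [e4]
      omega
  exact h1.snd.reverse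

end digits

section alg

theorem pt_natIte {α β : Type*} [Enc α] [Enc β] {f g : α → ℕ} {x y : α → β} (hf : PT A f)
    (hg : PT A g) (hx : PT A x) (hy : PT A y) :
    PT A (fun a => if f a = g a then x a else y a) :=
  PT.ite (p := fun a => f a = g a) (PT.eqNat hf hg) hx hy

theorem pt_memIte {α β : Type*} [Enc α] [Enc β] {f g : α → ℕ} {b : α → List ℕ} {x y : α → β}
    (hf : PT A f) (hg : PT A g) (hb : PT A b) (hx : PT A x) (hy : PT A y) :
    PT A (fun a => if f a ∈ b a ∧ g a ∈ b a then x a else y a) :=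
  PT.ite (p := fun a => f a ∈ b a ∧ g a ∈ b a)
    (PT.decide_and (p := fun a => f a ∈ b a) (q := fun a => g a ∈ b a) (PT.mem hb hf)
      (PT.mem hb hg)) hx hy

variable {α : Type u} [Enc α]

theorem pt_idL {L : α → List ℕ} (hL : PT A L) : PT A (fun a => idL (L a)) :=
  PT.map (f := fun a i => (L a).map fun k => if i = k then (1 : ℤ) else 0) hL
    (PT.map (f := fun (p : α × ℕ) k => if p.2 = k then (1 : ℤ) else 0) (hL.comp PT.fst')
      (pt_natIte PT.fst'.snd PT.snd' (PT.const 1) (PT.const 0)))

theorem pt_entry (c : ℤ) {blocks : α → List (List ℕ)} {zs : α → List (List ℕ × ℤ × ℤ)}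
    {i k : α → ℕ} (hb : PT A blocks) (hz : PT A zs) (hi : PT A i) (hk : PT A k) :
    PT A (fun a => entry c (blocks a) (zs a) (i a) (k a)) := by
  have h1 : PT A (fun a => if i a = k a then c else 0) :=
    pt_natIte hi hk (PT.const c) (PT.const 0)
  have h2 : PT A (fun a => ((blocks a).map fun b => if i a ∈ b ∧ k a ∈ b then (1 : ℤ) else 0).sum) :=
    PT.intSum (PT.map (f := fun a b => if i a ∈ b ∧ k a ∈ b then (1 : ℤ) else 0) hb
      (pt_memIte (hi.comp PT.fst') (hk.comp PT.fst') PT.snd' (PT.const 1) (PT.const 0)))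
  have h3 : PT A (fun a => ((zs a).map fun z => (if i a = k a ∧ i a ∈ z.1 then z.2.1 else 0) +
      (if i a ∈ z.1 ∧ k a ∈ z.1 then z.2.2 else 0)).sum) := by
    refine PT.intSum (PT.map (f := fun a z => (if i a = k a ∧ i a ∈ z.1 then z.2.1 else 0) +
      (if i a ∈ z.1 ∧ k a ∈ z.1 then z.2.2 else 0)) hz (PT.intAdd ?_ ?_))
    · exact PT.ite (p := fun p : α × (List ℕ × ℤ × ℤ) => i p.1 = k p.1 ∧ i p.1 ∈ p.2.1)
        (PT.decide_and (p := fun p : α × (List ℕ × ℤ × ℤ) => i p.1 = k p.1)
          (q := fun p : α × (List ℕ × ℤ × ℤ) => i p.1 ∈ p.2.1)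
          (PT.eqNat (hi.comp PT.fst') (hk.comp PT.fst')) (PT.mem PT.snd'.fst (hi.comp PT.fst')))
        PT.snd'.snd.fst (PT.const 0)
    · exact pt_memIte (hi.comp PT.fst') (hk.comp PT.fst') PT.snd'.fst PT.snd'.snd.snd (PT.const 0)
  exact PT.intAdd (PT.intSub h1 h2) h3

theorem pt_matL (c : ℤ) {L : α → List ℕ} {blocks : α → List (List ℕ)}
    {zs : α → List (List ℕ × ℤ × ℤ)} (hL : PT A L) (hb : PT A blocks) (hz : PT A zs) :
    PT A (fun a => matL (L a) c (blocks a) (zs a)) :=
  PT.map (f := fun a i => (L a).map fun k => entry c (blocks a) (zs a) i k) hL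
    (PT.map (f := fun (p : α × ℕ) k => entry c (blocks p.1) (zs p.1) p.2 k) (hL.comp PT.fst')
      (pt_entry c (hb.comp PT.fst'.fst) (hz.comp PT.fst'.fst) PT.fst'.snd PT.snd'))

theorem pt_absSum {M : α → List (List ℤ)} (hM : PT A M) : PT A (fun a => absSum (M a)) :=
  PT.intSum (PT.map (f := fun _ r => (r.map fun a => |a|).sum) hM
    (PT.intSum (PT.map (f := fun (_ : α × List ℤ) x => |x|) PT.snd' (PT.intAbs PT.snd'))))

theorem pt_base (q : ℕ) {L : α → List ℕ} {N : α → ℤ} (hL : PT A L) (hN : PT A N) :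
    PT A (fun a => base q (L a) (N a)) := by
  refine PT.intMul (PT.const 5) (PT.intProd (PT.map
    (f := fun a _ => (((L a).length : ℤ) + 1) ^ (q + 1) * (N a + q + 3)) hL ?_))
  exact PT.intMul (PT.intPow (PT.intAdd (PT.natCast (hL.comp PT.fst').length) (PT.const 1)) (q + 1))
    (PT.intAdd (PT.intAdd (hN.comp PT.fst') (PT.const (q : ℤ))) (PT.const 3))

theorem pt_filterLt {L : α → List ℕ} {k : α → ℕ} (hL : PT A L) (hk : PT A k) :
    PT A (fun a => (L a).filter (· < k a)) :=
  PT.filter (f := fun a x => decide (x < k a)) hL (PT.lt PT.snd' (hk.comp PT.fst'))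

theorem pt_wL (d : ℕ) {L : α → List ℕ} {s k : α → ℕ} (hL : PT A L) (hs : PT A s) (hk : PT A k) :
    PT A (fun a => wL d (L a) (s a) (k a)) := by
  have hds : PT A (fun a => d * s a) := (PT.const d).mul hs
  refine PT.intMul (PT.intMul (PT.intProd (PT.map
    (f := fun a (j : ℕ) => -((d : ℤ) * ((s a : ℤ) - (j : ℤ)))) (pt_filterLt hL hk) ?_))
    (PT.intProd (PT.map (f := fun _ (j : ℕ) => ((j : ℤ) + 1))
      (pt_filterLt hL ((hds.sub hk).sub (PT.const 1))) ?_))) ?_
  · exact PT.intNeg (PT.intMul (PT.const (d : ℤ)) (PT.subNat (hs.comp PT.fst') PT.snd'))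
  · exact PT.intAdd (PT.natCast PT.snd') (PT.const 1)
  · exact PT.intMul (PT.const (d : ℤ)) (PT.subNat hs hk)

theorem pt_vL (d : ℕ) {L : α → List ℕ} {s k : α → ℕ} (hL : PT A L) (hs : PT A s) (hk : PT A k) :
    PT A (fun a => vL d (L a) (s a) (k a)) := by
  have hds : PT A (fun a => d * s a) := (PT.const d).mul hs
  refine PT.intMul (PT.intMul (PT.intProd (PT.map
    (f := fun a (j : ℕ) => -((d : ℤ) * ((s a : ℤ) - (j : ℤ))))
      (pt_filterLt hL (hk.add (PT.const 1))) ?_)) (PT.const ((d : ℤ) - 1)))
    (PT.intProd (PT.map (f := fun _ (j : ℕ) => ((j : ℤ) + 1))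
      (pt_filterLt hL ((hds.sub hk).sub (PT.const 2))) ?_))
  · exact PT.intNeg (PT.intMul (PT.const (d : ℤ)) (PT.subNat (hs.comp PT.fst') PT.snd'))
  · exact PT.intAdd (PT.natCast PT.snd') (PT.const 1)

theorem pt_closedL (d : ℕ) (c : ℤ) (q : ℕ) {L X : α → List ℕ} {g : α → St → ℤ} {st : α → St}
    (hL : PT A L) (hX : PT A X) (hg : PT A (fun p : α × St => g p.1 p.2)) (hst : PT A st) :
    PT A (fun a => closedL d c (L a) q (g a) (X a) (st a)) := by
  have hs : PT A (fun a => (X a).length / d) := PT.div hX.length (PT.const d)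
  have hB : PT A (fun a => base q (L a) (absSum (matL (L a) c (st a).1 (st a).2))) :=
    pt_base q hL (pt_absSum (pt_matL c hL hst.fst hst.snd))
  have hv : ∀ t : ℤ, PT A (fun a => g a ((st a).1, (X a,
      base q (L a) (absSum (matL (L a) c (st a).1 (st a).2)), t) :: (st a).2)) := fun t =>
    hg.comp (PT.id.pair (hst.fst.pair (PT.cons (hX.pair (hB.pair (PT.const t))) hst.snd)))
  refine PT.ite (p := fun a => (X a).length / d = 0) (PT.eqNat hs (PT.const 0))
    (hg.comp (PT.id.pair hst)) (PT.intAdd (pt_dot ?_ ?_) (pt_dot ?_ ?_))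
  · exact PT.map (f := fun a k => wL d (L a) ((X a).length / d) k)
      (pt_filterLt hL (hs.add (PT.const 1)))
      (pt_wL d (hL.comp PT.fst') (hs.comp PT.fst') PT.snd')
  · exact pt_digitsL hB hL (hv 0)
  · exact PT.map (f := fun a k => vL d (L a) ((X a).length / d) k)
      (pt_filterLt hL hs)
      (pt_vL d (hL.comp PT.fst') (hs.comp PT.fst') PT.snd')
  · exact pt_digitsL hB hL (PT.intSub (hv 1) (hv 0))

end alg

theorem pt_lvl (d : ℕ) (c : ℤ) (q : ℕ) : ∀ {α : Type u} [Enc α] {L X₀ : α → List ℕ} {st : α → St},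
    PT A L → PT A X₀ → PT A st → PT A (fun a => lvl d c (L a) (X₀ a) q (st a)) := by
  induction q with
  | zero =>
    intro α _ L X₀ st hL _ hst
    exact pt_detL (pt_idL hL) (pt_matL c hL hst.fst hst.snd)
  | succ q ih =>
    intro α _ L X₀ st hL hX hst
    exact pt_closedL d c q hL hX (g := fun a => lvl d c (L a) (X₀ a) q)
      (ih (hL.comp PT.fst') (hX.comp PT.fst') PT.snd') hst

theorem pt_valF (d : ℕ) (c : ℤ) (q f : ℕ) : ∀ {α : Type u} [Enc α] {L X₀ X γ : α → List ℕ}
    {blocks : α → List (List ℕ)}, PT A L → PT A X₀ → PT A X → PT A γ → PT A blocks →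
    PT A (fun a => valF d c (L a) (X₀ a) q f (X a) (γ a) (blocks a)) := by
  induction f with
  | zero =>
    intro α _ L X₀ X γ blocks _ _ _ _ _
    exact PT.const 0
  | succ f ih =>
    intro α _ L X₀ X γ blocks hL hX₀ hX hγ hb
    refine PT.ite (p := fun a => (γ a).length = d) (PT.eqNat hγ.length (PT.const d)) ?_ ?_
    · exact pt_closedL d c q hL hX (g := fun a => lvl d c (L a) (X₀ a) q)
        (pt_lvl d c q (hL.comp PT.fst') (hX₀.comp PT.fst') PT.snd')
        ((PT.cons hγ hb).pair (PT.const []))
    · refine PT.intSum (PT.map (f := fun a x => valF d c (L a) (X₀ a) q f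
        ((X a).filter (· ≠ x)) (x :: γ a) (blocks a)) hX ?_)
      refine ih (hL.comp PT.fst') (hX₀.comp PT.fst') ?_ (PT.cons PT.snd' (hγ.comp PT.fst'))
        (hb.comp PT.fst')
      exact PT.filter (f := fun (p : α × ℕ) y => decide (y ≠ p.2)) (hX.comp PT.fst')
        (PT.decide_not (p := fun p : (α × ℕ) × ℕ => p.2 = p.1.2) (PT.eqNat PT.snd' PT.fst'.snd))

section run

variable {α : Type u} [Enc α]

theorem pt_pick (d : ℕ) (c : ℤ) (q : ℕ) {L X₀ X γ : α → List ℕ} {blocks : α → List (List ℕ)}
    (hL : PT A L) (hX₀ : PT A X₀) (hX : PT A X) (hγ : PT A γ) (hb : PT A blocks) :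
    PT A (fun a => pick d c (L a) (X₀ a) q (X a) (γ a) (blocks a)) := by
  refine PT.headD (PT.filter (f := fun a x => decide (valF d c (L a) (X₀ a) q (d + 1)
    ((X a).filter (· ≠ x)) (x :: γ a) (blocks a) < 0)) hX ?_) (PT.const 0)
  refine PT.intLt (pt_valF d c q (d + 1) (hL.comp PT.fst') (hX₀.comp PT.fst') ?_
    (PT.cons PT.snd' (hγ.comp PT.fst')) (hb.comp PT.fst')) (PT.const 0)
  exact PT.filter (f := fun (p : α × ℕ) y => decide (y ≠ p.2)) (hX.comp PT.fst')
    (PT.decide_not (p := fun p : (α × ℕ) × ℕ => p.2 = p.1.2) (PT.eqNat PT.snd' PT.fst'.snd))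

theorem pt_step (d : ℕ) (c : ℤ) (q : ℕ) {L X₀ : α → List ℕ}
    {s : α → List (List ℕ) × List ℕ × List ℕ} (hL : PT A L) (hX₀ : PT A X₀) (hs : PT A s) :
    PT A (fun a => step d c (L a) (X₀ a) q (s a)) := by
  have hp := pt_pick d c q hL hX₀ hs.snd.fst hs.snd.snd hs.fst
  have hf : PT A (fun a => (s a).2.1.filter
      (· ≠ pick d c (L a) (X₀ a) q (s a).2.1 (s a).2.2 (s a).1)) :=
    PT.filter (f := fun a y => decide (y ≠ pick d c (L a) (X₀ a) q (s a).2.1 (s a).2.2 (s a).1))
      hs.snd.fst (PT.decide_not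
        (p := fun p : α × ℕ => p.2 = pick d c (L p.1) (X₀ p.1) q (s p.1).2.1 (s p.1).2.2 (s p.1).1)
        (PT.eqNat PT.snd' (hp.comp PT.fst')))
  exact PT.ite (p := fun a => (s a).2.2.length + 1 = d)
    (PT.eqNat (hs.snd.snd.length.add (PT.const 1)) (PT.const d))
    ((PT.cons (PT.cons hp hs.snd.snd) hs.fst).pair (hf.pair (PT.const [])))
    (hs.fst.pair (hf.pair (PT.cons hp hs.snd.snd)))

theorem pick_esize (d : ℕ) (c : ℤ) (L X₀ : List ℕ) (q : ℕ) (X γ : List ℕ)
    (blocks : List (List ℕ)) : esize (pick d c L X₀ q X γ blocks) ≤ esize X := by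
  have key : ∀ (l : List ℕ) (p : ℕ → Bool), esize ((l.filter p).headD 0) ≤ esize l := by
    intro l p
    rcases e : l.filter p with _ | ⟨b, t⟩
    · simp [esize_nat]
    · have h1 : b ∈ l := by
        have : b ∈ l.filter p := by rw [e]; exact List.mem_cons_self
        exact List.mem_of_mem_filter this
      exact esize_le_of_mem h1
  exact key _ _

theorem step_bound (d : ℕ) (c : ℤ) (L X₀ : List ℕ) (q : ℕ) (blocks : List (List ℕ)) (i : ℕ) :
    esize ((step d c L X₀ q)^[i] (blocks, X₀, [])).2.1 ≤ esize X₀ ∧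
    esize ((step d c L X₀ q)^[i] (blocks, X₀, [])).1 +
      2 * esize ((step d c L X₀ q)^[i] (blocks, X₀, [])).2.2 ≤
      esize blocks + i * (4 * esize X₀ + 3) := by
  induction i with
  | zero => simp [esize_list_nil]
  | succ i ih =>
    rw [iterate_succ_apply']
    set s := (step d c L X₀ q)^[i] (blocks, X₀, []) with hs
    obtain ⟨h1, h2⟩ := ih
    have hp := pick_esize d c L X₀ q s.2.1 s.2.2 s.1
    set a := pick d c L X₀ q s.2.1 s.2.2 s.1 with ha
    have hf : esize (s.2.1.filter (· ≠ a)) ≤ esize s.2.1 :=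
      esize_le_of_sublist List.filter_sublist
    have e : (i + 1) * (4 * esize X₀ + 3) = i * (4 * esize X₀ + 3) + (4 * esize X₀ + 3) := by
      ring
    have hstep : step d c L X₀ q s = if s.2.2.length + 1 = d
        then ((a :: s.2.2) :: s.1, s.2.1.filter (· ≠ a), [])
        else (s.1, s.2.1.filter (· ≠ a), a :: s.2.2) := rfl
    rw [hstep]
    split_ifs with hc
    · refine ⟨hf.trans h1, ?_⟩
      simp only [esize_list_cons, esize_list_nil]
      omega
    · refine ⟨hf.trans h1, ?_⟩
      simp only [esize_list_cons]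
      omega

theorem pt_runPiece (d : ℕ) (c : ℤ) (q : ℕ) {L X₀ : α → List ℕ} {blocks : α → List (List ℕ)}
    (hL : PT A L) (hX₀ : PT A X₀) (hb : PT A blocks) :
    PT A (fun a => runPiece d c (L a) (X₀ a) q (blocks a)) := by
  have h1 : PT A (fun a => (X₀ a).foldl (fun s _ => step d c (L a) (X₀ a) q s)
      (blocks a, X₀ a, ([] : List ℕ))) := by
    refine pt_foldl_const (step := fun a s => step d c (L a) (X₀ a) q s) hX₀
      (hb.pair (hX₀.pair (PT.const [])))
      (pt_step d c q (hL.comp PT.fst') (hX₀.comp PT.fst') PT.snd')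
      (b := fun a => 2 * (esize (blocks a) + esize (X₀ a) * (4 * esize (X₀ a) + 3)) +
        2 * esize (X₀ a) + 2) ?_ fun a i hi => ?_
    · have := hX₀.pbd
      have := hb.pbd
      (clear * - hb hX₀; fun_prop)
    · obtain ⟨h1, h2⟩ := step_bound d c (L a) (X₀ a) q (blocks a) i
      set s := (step d c (L a) (X₀ a) q)^[i] (blocks a, X₀ a, []) with hs
      have hi' : i ≤ esize (X₀ a) := hi.trans (length_le_esize _)
      have e4 : esize s = 2 * esize s.1 + (2 * esize s.2.1 + esize s.2.2 + 1) + 1 := by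
        have h7 := esize_pair s.1 s.2
        have h8 := esize_pair s.2.1 s.2.2
        simp only [Prod.mk.eta] at h7 h8
        rw [h7, h8]
      have f2 : i * (4 * esize (X₀ a) + 3) ≤ esize (X₀ a) * (4 * esize (X₀ a) + 3) := by
        (clear * - hi'; gcongr)
      rw [e4]
      omega
  exact h1.fst

theorem pt_run (d : ℕ) (c : ℤ) (q : ℕ) : ∀ {L X₀ : α → List ℕ} {blocks : α → List (List ℕ)},
    PT A L → PT A X₀ → PT A blocks → PT A (fun a => run d c (L a) (X₀ a) q (blocks a)) := by
  induction q with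
  | zero => intro L X₀ blocks _ _ hb; exact hb
  | succ q ih =>
    intro L X₀ blocks hL hX hb
    exact ih hL hX (pt_runPiece d c q hL hX hb)

theorem pt_starB (d : ℕ) {L : α → List ℕ} {r s : α → ℕ} (hL : PT A L) (hr : PT A r)
    (hs : PT A s) : PT A (fun a => starB d (L a) (r a) (s a)) := by
  refine PT.map (f := fun a t => (d * r a + t / d) ::
    (L a).filter fun x => t * (d - 1) ≤ x ∧ x < (t + 1) * (d - 1))
    (pt_filterLt hL ((PT.const d).mul hs)) ?_
  refine PT.cons (((PT.const d).mul (hr.comp PT.fst')).add (PT.div PT.snd' (PT.const d))) ?_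
  exact PT.filter (f := fun (p : α × ℕ) x => decide (p.2 * (d - 1) ≤ x ∧ x < (p.2 + 1) * (d - 1)))
    (hL.comp PT.fst') (PT.decide_and (p := fun q : (α × ℕ) × ℕ => q.1.2 * (d - 1) ≤ q.2)
      (q := fun q : (α × ℕ) × ℕ => q.2 < (q.1.2 + 1) * (d - 1))
      (PT.le (PT.fst'.snd.mul (PT.const (d - 1))) PT.snd')
      (PT.lt PT.snd' ((PT.fst'.snd.add (PT.const 1)).mul (PT.const (d - 1)))))

theorem pt_plainB (d : ℕ) {L : α → List ℕ} {r s : α → ℕ} (hL : PT A L) (hr : PT A r)
    (hs : PT A s) : PT A (fun a => plainB d (L a) (r a) (s a)) := by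
  have hds : PT A (fun a => d * s a * (d - 1)) := ((PT.const d).mul hs).mul (PT.const (d - 1))
  refine PT.map (f := fun a t =>
    (L a).filter fun x => d * s a * (d - 1) + t * d ≤ x ∧ x < d * s a * (d - 1) + (t + 1) * d)
    (pt_filterLt hL (hr.sub ((PT.const (d - 1)).mul hs))) ?_
  exact PT.filter (f := fun (p : α × ℕ) x => decide (d * s p.1 * (d - 1) + p.2 * d ≤ x ∧
      x < d * s p.1 * (d - 1) + (p.2 + 1) * d))
    (hL.comp PT.fst') (PT.decide_and
      (p := fun q : (α × ℕ) × ℕ => d * s q.1.1 * (d - 1) + q.1.2 * d ≤ q.2)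
      (q := fun q : (α × ℕ) × ℕ => q.2 < d * s q.1.1 * (d - 1) + (q.1.2 + 1) * d)
      (PT.le ((hds.comp PT.fst'.fst).add (PT.fst'.snd.mul (PT.const d))) PT.snd')
      (PT.lt PT.snd' ((hds.comp PT.fst'.fst).add
        ((PT.fst'.snd.add (PT.const 1)).mul (PT.const d)))))

theorem pt_blocksOf (d : ℕ) {L : α → List ℕ} (hL : PT A L) :
    PT A (fun a => blocksOf d (L a)) := by
  have hr : PT A (fun a => (L a).length / d) := PT.div hL.length (PT.const d)
  have hs : PT A (fun a => (L a).length % d) := PT.mod hL.length (PT.const d)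
  exact pt_run d _ (d - 1) hL (pt_filterLt hL ((PT.const d).mul hr))
    (PT.append (pt_plainB d hL hr hs) (pt_starB d hL hr hs))

end run

end Vale.Agent.P049
end
end
end

section

section

section

/-!
Core mathematical definitions for P049 (interlacing family of random block partitions).
-/

namespace Vale.Agent.P049

open Finset Matrix Polynomial

variable {α : Type*} [Fintype α] [DecidableEq α] {R : Type*} [CommRing R]

/-- `1_b 1_bᵀ`. -/
def outer (R : Type*) [CommRing R] (b : Finset α) : Matrix α α R :=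
  Matrix.of fun i k => if i ∈ b ∧ k ∈ b then 1 else 0

/-- The diagonal 0/1 matrix of `X`. -/
def diagOn (R : Type*) [CommRing R] (X : Finset α) : Matrix α α R :=
  Matrix.diagonal fun i => if i ∈ X then 1 else 0

/-- The action of a permutation on a matrix: `(σ • B) (σ i) (σ k) = B i k`. -/
def pact (σ : Equiv.Perm α) (B : Matrix α α R) : Matrix α α R :=
  B.submatrix σ.symm σ.symm

/-- `ordSum d g n X γ A`: sum of `g (A - Σ 1_b 1_bᵀ)` over all ways of drawing `n` further elements of
`X` one after the other, closing a block whenever it has `d` elements (`γ` = current partial block). -/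
def ordSum (d : ℕ) (g : Matrix α α R → R) : ℕ → Finset α → Finset α → Matrix α α R → R
  | 0, _, _, A => g A
  | n + 1, X, γ, A =>
      ∑ x ∈ X, if γ.card + 1 = d then ordSum d g n (X.erase x) ∅ (A - outer R (insert x γ))
        else ordSum d g n (X.erase x) (insert x γ) A

/-- The value of the child of the node `(n + 1, X, γ, A)` in which `x` is drawn. -/
def child (d : ℕ) (g : Matrix α α R → R) (n : ℕ) (X γ : Finset α) (A : Matrix α α R) (x : α) : R :=
  if γ.card + 1 = d then ordSum d g n (X.erase x) ∅ (A - outer R (insert x γ))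
        else ordSum d g n (X.erase x) (insert x γ) A

/-- `q` further full random pieces on `X₀`. -/
def restSum (d : ℕ) (X₀ : Finset α) : ℕ → Matrix α α R → R
  | 0 => Matrix.det
  | q + 1 => ordSum d (restSum d X₀ q) X₀.card X₀ ∅

/-- Base matrices: `B` is one particular completion of the state `(n, X, γ)`. -/
def IsBase (d : ℕ) : ℕ → Finset α → Finset α → Matrix α α R → Prop
  | 0, _, _, B => B = 0
  | n + 1, X, γ, B =>
      ∃ x ∈ X, if γ.card + 1 = d then ∃ B', IsBase d n (X.erase x) ∅ B' ∧ B = outer R (insert x γ) + B'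
        else IsBase d n (X.erase x) (insert x γ) B

/-- The block matrix of the partition of `X` given by the labelling `blk`. -/
def blockMat (R : Type*) [CommRing R] (X : Finset α) (blk : α → ℕ) : Matrix α α R :=
  Matrix.of fun i k => if i ∈ X ∧ k ∈ X ∧ blk i = blk k then 1 else 0

/-- `blk` partitions `X` into `s` blocks (labels `< s`) of size `d`. -/
def IsPartition (d s : ℕ) (X : Finset α) (blk : α → ℕ) : Prop :=
  (∀ x ∈ X, blk x < s) ∧ ∀ κ < s, (X.filter fun x => blk x = κ).card = d

/-- coefficient `(-1)^k (a_k - k b_k)` of the closed form -/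
def wC (d s k : ℕ) : ℤ :=
  (∏ j ∈ range k, (-((d : ℤ) * ((s : ℤ) - j)))) * (∏ j ∈ range (d * s - k - 1), ((j : ℤ) + 1)) *
    ((d : ℤ) * ((s : ℤ) - k))

/-- coefficient `(-1)^(k+1) b_(k+1)` of the closed form -/
def vC (d s k : ℕ) : ℤ :=
  (∏ j ∈ range (k + 1), (-((d : ℤ) * ((s : ℤ) - j)))) * ((d : ℤ) - 1) *
    (∏ j ∈ range (d * s - k - 2), ((j : ℤ) + 1))

/-- The polynomial matrix `A + z D_X + t 1_X 1_Xᵀ`, `t` an integer. -/
noncomputable def zMat (A : Matrix α α R) (X : Finset α) (t : ℤ) : Matrix α α R[X] :=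
  A.map C + (Polynomial.X : R[X]) • diagOn R[X] X + (t : R[X]) • outer R[X] X

/-- Closed form operator. -/
noncomputable def closedOp (d s : ℕ) (g : Matrix α α R[X] → R[X]) (X : Finset α)
    (A : Matrix α α R) : R :=
  (∑ k ∈ range (s + 1), (wC d s k : R) * (g (zMat A X 0)).coeff k) +
    ∑ k ∈ range s, (vC d s k : R) * (g (zMat A X 1) - g (zMat A X 0)).coeff k

end Vale.Agent.P049
end
end
end

section

section

section

/-! Counting permutations of `X` for which a set meets every block at most once. -/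

namespace Vale.Agent.P049

open Finset Equiv

variable {α : Type*} [DecidableEq α]

theorem mem_perms {X : Finset α} {σ : Perm α} :
    σ ∈ permsOfFinset X ↔ ∀ x, σ x ≠ x → x ∈ X :=
  ⟨fun h _ hx => mem_perms_of_finset_iff.1 h hx, fun h => mem_perms_of_finset_iff.2 fun {x} hx => h x hx⟩

theorem perms_one {X : Finset α} : (1 : Perm α) ∈ permsOfFinset X := by
  rw [mem_perms]; intro x hx; simp at hx

theorem perms_mul {X : Finset α} {σ τ : Perm α} (hσ : σ ∈ permsOfFinset X)
    (hτ : τ ∈ permsOfFinset X) : σ * τ ∈ permsOfFinset X := by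
  rw [mem_perms] at *
  intro x hx
  by_cases h : τ x = x
  · apply hσ; intro h'; apply hx; simp [h, h']
  · exact hτ x h

theorem perms_swap {X : Finset α} {a b : α} (ha : a ∈ X) (hb : b ∈ X) :
    swap a b ∈ permsOfFinset X := by
  rw [mem_perms]
  intro x hx
  by_cases h1 : x = a
  · exact h1 ▸ ha
  by_cases h2 : x = b
  · exact h2 ▸ hb
  exact absurd (swap_apply_of_ne_of_ne h1 h2) hx

theorem perms_inv {X : Finset α} {σ : Perm α} (hσ : σ ∈ permsOfFinset X) :
    σ⁻¹ ∈ permsOfFinset X := by
  rw [mem_perms] at *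
  intro x hx
  apply hσ; intro h; apply hx
  exact (Equiv.symm_apply_eq σ).2 h.symm

theorem perms_symm_mem {X : Finset α} {σ : Perm α} (hσ : σ ∈ permsOfFinset X) {x : α} (hx : x ∈ X) :
    σ.symm x ∈ X := by
  by_cases h : σ (σ.symm x) = σ.symm x
  · rw [Equiv.apply_symm_apply] at h
    exact h ▸ hx
  · exact (mem_perms.1 hσ) _ h

theorem perms_apply_mem {X : Finset α} {σ : Perm α} (hσ : σ ∈ permsOfFinset X) {x : α} (hx : x ∈ X) :
    σ x ∈ X := by
  by_cases h : σ (σ x) = σ x
  · rw [σ.injective h]; exact hx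
  · exact (mem_perms.1 hσ) _ h

/-- permutations of `X` for which `J` meets every block at most once -/
def TT (X : Finset α) (blk : α → ℕ) (J : Finset α) : Finset (Perm α) :=
  (permsOfFinset X).filter fun σ => ∀ x ∈ J, ∀ y ∈ J, blk (σ.symm x) = blk (σ.symm y) → x = y

/-- the number `a_k` -/
def aC (d s k : ℕ) : ℕ := d ^ k * s.descFactorial k * (d * s - k).factorial

/-- the number `b_k` -/
def bC (d s k : ℕ) : ℕ := d ^ k * s.descFactorial k * ((d - 1) * (d * s - k - 1).factorial)

theorem mem_TT {X : Finset α} {blk : α → ℕ} {J : Finset α} {σ : Perm α} :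
    σ ∈ TT X blk J ↔ σ ∈ permsOfFinset X ∧
      ∀ x ∈ J, ∀ y ∈ J, blk (σ.symm x) = blk (σ.symm y) → x = y := by
  simp only [TT, mem_filter]

/-- elements of `X` in the same block as `i` (for `σ`) -/
def bl (X : Finset α) (blk : α → ℕ) (σ : Perm α) (i : α) : Finset α :=
  X.filter fun k => blk (σ.symm k) = blk (σ.symm i)

theorem card_bl {d s : ℕ} {X : Finset α} {blk : α → ℕ} (hb : IsPartition d s X blk) {σ : Perm α}
    (hσ : σ ∈ permsOfFinset X) {i : α} (hi : i ∈ X) : (bl X blk σ i).card = d := by
  have h1 := hb.2 (blk (σ.symm i)) (hb.1 _ (perms_symm_mem hσ hi))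
  rw [← h1]
  apply card_bij (fun k _ => σ.symm k)
  · intro k hk
    simp only [bl, mem_filter] at hk ⊢
    exact ⟨perms_symm_mem hσ hk.1, hk.2⟩
  · intro k _ k' _ h
    exact σ.symm.injective h
  · intro k hk
    simp only [mem_filter] at hk
    refine ⟨σ k, ?_, by simp⟩
    simp only [bl, mem_filter, Equiv.symm_apply_apply]
    exact ⟨perms_apply_mem hσ hk.1, hk.2⟩

/-- In a transversal situation the blocks of the elements of `J` cover `d |J|` elements. -/
theorem card_free {d s : ℕ} {X : Finset α} {blk : α → ℕ} (hb : IsPartition d s X blk)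
    (hX : X.card = d * s) {J : Finset α} (hJ : J ⊆ X) {σ : Perm α} (hσ : σ ∈ TT X blk J) :
    ((X \ J).filter fun k => ∀ x ∈ J, blk (σ.symm k) ≠ blk (σ.symm x)).card + d * J.card = d * s := by
  rw [mem_TT] at hσ
  have h1 : (J.biUnion fun i => bl X blk σ i).card = d * J.card := by
    rw [card_biUnion]
    · rw [sum_congr rfl (fun i hi => card_bl hb hσ.1 (hJ hi))]
      simp [mul_comm]
    · intro x hx y hy hxy
      rw [Function.onFun, disjoint_left]
      intro k hk hk'
      simp only [bl, mem_filter] at hk hk'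
      exact hxy (hσ.2 x hx y hy (hk.2.symm.trans hk'.2))
  have h2 : ((X \ J).filter fun k => ∀ x ∈ J, blk (σ.symm k) ≠ blk (σ.symm x)) =
      X \ (J.biUnion fun i => bl X blk σ i) := by
    ext k
    simp only [mem_filter, mem_sdiff, bl, mem_biUnion, not_exists, not_and]
    constructor
    · rintro ⟨⟨hk, hkJ⟩, h⟩
      exact ⟨hk, fun x hx _ => h x hx⟩
    · rintro ⟨hk, h⟩
      exact ⟨⟨hk, fun hkJ => h k hkJ hk rfl⟩, fun x hx => h x hx hk⟩
  have h3 : (J.biUnion fun i => bl X blk σ i) ⊆ X := by
    intro k hk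
    simp only [mem_biUnion, bl, mem_filter] at hk
    obtain ⟨_, _, h, _⟩ := hk
    exact h
  rw [h2, card_sdiff_of_subset h3, h1, hX]
  have : d * J.card ≤ d * s := by
    rw [← h1, ← hX]; exact card_le_card h3
  omega

theorem swap_symm_apply {σ : Perm α} {a b x : α} : (swap a b * σ).symm x = σ.symm (swap a b x) := by
  have : (swap a b * σ).symm = σ.symm * swap a b := by
    change (swap a b * σ)⁻¹ = σ⁻¹ * swap a b
    simp
  rw [this]; rfl

theorem card_TT_insert_eq {X : Finset α} {blk : α → ℕ} {J : Finset α} {k k' : α}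
    (hk : k ∈ X \ J) (hk' : k' ∈ X \ J) :
    (TT X blk (insert k J)).card = (TT X blk (insert k' J)).card := by
  rw [mem_sdiff] at hk hk'
  apply card_bij (fun σ _ => swap k k' * σ)
  · intro σ hσ
    rw [mem_TT] at hσ ⊢
    refine ⟨perms_mul (perms_swap hk.1 hk'.1) hσ.1, ?_⟩
    intro x hx y hy h
    rw [swap_symm_apply, swap_symm_apply] at h
    have key : ∀ z ∈ insert k' J, swap k k' z ∈ insert k J := by
      intro z hz
      rw [mem_insert] at hz ⊢
      rcases hz with rfl | hz
      · left; simp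
      · right
        have h1 : z ≠ k := fun h => hk.2 (h ▸ hz)
        have h2 : z ≠ k' := fun h => hk'.2 (h ▸ hz)
        rwa [swap_apply_of_ne_of_ne h1 h2]
    exact (swap k k').injective (hσ.2 _ (key x hx) _ (key y hy) h)
  · intro σ _ τ _ h
    exact mul_left_cancel h
  · intro σ hσ
    refine ⟨swap k k' * σ, ?_, by rw [← mul_assoc]; simp⟩
    rw [mem_TT] at hσ ⊢
    refine ⟨perms_mul (perms_swap hk.1 hk'.1) hσ.1, ?_⟩
    intro x hx y hy h
    rw [swap_symm_apply, swap_symm_apply] at h
    have key : ∀ z ∈ insert k J, swap k k' z ∈ insert k' J := by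
      intro z hz
      rw [mem_insert] at hz ⊢
      rcases hz with rfl | hz
      · left; simp
      · right
        have h1 : z ≠ k := fun h => hk.2 (h ▸ hz)
        have h2 : z ≠ k' := fun h => hk'.2 (h ▸ hz)
        rwa [swap_apply_of_ne_of_ne h1 h2]
    exact (swap k k').injective (hσ.2 _ (key x hx) _ (key y hy) h)

theorem mem_TT_insert {X : Finset α} {blk : α → ℕ} {J : Finset α} {k : α} (hk : k ∉ J) {σ : Perm α} :
    σ ∈ TT X blk (insert k J) ↔ σ ∈ TT X blk J ∧ ∀ x ∈ J, blk (σ.symm k) ≠ blk (σ.symm x) := by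
  rw [mem_TT, mem_TT]
  constructor
  · rintro ⟨h1, h2⟩
    refine ⟨⟨h1, fun x hx y hy h => h2 x (mem_insert_of_mem hx) y (mem_insert_of_mem hy) h⟩, ?_⟩
    intro x hx h
    have := h2 k (mem_insert_self _ _) x (mem_insert_of_mem hx) h
    exact hk (this ▸ hx)
  · rintro ⟨⟨h1, h2⟩, h3⟩
    refine ⟨h1, ?_⟩
    intro x hx y hy h
    rw [mem_insert] at hx hy
    rcases hx with rfl | hx <;> rcases hy with rfl | hy
    · rfl
    · exact absurd h (h3 y hy)
    · exact absurd h.symm (h3 x hx)
    · exact h2 x hx y hy h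

theorem card_TT_insert {d s : ℕ} {X : Finset α} {blk : α → ℕ} (hb : IsPartition d s X blk)
    (hX : X.card = d * s) {J : Finset α} (hJ : J ⊆ X) {k : α} (hk : k ∈ X \ J) :
    (d * s - J.card) * (TT X blk (insert k J)).card = (d * s - d * J.card) * (TT X blk J).card := by
  have h1 : ∑ k' ∈ X \ J, (TT X blk (insert k' J)).card = (d * s - J.card) * (TT X blk (insert k J)).card := by
    rw [sum_congr rfl (fun k' hk' => card_TT_insert_eq hk' hk), sum_const, card_sdiff_of_subset hJ, hX,
      smul_eq_mul]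
  rw [← h1]
  have h2 : ∀ k' ∈ X \ J, (TT X blk (insert k' J)).card =
      ∑ σ ∈ TT X blk J, if ∀ x ∈ J, blk (σ.symm k') ≠ blk (σ.symm x) then 1 else 0 := by
    intro k' hk'
    rw [← card_filter]
    congr 1
    ext σ
    rw [mem_TT_insert (mem_sdiff.1 hk').2, mem_filter]
  rw [sum_congr rfl h2, sum_comm]
  have h3 : ∀ σ ∈ TT X blk J, (∑ k' ∈ X \ J, if ∀ x ∈ J, blk (σ.symm k') ≠ blk (σ.symm x) then 1 else 0) =
      d * s - d * J.card := by
    intro σ hσ
    rw [← card_filter]
    have := card_free hb hX hJ hσ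
    omega
  rw [sum_congr rfl h3, sum_const, smul_eq_mul, mul_comm]

/-- `|TT X blk J| = a_|J|`. -/
theorem card_TT {d s : ℕ} {X : Finset α} {blk : α → ℕ} (hb : IsPartition d s X blk)
    (hX : X.card = d * s) (J : Finset α) (hJ : J ⊆ X) : (TT X blk J).card = aC d s J.card := by
  induction J using Finset.induction_on with
  | empty =>
    have : TT X blk ∅ = permsOfFinset X := by
      ext σ; rw [mem_TT]; simp only [notMem_empty, IsEmpty.forall_iff, implies_true, and_true]
    rw [this, card_perms_of_finset, hX]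
    simp [aC]
  | insert k J hk ih =>
    have hJ' : J ⊆ X := fun x hx => hJ (mem_insert_of_mem hx)
    have hkX : k ∈ X \ J := mem_sdiff.2 ⟨hJ (mem_insert_self _ _), hk⟩
    have h1 := card_TT_insert hb hX hJ' hkX
    rw [ih hJ'] at h1
    have hlt : J.card < d * s := by
      have := card_le_card hJ
      rw [card_insert_of_notMem hk, hX] at this
      omega
    rw [card_insert_of_notMem hk]
    have hpos : 0 < d * s - J.card := by omega
    apply Nat.eq_of_mul_eq_mul_left hpos
    rw [h1]
    unfold aC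
    obtain ⟨t, ht⟩ : ∃ t, d * s - J.card = t + 1 := ⟨d * s - J.card - 1, by omega⟩
    have ht' : d * s - (J.card + 1) = t := by omega
    rw [ht', ht, Nat.factorial_succ, Nat.descFactorial_succ, ← Nat.mul_sub]
    ring

/-- elements of `TT` for which moreover `k` is in the block of `i` -/
theorem card_TT_pair {d s : ℕ} {X : Finset α} {blk : α → ℕ} (hb : IsPartition d s X blk)
    (hX : X.card = d * s) {J : Finset α} (hJ : J ⊆ X) {i k : α} (hi : i ∈ J) (hk : k ∈ X \ J) :
    ((TT X blk J).filter fun σ => blk (σ.symm k) = blk (σ.symm i)).card = bC d s J.card := by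
  have hsym : ∀ k' ∈ X \ J, ((TT X blk J).filter fun σ => blk (σ.symm k') = blk (σ.symm i)).card =
      ((TT X blk J).filter fun σ => blk (σ.symm k) = blk (σ.symm i)).card := by
    intro k' hk'
    have key : ∀ a ∈ X \ J, ∀ b ∈ X \ J, ∀ σ ∈ (TT X blk J).filter fun σ => blk (σ.symm a) = blk (σ.symm i),
        swap a b * σ ∈ (TT X blk J).filter fun σ => blk (σ.symm b) = blk (σ.symm i) := by
      intro a ha b hb' σ hσ
      rw [mem_filter, mem_TT] at hσ ⊢
      rw [mem_sdiff] at ha hb'
      have hne : ∀ z ∈ J, swap a b z = z := by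
        intro z hz
        exact swap_apply_of_ne_of_ne (fun h => ha.2 (h ▸ hz)) (fun h => hb'.2 (h ▸ hz))
      refine ⟨⟨perms_mul (perms_swap ha.1 hb'.1) hσ.1.1, ?_⟩, ?_⟩
      · intro x hx y hy h
        rw [swap_symm_apply, swap_symm_apply, hne x hx, hne y hy] at h
        exact hσ.1.2 x hx y hy h
      · rw [swap_symm_apply, swap_symm_apply, hne i hi, swap_apply_right]
        exact hσ.2
    apply card_bij (fun σ _ => swap k' k * σ)
    · exact fun σ hσ => key k' hk' k hk σ hσ
    · intro σ _ τ _ h; exact mul_left_cancel h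
    · intro σ hσ
      refine ⟨swap k k' * σ, key k hk k' hk' σ hσ, ?_⟩
      rw [← mul_assoc, swap_comm k k']; simp
  have h1 : (d * s - J.card) * ((TT X blk J).filter fun σ => blk (σ.symm k) = blk (σ.symm i)).card =
      (d - 1) * aC d s J.card := by
    have h2 : ∑ k' ∈ X \ J, ((TT X blk J).filter fun σ => blk (σ.symm k') = blk (σ.symm i)).card =
        (d * s - J.card) * ((TT X blk J).filter fun σ => blk (σ.symm k) = blk (σ.symm i)).card := by
      rw [sum_congr rfl hsym, sum_const, card_sdiff_of_subset hJ, hX, smul_eq_mul]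
    rw [← h2, ← card_TT hb hX J hJ]
    simp_rw [card_filter]
    rw [sum_comm]
    have h3 : ∀ σ ∈ TT X blk J, (∑ k' ∈ X \ J, if blk (σ.symm k') = blk (σ.symm i) then 1 else 0) = d - 1 := by
      intro σ hσ
      rw [← card_filter]
      rw [mem_TT] at hσ
      have : (X \ J).filter (fun k' => blk (σ.symm k') = blk (σ.symm i)) = (bl X blk σ i).erase i := by
        ext z
        simp only [mem_filter, mem_sdiff, mem_erase, bl]
        constructor
        · rintro ⟨⟨h1, h2⟩, h3⟩
          exact ⟨fun h => h2 (h ▸ hi), h1, h3⟩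
        · rintro ⟨h1, h2, h3⟩
          refine ⟨⟨h2, fun h => h1 (hσ.2 z h i hi h3)⟩, h3⟩
      rw [this, card_erase_of_mem, card_bl hb hσ.1 (hJ hi)]
      simp [bl, hJ hi]
    rw [sum_congr rfl h3, sum_const, smul_eq_mul, mul_comm]
  have hlt : J.card < d * s := by
    have := card_le_card (insert_subset (mem_sdiff.1 hk).1 hJ)
    rw [card_insert_of_notMem (mem_sdiff.1 hk).2, hX] at this
    omega
  have hpos : 0 < d * s - J.card := by omega
  apply Nat.eq_of_mul_eq_mul_left hpos
  rw [h1]
  unfold aC bC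
  obtain ⟨t, ht⟩ : ∃ t, d * s - J.card = t + 1 := ⟨d * s - J.card - 1, by omega⟩
  have ht' : d * s - J.card - 1 = t := by omega
  rw [ht', ht, Nat.factorial_succ]
  ring

end Vale.Agent.P049
end
end
end

section

section

section

/-! Cosets of the group of permutations of a finite set, and the action `pact`. -/

open Finset Equiv

namespace Vale.Agent.P049

section perms

variable {α : Type*} [DecidableEq α]

theorem perms_fix {X : Finset α} {σ : Perm α} (hσ : σ ∈ permsOfFinset X) {x : α} (hx : x ∉ X) :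
    σ x = x := by
  by_contra h
  exact hx (mem_perms.1 hσ x h)

theorem perms_of_fix {X : Finset α} {σ : Perm α} (h : ∀ x, x ∉ X → σ x = x) :
    σ ∈ permsOfFinset X := by
  rw [mem_perms]
  intro x hx
  by_contra hne
  exact hx (h x hne)

theorem perms_mono {X Y : Finset α} (h : X ⊆ Y) : permsOfFinset X ⊆ permsOfFinset Y := by
  intro π hπ
  rw [mem_perms] at hπ ⊢
  intro x hx
  exact h (hπ x hx)

theorem perms_empty : permsOfFinset (∅ : Finset α) = {1} := by
  ext π
  rw [Finset.mem_singleton]
  constructor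
  · intro h
    ext x
    exact perms_fix h (by simp)
  · rintro rfl
    exact perms_one

/-- an element of `perms X` times the right swap lies in `perms (X.erase x₀)` -/
theorem swap_mul_mem {X : Finset α} {x₀ : α} {g : Perm α} (hx : x₀ ∈ X)
    (hg : g ∈ permsOfFinset X) : swap x₀ (g x₀) * g ∈ permsOfFinset (X.erase x₀) := by
  apply perms_of_fix
  intro x hx'
  by_cases h : x = x₀
  · subst h
    rw [Perm.mul_apply, swap_apply_right]
  · have hxX : x ∉ X := fun h' => hx' (Finset.mem_erase.mpr ⟨h, h'⟩)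
    have h2 := perms_fix hg hxX
    rw [Perm.mul_apply, h2]
    apply swap_apply_of_ne_of_ne h
    rintro rfl
    exact hxX (perms_apply_mem hg hx)

theorem sum_coset {M : Type*} [AddCommMonoid M] {X : Finset α} {x₀ : α} {g : Perm α} (hx : x₀ ∈ X)
    (hg : g ∈ permsOfFinset X) (f : Perm α → M) :
    ∑ ρ ∈ permsOfFinset (X.erase x₀), f (g * ρ) =
      ∑ ρ ∈ permsOfFinset (X.erase x₀), f (swap x₀ (g x₀) * ρ) := by
  have hk := swap_mul_mem hx hg
  refine Finset.sum_bij' (fun ρ _ => (swap x₀ (g x₀) * g) * ρ)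
    (fun ρ _ => (swap x₀ (g x₀) * g)⁻¹ * ρ) ?_ ?_ ?_ ?_ ?_
  · intro ρ hρ; exact perms_mul hk hρ
  · intro ρ hρ; exact perms_mul (perms_inv hk) hρ
  · intro ρ _; exact inv_mul_cancel_left _ _
  · intro ρ _; exact mul_inv_cancel_left _ _
  · intro ρ _
    rw [← mul_assoc, ← mul_assoc, swap_mul_self, one_mul]

theorem sum_perms {M : Type*} [AddCommMonoid M] {X : Finset α} {x₀ : α} (hx : x₀ ∈ X)
    (f : Perm α → M) :
    ∑ π ∈ permsOfFinset X, f π =
      ∑ a ∈ X, ∑ ρ ∈ permsOfFinset (X.erase x₀), f (swap x₀ a * ρ) := by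
  rw [← Finset.sum_product']
  refine Finset.sum_bij' (fun π _ => (π x₀, swap x₀ (π x₀) * π))
    (fun p _ => swap x₀ p.1 * p.2) ?_ ?_ ?_ ?_ ?_
  · intro π hπ
    rw [Finset.mem_product]
    exact ⟨perms_apply_mem hπ hx, swap_mul_mem hx hπ⟩
  · rintro ⟨a, ρ⟩ hp
    rw [Finset.mem_product] at hp
    exact perms_mul (perms_swap hx hp.1) (perms_mono (Finset.erase_subset _ _) hp.2)
  · intro π _
    rw [← mul_assoc, swap_mul_self, one_mul]
  · rintro ⟨a, ρ⟩ hp
    rw [Finset.mem_product] at hp
    have h1 : ρ x₀ = x₀ := perms_fix hp.2 (by simp)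
    have h2 : (swap x₀ a * ρ) x₀ = a := by rw [Perm.mul_apply, h1, swap_apply_left]
    ext1
    · exact h2
    · show swap x₀ ((swap x₀ a * ρ) x₀) * (swap x₀ a * ρ) = ρ
      rw [h2, ← mul_assoc, swap_mul_self, one_mul]
  · intro π _
    rw [← mul_assoc, swap_mul_self, one_mul]

/-- conjugation by a swap: permutations of `X.erase a` and of `X.erase x₀` -/
theorem sum_perms_conj {M : Type*} [AddCommMonoid M] {X : Finset α} {x₀ a : α} (hx : x₀ ∈ X)
    (ha : a ∈ X) (f : Perm α → M) :
    ∑ σ ∈ permsOfFinset (X.erase a), f (σ * swap x₀ a) =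
      ∑ ρ ∈ permsOfFinset (X.erase x₀), f (swap x₀ a * ρ) := by
  have key : ∀ b c : α, b ∈ X → c ∈ X → ∀ ρ ∈ permsOfFinset (X.erase b),
      swap b c * ρ * swap b c ∈ permsOfFinset (X.erase c) := by
    intro b c hb hc ρ hρ
    apply perms_of_fix
    intro x hx'
    by_cases hxc : x = c
    · subst hxc
      rw [Perm.mul_apply, swap_apply_right, Perm.mul_apply,
        perms_fix hρ (by simp : b ∉ X.erase b), swap_apply_left]
    · have hxX : x ∉ X := fun h' => hx' (Finset.mem_erase.mpr ⟨hxc, h'⟩)
      have hxb : x ≠ b := by rintro rfl; exact hxX hb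
      rw [Perm.mul_apply, swap_apply_of_ne_of_ne hxb hxc, Perm.mul_apply,
        perms_fix hρ (fun h' => hxX (Finset.mem_of_mem_erase h')),
        swap_apply_of_ne_of_ne hxb hxc]
  refine Finset.sum_bij' (fun σ _ => swap a x₀ * σ * swap a x₀)
    (fun ρ _ => swap x₀ a * ρ * swap x₀ a) ?_ ?_ ?_ ?_ ?_
  · intro σ hσ; exact key a x₀ ha hx σ hσ
  · intro ρ hρ; exact key x₀ a hx ha ρ hρ
  · intro σ _
    rw [swap_comm a x₀]
    simp only [mul_assoc, swap_mul_self, mul_one]
    rw [← mul_assoc, swap_mul_self, one_mul]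
  · intro ρ _
    rw [swap_comm a x₀]
    simp only [mul_assoc, swap_mul_self, mul_one]
    rw [← mul_assoc, swap_mul_self, one_mul]
  · intro σ _
    rw [swap_comm a x₀]
    congr 1
    simp only [← mul_assoc, swap_mul_self, one_mul]

end perms

section pact

variable {α R S : Type*}

theorem pact_mul (σ τ : Perm α) (B : Matrix α α R) : pact σ (pact τ B) = pact (σ * τ) B := by
  ext i k; rfl

theorem pact_one (B : Matrix α α R) : pact 1 B = B := by
  ext i k; rfl

theorem pact_add [Add R] (σ : Perm α) (A B : Matrix α α R) :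
    pact σ (A + B) = pact σ A + pact σ B := by
  ext i k; rfl

theorem pact_zero [Zero R] (σ : Perm α) : pact σ (0 : Matrix α α R) = 0 := by
  ext i k; rfl

theorem pact_isSymm (σ : Perm α) {B : Matrix α α R} (h : B.IsSymm) : (pact σ B).IsSymm :=
  h.submatrix _

theorem pact_map (φ : R → S) (σ : Perm α) (B : Matrix α α R) :
    (pact σ B).map φ = pact σ (B.map φ) := by
  ext i k; rfl

theorem trace_pact [Fintype α] [AddCommMonoid R] (σ : Perm α) (B : Matrix α α R) :
    (pact σ B).trace = B.trace := by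
  unfold pact Matrix.trace
  simp only [Matrix.diag_apply, Matrix.submatrix_apply]
  exact Equiv.sum_comp σ.symm (fun i => B i i)

theorem pact_outer [DecidableEq α] [CommRing R] (σ : Perm α) (b : Finset α) :
    pact σ (outer R b) = outer R (b.map σ.toEmbedding) := by
  ext i k
  unfold pact outer
  simp only [Matrix.submatrix_apply, Matrix.of_apply, mem_map_equiv]

theorem pact_add_smul (σ : Perm α) (B : Matrix α α ℝ) (v : α → ℝ) (t : ℝ) :
    pact σ (B + t • Matrix.vecMulVec v v) =
      pact σ B + t • Matrix.vecMulVec (v ∘ σ.symm) (v ∘ σ.symm) := by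
  ext i k; rfl

end pact

end Vale.Agent.P049
end
end
end

section

section

section

/-! Ordered sums as sums over permutations. -/

open Finset Equiv Matrix

namespace Vale.Agent.P049

section basic

variable {α : Type*} [DecidableEq α] {R : Type*} [CommRing R]

theorem outer_isSymm (b : Finset α) : (outer R b).IsSymm := by
  unfold Matrix.IsSymm outer
  ext i k
  simp only [Matrix.transpose_apply, Matrix.of_apply, and_comm]

theorem outer_map {S : Type*} [CommRing S] (φ : R →+* S) (b : Finset α) :
    (outer R b).map φ = outer S b := by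
  ext i k
  unfold outer
  simp only [Matrix.map_apply, Matrix.of_apply]
  split_ifs <;> simp

theorem ordSum_zero (d : ℕ) (g : Matrix α α R → R) (X γ : Finset α) (A : Matrix α α R) :
    ordSum d g 0 X γ A = g A := rfl

theorem ordSum_succ (d : ℕ) (g : Matrix α α R → R) (n : ℕ) (X γ : Finset α) (A : Matrix α α R) :
    ordSum d g (n + 1) X γ A = ∑ x ∈ X, child d g n X γ A x := rfl

theorem child_pos {d : ℕ} {γ : Finset α} (h : γ.card + 1 = d) (g : Matrix α α R → R) (n : ℕ)
    (X : Finset α) (A : Matrix α α R) (x : α) :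
    child d g n X γ A x = ordSum d g n (X.erase x) ∅ (A - outer R (insert x γ)) := if_pos h

theorem child_neg {d : ℕ} {γ : Finset α} (h : ¬ γ.card + 1 = d) (g : Matrix α α R → R) (n : ℕ)
    (X : Finset α) (A : Matrix α α R) (x : α) :
    child d g n X γ A x = ordSum d g n (X.erase x) (insert x γ) A := if_neg h

/-- naturality -/
theorem ordSum_map {S : Type*} [CommRing S] (φ : R →+* S) (d : ℕ) (g : Matrix α α R → R)
    (g' : Matrix α α S → S) (hg : ∀ A, φ (g A) = g' (A.map φ)) (n : ℕ) (X γ : Finset α)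
    (A : Matrix α α R) :
    φ (ordSum d g n X γ A) = ordSum d g' n X γ (A.map φ) := by
  induction n generalizing X γ A with
  | zero => exact hg A
  | succ n ih =>
    rw [ordSum_succ, ordSum_succ, map_sum]
    apply Finset.sum_congr rfl
    intro x _
    by_cases h : γ.card + 1 = d
    · rw [child_pos h, child_pos h, ih]
      congr 1
      have : (A - outer R (insert x γ)).map φ = A.map φ - (outer R (insert x γ)).map φ := by
        ext i k; simp
      rw [this, outer_map]
    · rw [child_neg h, child_neg h, ih]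

/-- the condition in `IsBase`, with the first element fixed -/
def BaseAt (d n : ℕ) (X γ : Finset α) (x : α) (B : Matrix α α R) : Prop :=
  if γ.card + 1 = d then ∃ B', IsBase d n (X.erase x) ∅ B' ∧ B = outer R (insert x γ) + B'
        else IsBase d n (X.erase x) (insert x γ) B

theorem isBase_zero {d : ℕ} {X γ : Finset α} {B : Matrix α α R} :
    IsBase d 0 X γ B ↔ B = 0 := Iff.rfl

theorem isBase_succ {d n : ℕ} {X γ : Finset α} {B : Matrix α α R} :
    IsBase d (n + 1) X γ B ↔ ∃ x ∈ X, BaseAt d n X γ x B := Iff.rfl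

theorem baseAt_pos {d n : ℕ} {X γ : Finset α} {x : α} {B : Matrix α α R} (h : γ.card + 1 = d) :
    BaseAt d n X γ x B ↔
      ∃ B', IsBase d n (X.erase x) ∅ B' ∧ B = outer R (insert x γ) + B' := by
  unfold BaseAt
  rw [if_pos h]

theorem baseAt_neg {d n : ℕ} {X γ : Finset α} {x : α} {B : Matrix α α R} (h : ¬ γ.card + 1 = d) :
    BaseAt d n X γ x B ↔ IsBase d n (X.erase x) (insert x γ) B := by
  unfold BaseAt
  rw [if_neg h]

theorem IsBase.isSymm {d : ℕ} : ∀ {n : ℕ} {X γ : Finset α} {B : Matrix α α R},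
    IsBase d n X γ B → B.IsSymm := by
  intro n
  induction n with
  | zero =>
    intro X γ B h
    rw [isBase_zero] at h
    rw [h]; exact Matrix.isSymm_zero
  | succ n ih =>
    intro X γ B h
    rw [isBase_succ] at h
    obtain ⟨x, _, h⟩ := h
    by_cases hc : γ.card + 1 = d
    · rw [baseAt_pos hc] at h
      obtain ⟨B', hB', rfl⟩ := h
      exact (outer_isSymm _).add (ih hB')
    · rw [baseAt_neg hc] at h
      exact ih h

theorem IsBase.pact {d : ℕ} (τ : Perm α) : ∀ {n : ℕ} {X γ : Finset α} {B : Matrix α α R},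
    IsBase d n X γ B → IsBase d n (X.map τ.toEmbedding) (γ.map τ.toEmbedding) (pact τ B) := by
  intro n
  induction n with
  | zero =>
    intro X γ B h
    rw [isBase_zero] at h ⊢
    rw [h, pact_zero]
  | succ n ih =>
    intro X γ B h
    rw [isBase_succ] at h ⊢
    obtain ⟨x, hx, h⟩ := h
    refine ⟨τ x, by simpa using hx, ?_⟩
    have e1 : (X.map τ.toEmbedding).erase (τ x) = (X.erase x).map τ.toEmbedding := by
      rw [Finset.map_erase]; rfl
    have e2 : insert (τ x) (γ.map τ.toEmbedding) = (insert x γ).map τ.toEmbedding := by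
      rw [Finset.map_insert]; rfl
    by_cases hc : γ.card + 1 = d
    · rw [baseAt_pos hc] at h
      rw [baseAt_pos (by rwa [Finset.card_map])]
      obtain ⟨B', hB', rfl⟩ := h
      refine ⟨Vale.Agent.P049.pact τ B', ?_, ?_⟩
      · have := ih hB'
        rw [Finset.map_empty] at this
        rw [e1]; exact this
      · rw [pact_add, pact_outer, e2]
    · rw [baseAt_neg hc] at h
      rw [baseAt_neg (by rwa [Finset.card_map]), e1, e2]
      exact ih h

theorem IsBase.map {S : Type*} [CommRing S] (φ : R →+* S) {d : ℕ} :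
    ∀ {n : ℕ} {X γ : Finset α} {B : Matrix α α R},
    IsBase d n X γ B → IsBase d n X γ (B.map φ) := by
  intro n
  induction n with
  | zero =>
    intro X γ B h
    rw [isBase_zero] at h ⊢
    rw [h]; ext i k; simp
  | succ n ih =>
    intro X γ B h
    rw [isBase_succ] at h ⊢
    obtain ⟨x, hx, h⟩ := h
    refine ⟨x, hx, ?_⟩
    by_cases hc : γ.card + 1 = d
    · rw [baseAt_pos hc] at h ⊢
      obtain ⟨B', hB', rfl⟩ := h
      refine ⟨B'.map φ, ih hB', ?_⟩
      have : (outer R (insert x γ) + B').map φ = (outer R (insert x γ)).map φ + B'.map φ := by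
        ext i k; simp only [map_apply, Matrix.add_apply, map_add]
      rw [this, outer_map]
    · rw [baseAt_neg hc] at h ⊢
      exact ih h

theorem BaseAt.map {S : Type*} [CommRing S] (φ : R →+* S) {d n : ℕ} {X γ : Finset α} {x : α}
    {B : Matrix α α R} (h : BaseAt d n X γ x B) : BaseAt d n X γ x (B.map φ) := by
  by_cases hc : γ.card + 1 = d
  · rw [baseAt_pos hc] at h ⊢
    obtain ⟨B', hB', rfl⟩ := h
    refine ⟨B'.map φ, hB'.map φ, ?_⟩
    have : (outer R (insert x γ) + B').map φ = (outer R (insert x γ)).map φ + B'.map φ := by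
      ext i k; simp
    rw [this, outer_map]
  · rw [baseAt_neg hc] at h ⊢
    exact h.map φ

theorem exists_base (R : Type*) [CommRing R] (d : ℕ) : ∀ (n : ℕ) (X γ : Finset α), X.card = n →
    ∃ B : Matrix α α R, IsBase d n X γ B := by
  intro n
  induction n with
  | zero =>
    intro X γ _
    exact ⟨0, isBase_zero.mpr rfl⟩
  | succ n ih =>
    intro X γ hX
    have hne : X.Nonempty := Finset.card_pos.mp (by omega)
    obtain ⟨x, hx⟩ := hne
    have hc' : (X.erase x).card = n := by rw [Finset.card_erase_of_mem hx, hX]; rfl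
    by_cases hc : γ.card + 1 = d
    · obtain ⟨B', hB'⟩ := ih (X.erase x) ∅ hc'
      exact ⟨outer R (insert x γ) + B', isBase_succ.mpr ⟨x, hx, (baseAt_pos hc).mpr ⟨B', hB', rfl⟩⟩⟩
    · obtain ⟨B', hB'⟩ := ih (X.erase x) (insert x γ) hc'
      exact ⟨B', isBase_succ.mpr ⟨x, hx, (baseAt_neg hc).mpr hB'⟩⟩

theorem map_erase_swap {X : Finset α} {x₀ a : α} (hx : x₀ ∈ X) (ha : a ∈ X) :
    (X.erase x₀).map (swap x₀ a).toEmbedding = X.erase a := by
  ext y
  rw [Finset.mem_map_equiv, symm_swap, Finset.mem_erase, Finset.mem_erase]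
  by_cases h1 : y = x₀
  · subst h1
    rw [swap_apply_left]
    constructor
    · rintro ⟨h2, _⟩; exact ⟨Ne.symm h2, hx⟩
    · rintro ⟨h2, _⟩; exact ⟨Ne.symm h2, ha⟩
  · by_cases h2 : y = a
    · subst h2
      rw [swap_apply_right]
      simp
    · rw [swap_apply_of_ne_of_ne h1 h2]
      (clear * - h2 h1; tauto)

theorem map_insert_swap {X γ : Finset α} (hd : Disjoint X γ) {x₀ a : α} (hx : x₀ ∈ X)
    (ha : a ∈ X) {σ : Perm α} (hσ : σ ∈ permsOfFinset (X.erase a)) :
    (insert x₀ γ).map (σ * swap x₀ a).toEmbedding = insert a γ := by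
  have hfix : ∀ y ∈ γ, (σ * swap x₀ a) y = y := by
    intro y hy
    have hyX : y ∉ X := fun h => Finset.disjoint_left.mp hd h hy
    have h1 : y ≠ x₀ := by rintro rfl; exact hyX hx
    have h2 : y ≠ a := by rintro rfl; exact hyX ha
    rw [Perm.mul_apply, swap_apply_of_ne_of_ne h1 h2]
    exact perms_fix hσ (fun h => hyX (Finset.mem_of_mem_erase h))
  have hx0 : (σ * swap x₀ a) x₀ = a := by
    rw [Perm.mul_apply, swap_apply_left]
    exact perms_fix hσ (by simp)
  rw [Finset.map_insert]
  have e1 : (σ * swap x₀ a).toEmbedding x₀ = a := hx0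
  rw [e1]
  congr 1
  ext y
  rw [Finset.mem_map]
  constructor
  · rintro ⟨z, hz, h⟩
    have : (σ * swap x₀ a) z = y := h
    rw [hfix z hz] at this
    rw [← this]; exact hz
  · intro hy
    exact ⟨y, hy, hfix y hy⟩

theorem child_of_base {d n : ℕ}
    (ih : ∀ (X γ : Finset α) (B : Matrix α α R), IsBase d n X γ B → X.card = n → Disjoint X γ →
      ∀ (g : Matrix α α R → R) (A : Matrix α α R),
        ordSum d g n X γ A = ∑ σ ∈ permsOfFinset X, g (A - pact σ B))
    {X γ : Finset α} {B : Matrix α α R} {x₀ : α} (hx : x₀ ∈ X) (hB : BaseAt d n X γ x₀ B)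
    (hn : X.card = n + 1) (hd : Disjoint X γ) (g : Matrix α α R → R) (A : Matrix α α R) {a : α}
    (ha : a ∈ X) :
    child d g n X γ A a =
      ∑ ρ ∈ permsOfFinset (X.erase x₀), g (A - pact (swap x₀ a * ρ) B) := by
  rw [← sum_perms_conj hx ha (fun σ => g (A - pact σ B))]
  have hcard : (X.erase a).card = n := by rw [Finset.card_erase_of_mem ha, hn]; rfl
  by_cases hc : γ.card + 1 = d
  · rw [baseAt_pos hc] at hB
    obtain ⟨B', hB', rfl⟩ := hB
    have h1 := hB'.pact (swap x₀ a)
    rw [map_erase_swap hx ha, Finset.map_empty] at h1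
    rw [child_pos hc, ih _ _ _ h1 hcard (Finset.disjoint_empty_right _) g]
    apply Finset.sum_congr rfl
    intro σ hσ
    congr 1
    rw [pact_mul, pact_add, pact_outer, map_insert_swap hd hx ha hσ]
    abel
  · rw [baseAt_neg hc] at hB
    have h1 := hB.pact (swap x₀ a)
    have h2 := map_insert_swap hd hx ha (perms_one (X := X.erase a))
    rw [one_mul] at h2
    rw [map_erase_swap hx ha, h2] at h1
    have h3 : Disjoint (X.erase a) (insert a γ) := by
      rw [Finset.disjoint_insert_right]
      exact ⟨Finset.notMem_erase _ _, hd.mono_left (Finset.erase_subset _ _)⟩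
    rw [child_neg hc, ih _ _ _ h1 hcard h3 g]
    apply Finset.sum_congr rfl
    intro σ _
    rw [pact_mul]

theorem ordSum_eq_perm_aux {d n : ℕ} : ∀ (X γ : Finset α) (B : Matrix α α R),
    IsBase d n X γ B → X.card = n → Disjoint X γ →
      ∀ (g : Matrix α α R → R) (A : Matrix α α R),
        ordSum d g n X γ A = ∑ σ ∈ permsOfFinset X, g (A - pact σ B) := by
  induction n with
  | zero =>
    intro X γ B hB hn _ g A
    rw [isBase_zero] at hB
    rw [Finset.card_eq_zero.mp hn, perms_empty, Finset.sum_singleton, hB, pact_zero, sub_zero,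
      ordSum_zero]
  | succ n ih =>
    intro X γ B hB hn hd g A
    rw [isBase_succ] at hB
    obtain ⟨x₀, hx, hB⟩ := hB
    rw [ordSum_succ, sum_perms hx]
    apply Finset.sum_congr rfl
    intro a ha
    exact child_of_base ih hx hB hn hd g A ha

theorem ordSum_eq_perm {d n : ℕ} {X γ : Finset α} {B : Matrix α α R} (g : Matrix α α R → R)
    (hB : IsBase d n X γ B) (hn : X.card = n) (hd : Disjoint X γ) (A : Matrix α α R) :
    ordSum d g n X γ A = ∑ σ ∈ permsOfFinset X, g (A - pact σ B) :=
  ordSum_eq_perm_aux X γ B hB hn hd g A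

/-- first element of the base + children. -/
theorem child_eq_perm {d n : ℕ} {X γ : Finset α} (hn : X.card = n + 1) (hd : Disjoint X γ) :
    ∃ x₀ ∈ X, ∃ B : Matrix α α ℤ, B.IsSymm ∧ IsBase d (n + 1) X γ B ∧
      ∀ (R : Type) [CommRing R] (g : Matrix α α R → R) (A : Matrix α α R), ∀ a ∈ X,
      child d g n X γ A a = ∑ ρ ∈ permsOfFinset (X.erase x₀),
        g (A - pact (Equiv.swap x₀ a * ρ) (B.map (Int.cast : ℤ → R))) := by
  obtain ⟨B, hB⟩ := exists_base ℤ d (n + 1) X γ hn
  obtain ⟨x₀, hx, hB'⟩ := isBase_succ.mp hB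
  refine ⟨x₀, hx, B, hB.isSymm, hB, ?_⟩
  intro R _ g A a ha
  exact child_of_base ordSum_eq_perm_aux hx (hB'.map (Int.castRingHom R)) hn hd g A ha

/-! ### The base given by a partition -/

theorem exists_partition_aux {d : ℕ} (hd : 0 < d) : ∀ (n s : ℕ) (X γ : Finset α), X.card = n →
    Disjoint X γ → γ.card < d → n + γ.card = d * s →
    ∃ blk : α → ℕ, IsPartition d s (X ∪ γ) blk ∧ (∀ x ∈ γ, blk x = s - 1) ∧
      ∀ (R : Type) [CommRing R], IsBase d n X γ (blockMat R (X ∪ γ) blk) := by
  intro n
  induction n with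
  | zero =>
    intro s X γ hX hdis hγ hs
    have hs0 : s = 0 := by
      by_contra h
      have : d * 1 ≤ d * s := Nat.mul_le_mul_left d (Nat.one_le_iff_ne_zero.mpr h)
      omega
    subst hs0
    have hγ0 : γ = ∅ := Finset.card_eq_zero.mp (by omega)
    have hX0 : X = ∅ := Finset.card_eq_zero.mp hX
    subst hγ0 hX0
    refine ⟨fun _ => 0, ⟨by simp, by simp⟩, by simp, fun R _ => ?_⟩
    rw [isBase_zero]
    ext i k
    simp [blockMat]
  | succ n ih =>
    intro s X γ hX hdis hγ hs
    have hne : X.Nonempty := Finset.card_pos.mp (by omega)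
    obtain ⟨x, hx⟩ := hne
    have hc' : (X.erase x).card = n := by rw [Finset.card_erase_of_mem hx, hX]; rfl
    have hs0 : s ≠ 0 := by
      rintro rfl
      omega
    have hxγ : x ∉ γ := Finset.disjoint_left.mp hdis hx
    by_cases hc : γ.card + 1 = d
    · have hs' : n + (∅ : Finset α).card = d * (s - 1) := by
        rw [Finset.card_empty]
        obtain ⟨s', rfl⟩ : ∃ s', s = s' + 1 := ⟨s - 1, by omega⟩
        rw [Nat.mul_succ] at hs
        simp only [Nat.add_sub_cancel]
        omega
      obtain ⟨blk, ⟨hp1, hp2⟩, _, hp3⟩ := ih (s - 1) (X.erase x) ∅ hc'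
        (Finset.disjoint_empty_right _) (by simpa using hd) hs'
      rw [Finset.union_empty] at hp1 hp2 hp3
      set blk' : α → ℕ := fun y => if y ∈ insert x γ then s - 1 else blk y with hblk'
      have hb1 : ∀ y ∈ insert x γ, blk' y = s - 1 := fun y hy => if_pos hy
      have hb2 : ∀ y ∈ X.erase x, blk' y = blk y := by
        intro y hy
        apply if_neg
        rw [Finset.mem_insert]
        rintro (rfl | h)
        · exact absurd hy (by simp)
        · exact Finset.disjoint_left.mp hdis (Finset.mem_of_mem_erase hy) h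
      have hun : X ∪ γ = insert x γ ∪ X.erase x := by
        ext y
        simp only [Finset.mem_union, Finset.mem_insert, Finset.mem_erase]
        by_cases h : y = x
        · subst h; simp [hx]
        · simp [h]; (clear * -; tauto)
      have hdj : Disjoint (insert x γ) (X.erase x) := by
        rw [Finset.disjoint_insert_left]
        exact ⟨by simp, (hdis.mono_left (Finset.erase_subset _ _)).symm⟩
      have hlt : ∀ y ∈ X.erase x, blk' y < s - 1 := by
        intro y hy
        rw [hb2 y hy]; exact hp1 y hy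
      refine ⟨blk', ⟨?_, ?_⟩, ?_, ?_⟩
      · intro y hy
        rw [hun, Finset.mem_union] at hy
        rcases hy with hy | hy
        · rw [hb1 y hy]; omega
        · have := hlt y hy; omega
      · intro κ hκ
        rw [hun, Finset.filter_union]
        by_cases h1 : κ = s - 1
        · have e1 : (insert x γ).filter (fun y => blk' y = κ) = insert x γ := by
            apply Finset.filter_true_of_mem
            intro y hy; rw [hb1 y hy, h1]
          have e2 : (X.erase x).filter (fun y => blk' y = κ) = ∅ := by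
            apply Finset.filter_false_of_mem
            intro y hy; have := hlt y hy; omega
          rw [e1, e2, Finset.union_empty, Finset.card_insert_of_notMem hxγ, hc]
        · have e1 : (insert x γ).filter (fun y => blk' y = κ) = ∅ := by
            apply Finset.filter_false_of_mem
            intro y hy; rw [hb1 y hy]; exact Ne.symm h1
          have e2 : (X.erase x).filter (fun y => blk' y = κ) =
              (X.erase x).filter (fun y => blk y = κ) := by
            apply Finset.filter_congr
            intro y hy; rw [hb2 y hy]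
          rw [e1, e2, Finset.empty_union]
          exact hp2 κ (by omega)
      · intro y hy
        exact hb1 y (Finset.mem_insert_of_mem hy)
      · intro R _
        rw [isBase_succ]
        refine ⟨x, hx, (baseAt_pos hc).mpr ⟨_, hp3 R, ?_⟩⟩
        ext i k
        simp only [blockMat, outer, Matrix.of_apply, Matrix.add_apply]
        have hmem : ∀ y, y ∈ X ∪ γ ↔ y ∈ insert x γ ∨ y ∈ X.erase x := by
          intro y; rw [hun, Finset.mem_union]
        by_cases hi : i ∈ insert x γ
        · have hi' : i ∉ X.erase x := Finset.disjoint_left.mp hdj hi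
          by_cases hk : k ∈ insert x γ
          · have hk' : k ∉ X.erase x := Finset.disjoint_left.mp hdj hk
            rw [if_pos ⟨(hmem i).mpr (Or.inl hi), (hmem k).mpr (Or.inl hk), by
              rw [hb1 i hi, hb1 k hk]⟩, if_pos ⟨hi, hk⟩, if_neg (fun h => hi' h.1), add_zero]
          · rw [if_neg (c := i ∈ insert x γ ∧ k ∈ insert x γ) (fun h => hk h.2),
              if_neg (c := i ∈ X.erase x ∧ _) (fun h => hi' h.1), add_zero]
            apply if_neg
            rintro ⟨_, h2, h3⟩
            have h4 : k ∈ X.erase x := ((hmem k).mp h2).resolve_left hk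
            have h5 := hlt k h4
            rw [hb1 i hi] at h3
            omega
        · rw [if_neg (c := i ∈ insert x γ ∧ k ∈ insert x γ) (fun h => hi h.1), zero_add]
          by_cases hi' : i ∈ X.erase x
          · by_cases hk : k ∈ insert x γ
            · have hk' : k ∉ X.erase x := Finset.disjoint_left.mp hdj hk
              rw [if_neg (c := i ∈ X.erase x ∧ _) (fun h => hk' h.2.1)]
              apply if_neg
              rintro ⟨_, h2, h3⟩
              have h5 := hlt i hi'
              rw [hb1 k hk] at h3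
              omega
            · by_cases hk' : k ∈ X.erase x
              · have e : (i ∈ X ∪ γ ∧ k ∈ X ∪ γ ∧ blk' i = blk' k) ↔
                    (i ∈ X.erase x ∧ k ∈ X.erase x ∧ blk i = blk k) := by
                  rw [hb2 i hi', hb2 k hk']
                  constructor
                  · rintro ⟨_, _, h⟩; exact ⟨hi', hk', h⟩
                  · rintro ⟨_, _, h⟩
                    exact ⟨(hmem i).mpr (Or.inr hi'), (hmem k).mpr (Or.inr hk'), h⟩
                simp only [e]
              · rw [if_neg (c := i ∈ X.erase x ∧ _) (fun h => hk' h.2.1)]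
                apply if_neg
                rintro ⟨_, h2, _⟩
                exact ((hmem k).mp h2).elim hk hk'
          · rw [if_neg (c := i ∈ X.erase x ∧ _) (fun h => hi' h.1)]
            apply if_neg
            rintro ⟨h1, _⟩
            exact ((hmem i).mp h1).elim hi hi'
    · have hγ' : (insert x γ).card < d := by
        rw [Finset.card_insert_of_notMem hxγ]; omega
      have h3 : Disjoint (X.erase x) (insert x γ) := by
        rw [Finset.disjoint_insert_right]
        exact ⟨Finset.notMem_erase _ _, hdis.mono_left (Finset.erase_subset _ _)⟩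
      have hun : X.erase x ∪ insert x γ = X ∪ γ := by
        ext y
        simp only [Finset.mem_union, Finset.mem_insert, Finset.mem_erase]
        by_cases h : y = x
        · subst h; simp [hx]
        · simp [h]
      obtain ⟨blk, hp1, hp2, hp3⟩ := ih s (X.erase x) (insert x γ) hc' h3 hγ' (by
        rw [Finset.card_insert_of_notMem hxγ]; omega)
      rw [hun] at hp1 hp3
      refine ⟨blk, hp1, fun y hy => hp2 y (Finset.mem_insert_of_mem hy), fun R _ => ?_⟩
      rw [isBase_succ]
      exact ⟨x, hx, (baseAt_neg hc).mpr (hp3 R)⟩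

theorem exists_partition_base {d s : ℕ} (hd : 0 < d) {X : Finset α} (hX : X.card = d * s) :
    ∃ blk : α → ℕ, IsPartition d s X blk ∧
      ∀ (R : Type) [CommRing R], IsBase d X.card X ∅ (blockMat R X blk) := by
  obtain ⟨blk, h1, _, h2⟩ := exists_partition_aux hd X.card s X ∅ rfl
    (Finset.disjoint_empty_right _) (by simpa using hd) (by simpa using hX)
  rw [Finset.union_empty] at h1 h2
  exact ⟨blk, h1, h2⟩

end basic

section rest

variable {α : Type*} [Fintype α] [DecidableEq α] {R : Type*} [CommRing R]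

theorem restSum_zero (d : ℕ) (X₀ : Finset α) :
    (restSum d X₀ 0 : Matrix α α R → R) = Matrix.det := rfl

theorem restSum_succ (d : ℕ) (X₀ : Finset α) (q : ℕ) :
    (restSum d X₀ (q + 1) : Matrix α α R → R) = ordSum d (restSum d X₀ q) X₀.card X₀ ∅ := rfl

theorem restSum_map {S : Type*} [CommRing S] (φ : R →+* S) (d : ℕ) (X₀ : Finset α) (q : ℕ)
    (A : Matrix α α R) : φ (restSum d X₀ q A) = restSum d X₀ q (A.map φ) := by
  induction q generalizing A with
  | zero =>
    rw [restSum_zero, restSum_zero]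
    exact RingHom.map_det φ A
  | succ q ih =>
    rw [restSum_succ, restSum_succ]
    exact ordSum_map φ d _ _ ih _ _ _ A

end rest

end Vale.Agent.P049
end
end
end

section

section

section

/-! The abstract closed form: sum over all permutations of `X` of an alternating map of
`A - (block rows)`. -/

namespace Vale.Agent.P049

open Finset Equiv Function

variable {α : Type*} [DecidableEq α]
variable {R : Type*} [CommRing R] {V : Type*} [AddCommGroup V] [Module R V]
variable {ι : Type*} [Fintype ι] [DecidableEq ι]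

/-- the off-diagonal part of a block row -/
def offR (X : Finset α) (blk : α → ℕ) (e : α → V) (σ : Perm α) (x : α) : V :=
  ∑ k ∈ (bl X blk σ x).erase x, e k

/-- block row -/
def rowS (X : Finset α) (blk : α → ℕ) (j : ι → α) (e : α → V) (σ : Perm α) (i : ι) : V :=
  if j i ∈ X then ∑ k ∈ bl X blk σ (j i), e k else 0

theorem phi_sub (Φ : V [⋀^ι]→ₗ[R] R) (A c : ι → V) (Y : Finset ι) (hc : ∀ i ∉ Y, c i = 0) :
    Φ (fun i => A i - c i) = ∑ I ∈ Y.powerset, (-1) ^ I.card * Φ (I.piecewise c A) := by
  have h1 : (fun i => A i - c i) = (fun i => (-1 : R) • c i) + A := by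
    ext i; simp only [sub_eq_add_neg, neg_smul, one_smul, Pi.add_apply, add_comm]
  rw [h1]
  have h2 := MultilinearMap.map_add_univ (Φ.toMultilinearMap) (fun i => (-1 : R) • c i) A
  simp only [AlternatingMap.coe_multilinearMap] at h2
  rw [h2]
  rw [← sum_subset (s₁ := Y.powerset) (subset_univ _)]
  · apply sum_congr rfl
    intro I _
    have h3 := MultilinearMap.map_piecewise_smul (Φ.toMultilinearMap) (fun _ => (-1 : R))
      (I.piecewise c A) I
    simp only [AlternatingMap.coe_multilinearMap, prod_const, smul_eq_mul] at h3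
    rw [← h3]
    congr 1
    ext i
    by_cases hi : i ∈ I <;> simp [hi]
  · intro I _ hI
    rw [mem_powerset, not_subset] at hI
    obtain ⟨i, hi, hiY⟩ := hI
    apply Φ.map_coord_zero i
    simp only [neg_smul, one_smul, hi, piecewise_eq_of_mem, hc i hiY, neg_zero]

theorem sum_powerset_small {M : Type*} [AddCommMonoid M] (I : Finset ι) (f : Finset ι → M)
    (hf : ∀ O ⊆ I, 1 < O.card → f O = 0) :
    ∑ O ∈ I.powerset, f O = f ∅ + ∑ i ∈ I, f {i} := by
  have h1 : insert ∅ (I.image fun i => ({i} : Finset ι)) ⊆ I.powerset := by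
    intro O hO
    rw [mem_insert, mem_image] at hO
    rcases hO with rfl | ⟨i, hi, rfl⟩
    · simp
    · simpa using hi
  rw [← sum_subset h1, sum_insert, sum_image]
  · intro i _ i' _ h
    simpa using h
  · simp only [mem_image, singleton_ne_empty, and_false, exists_false, not_false_eq_true]
  · intro O hO hO'
    apply hf O (mem_powerset.1 hO)
    by_contra h
    apply hO'
    rw [mem_insert, mem_image]
    rcases Nat.lt_or_ge O.card 1 with h' | h'
    · left; exact card_eq_zero.1 (by omega)
    · right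
      obtain ⟨i, hi⟩ := card_eq_one.1 (show O.card = 1 by omega)
      exact ⟨i, by rw [mem_powerset] at hO; exact hO (by simp [hi]), hi.symm⟩

theorem update_update_swap (Φ : V [⋀^ι]→ₗ[R] R) (W : ι → V) {i₁ i₂ : ι} (h : i₁ ≠ i₂) (a b : V) :
    Φ (update (update W i₁ a) i₂ b) = -Φ (update (update W i₁ b) i₂ a) := by
  rw [← Φ.map_swap _ h]
  congr 1
  ext i
  simp only [comp_apply]
  by_cases h1 : i = i₁
  · subst h1; simp [h]
  · by_cases h2 : i = i₂
    · subst h2; simp [h, h.symm]
    · rw [swap_apply_of_ne_of_ne h1 h2]; simp [h1, h2]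

theorem two_off (Φ : V [⋀^ι]→ₗ[R] R) {j : ι → α} (hj : Injective j) (e : α → V) (B : ι → V)
    {X : Finset α} (blk : α → ℕ) {I : Finset ι} (hI : I.image j ⊆ X) {O : Finset ι} (hO : O ⊆ I)
    (hcard : 1 < O.card) :
    ∑ σ ∈ TT X blk (I.image j), Φ (O.piecewise (fun i => offR X blk e σ (j i)) B) = 0 := by
  obtain ⟨i₁, h₁, i₂, h₂, hne⟩ := one_lt_card.1 hcard
  set J := I.image j with hJ
  have hj1 : j i₁ ∈ J := mem_image_of_mem _ (hO h₁)
  have hj2 : j i₂ ∈ J := mem_image_of_mem _ (hO h₂)
  have hjne : j i₁ ≠ j i₂ := fun h => hne (hj h)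
  -- expansion of the two rows
  have hexp : ∀ σ, Φ (O.piecewise (fun i => offR X blk e σ (j i)) B) =
      ∑ p ∈ ((bl X blk σ (j i₁)).erase (j i₁)) ×ˢ ((bl X blk σ (j i₂)).erase (j i₂)),
        Φ (update (update (O.piecewise (fun i => offR X blk e σ (j i)) B) i₁ (e p.1)) i₂ (e p.2)) := by
    intro σ
    set W := O.piecewise (fun i => offR X blk e σ (j i)) B with hW
    have hW1 : W = update (update W i₁ (offR X blk e σ (j i₁))) i₂ (offR X blk e σ (j i₂)) := by
      ext i
      by_cases h2 : i = i₂
      · subst h2; simp [hW, h₂]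
      · by_cases h1 : i = i₁
        · subst h1; simp [hW, h₁, h2]
        · simp [h1, h2]
    conv_lhs => rw [hW1]
    rw [sum_product_right]
    conv_lhs => rw [offR, offR]
    have := MultilinearMap.map_update_sum Φ.toMultilinearMap
      (t := (bl X blk σ (j i₂)).erase (j i₂)) i₂ (fun k => e k)
      (update W i₁ (∑ k ∈ (bl X blk σ (j i₁)).erase (j i₁), e k))
    simp only [AlternatingMap.coe_multilinearMap] at this
    rw [this]
    apply sum_congr rfl
    intro k' _
    rw [update_comm hne]
    have := MultilinearMap.map_update_sum Φ.toMultilinearMap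
      (t := (bl X blk σ (j i₁)).erase (j i₁)) i₁ (fun k => e k) (update W i₂ (e k'))
    simp only [AlternatingMap.coe_multilinearMap] at this
    rw [this]
    apply sum_congr rfl
    intro k _
    rw [update_comm hne]
  simp_rw [hexp]
  rw [sum_sigma']
  apply sum_involution (fun (x : (_ : Perm α) × (α × α)) _ =>
    (⟨swap x.2.1 x.2.2 * x.1, (x.2.2, x.2.1)⟩ : (_ : Perm α) × (α × α)))
  · rintro ⟨σ, k, k'⟩ hx
    simp only [mem_sigma, mem_product, mem_erase, bl, mem_filter] at hx
    obtain ⟨hσ, ⟨hk1, hkX, hk⟩, hk1', hkX', hk'⟩ := hx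
    rw [mem_TT] at hσ
    have hkJ : ∀ z ∈ J, z ≠ k := fun z hz h => hk1 (hσ.2 k (h ▸ hz) _ hj1 hk)
    have hkJ' : ∀ z ∈ J, z ≠ k' := fun z hz h => hk1' (hσ.2 k' (h ▸ hz) _ hj2 hk')
    have hrow : ∀ i ∈ O, i ≠ i₁ → i ≠ i₂ →
        offR X blk e (swap k k' * σ) (j i) = offR X blk e σ (j i) := by
      intro i hi hi1 hi2
      have hji : j i ∈ J := mem_image_of_mem _ (hO hi)
      have n1 : blk (σ.symm (j i)) ≠ blk (σ.symm (j i₁)) := fun h => hi1 (hj (hσ.2 _ hji _ hj1 h))
      have n2 : blk (σ.symm (j i)) ≠ blk (σ.symm (j i₂)) := fun h => hi2 (hj (hσ.2 _ hji _ hj2 h))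
      unfold offR
      congr 2
      ext z
      simp only [bl, mem_filter, swap_symm_apply,
        swap_apply_of_ne_of_ne (hkJ _ hji) (hkJ' _ hji)]
      constructor
      · rintro ⟨hz, h⟩
        refine ⟨hz, ?_⟩
        by_cases z1 : z = k
        · subst z1; rw [swap_apply_left, hk'] at h; exact absurd h.symm n2
        · by_cases z2 : z = k'
          · subst z2; rw [swap_apply_right, hk] at h; exact absurd h.symm n1
          · rwa [swap_apply_of_ne_of_ne z1 z2] at h
      · rintro ⟨hz, h⟩
        refine ⟨hz, ?_⟩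
        by_cases z1 : z = k
        · subst z1; rw [hk] at h; exact absurd h.symm n1
        · by_cases z2 : z = k'
          · subst z2; rw [hk'] at h; exact absurd h.symm n2
          · rwa [swap_apply_of_ne_of_ne z1 z2]
    have hW : update (update (O.piecewise (fun i => offR X blk e (swap k k' * σ) (j i)) B) i₁ (e k')) i₂ (e k) =
        update (update (O.piecewise (fun i => offR X blk e σ (j i)) B) i₁ (e k')) i₂ (e k) := by
      ext i
      by_cases h2 : i = i₂
      · subst h2; simp
      · by_cases h1 : i = i₁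
        · subst h1; simp [h2]
        · by_cases hi : i ∈ O
          · simp [h1, h2, hi, hrow i hi h1 h2]
          · simp [h1, h2, hi]
    simp only
    rw [hW, update_update_swap Φ _ hne]
    simp
  · rintro ⟨σ, k, k'⟩ hx _ heq
    simp only [mem_sigma, mem_product, mem_erase, bl, mem_filter] at hx
    obtain ⟨hσ, ⟨hk1, hkX, hk⟩, hk1', hkX', hk'⟩ := hx
    rw [mem_TT] at hσ
    simp only [Sigma.mk.injEq, heq_eq_eq, Prod.mk.injEq] at heq
    have hkk : k' = k := heq.2.1
    rw [hkk] at hk'
    exact hjne (hσ.2 _ hj1 _ hj2 (hk.symm.trans hk'))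
  · rintro ⟨σ, k, k'⟩ hx
    simp only [mem_sigma, mem_product, mem_erase, bl, mem_filter] at hx ⊢
    obtain ⟨hσ, ⟨hk1, hkX, hk⟩, hk1', hkX', hk'⟩ := hx
    rw [mem_TT] at hσ
    have hkJ : ∀ z ∈ J, z ≠ k := fun z hz h => hk1 (hσ.2 k (h ▸ hz) _ hj1 hk)
    have hkJ' : ∀ z ∈ J, z ≠ k' := fun z hz h => hk1' (hσ.2 k' (h ▸ hz) _ hj2 hk')
    have hfix : ∀ z ∈ J, swap k k' z = z := fun z hz => swap_apply_of_ne_of_ne (hkJ z hz) (hkJ' z hz)
    refine ⟨?_, ⟨(hkJ' _ hj1).symm, hkX', ?_⟩, (hkJ _ hj2).symm, hkX, ?_⟩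
    · rw [mem_TT]
      refine ⟨perms_mul (perms_swap hkX hkX') hσ.1, ?_⟩
      intro x hx y hy h
      rw [swap_symm_apply, swap_symm_apply, hfix x hx, hfix y hy] at h
      exact hσ.2 x hx y hy h
    · rw [swap_symm_apply, swap_symm_apply, hfix _ hj1, swap_apply_right]; exact hk
    · rw [swap_symm_apply, swap_symm_apply, hfix _ hj2, swap_apply_left]; exact hk'
  · rintro ⟨σ, k, k'⟩ _
    simp only [Sigma.mk.injEq, heq_eq_eq, Prod.mk.injEq, and_self, and_true]
    rw [← mul_assoc, swap_comm k' k]; simp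

theorem cf_fixed {d s : ℕ} {X : Finset α} {blk : α → ℕ} (hb : IsPartition d s X blk)
    (hX : X.card = d * s) (Φ : V [⋀^ι]→ₗ[R] R) {j : ι → α} (hj : Injective j) (e : α → V) (A : ι → V)
    {I : Finset ι} (hI : I.image j ⊆ X) :
    ∑ σ ∈ permsOfFinset X, Φ (I.piecewise (rowS X blk j e σ) A) =
      (aC d s I.card : R) * Φ (I.piecewise (fun i => e (j i)) A) +
      (bC d s I.card : R) * ∑ i ∈ I, ∑ k ∈ X \ I.image j,
        Φ (update (I.piecewise (fun i => e (j i)) A) i (e k)) := by
  set J := I.image j with hJ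
  have hcardJ : J.card = I.card := card_image_of_injective _ hj
  have hmem : ∀ i ∈ I, j i ∈ X := fun i hi => hI (mem_image_of_mem _ hi)
  have hsub : TT X blk J ⊆ permsOfFinset X := filter_subset _ _
  rw [← sum_subset hsub]
  · set B := I.piecewise (fun i => e (j i)) A with hB
    have h1 : ∀ σ ∈ TT X blk J, Φ (I.piecewise (rowS X blk j e σ) A) =
        ∑ O ∈ I.powerset, Φ (O.piecewise (fun i => offR X blk e σ (j i)) B) := by
      intro σ _
      have h2 := MultilinearMap.map_piecewise_add Φ.toMultilinearMap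
        (fun i => offR X blk e σ (j i)) B I
      simp only [AlternatingMap.coe_multilinearMap] at h2
      rw [← h2]
      congr 1
      ext i
      by_cases hi : i ∈ I
      · simp only [piecewise_eq_of_mem _ _ _ hi, rowS, hmem i hi, if_true, Pi.add_apply, hB]
        rw [offR, sum_erase_add]
        simp [bl, hmem i hi]
      · simp [hi, hB]
    rw [sum_congr rfl h1, sum_comm]
    rw [sum_powerset_small I _ (fun O hO hc => two_off Φ hj e B blk hI hO hc)]
    congr 1
    · simp only [piecewise_empty, sum_const, nsmul_eq_mul]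
      rw [card_TT hb hX J hI, hcardJ]
    · rw [mul_sum]
      apply sum_congr rfl
      intro i hi
      have hji : j i ∈ J := mem_image_of_mem _ hi
      have h3 : ∀ σ ∈ TT X blk J, Φ (({i} : Finset ι).piecewise (fun i => offR X blk e σ (j i)) B) =
          ∑ k ∈ X \ J, if blk (σ.symm k) = blk (σ.symm (j i)) then Φ (update B i (e k)) else 0 := by
        intro σ hσ
        rw [mem_TT] at hσ
        rw [piecewise_singleton, offR]
        have := MultilinearMap.map_update_sum Φ.toMultilinearMap
          (t := (bl X blk σ (j i)).erase (j i)) i (fun k => e k) B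
        simp only [AlternatingMap.coe_multilinearMap] at this
        rw [this, ← sum_filter]
        apply sum_congr _ (fun _ _ => rfl)
        ext z
        simp only [mem_filter, mem_sdiff, mem_erase, bl]
        constructor
        · rintro ⟨h1, h2, h3⟩
          exact ⟨⟨h2, fun h => h1 (hσ.2 z h _ hji h3)⟩, h3⟩
        · rintro ⟨⟨h1, h2⟩, h3⟩
          exact ⟨fun h => h2 (h ▸ hji), h1, h3⟩
      rw [sum_congr rfl h3, sum_comm, mul_sum]
      apply sum_congr rfl
      intro k hk
      rw [← sum_filter, sum_const, card_TT_pair hb hX hI hji hk, hcardJ, nsmul_eq_mul]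
  · intro σ hσ hσ'
    rw [mem_TT] at hσ'
    push Not at hσ'
    obtain ⟨x, hx, y, hy, hxy, hne⟩ := hσ' hσ
    rw [hJ, mem_image] at hx hy
    obtain ⟨i, hi, rfl⟩ := hx
    obtain ⟨i', hi', rfl⟩ := hy
    have hii : i ≠ i' := fun h => hne (by rw [h])
    apply Φ.map_eq_zero_of_eq _ _ hii
    rw [piecewise_eq_of_mem _ _ _ hi, piecewise_eq_of_mem _ _ _ hi']
    simp only [rowS, hmem i hi, hmem i' hi', if_true]
    congr 1
    simp only [bl, hxy]

/-- **Abstract closed form.** -/
theorem abstract_cf {d s : ℕ} {X : Finset α} {blk : α → ℕ} (hb : IsPartition d s X blk)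
    (hX : X.card = d * s) (Φ : V [⋀^ι]→ₗ[R] R) {j : ι → α} (hj : Injective j) (e : α → V) (A : ι → V) :
    ∑ σ ∈ permsOfFinset X, Φ (fun i => A i - rowS X blk j e σ i) =
      ∑ I ∈ (univ.filter fun i => j i ∈ X).powerset, (-1) ^ I.card *
      ((aC d s I.card : R) * Φ (I.piecewise (fun i => e (j i)) A) +
      (bC d s I.card : R) * ∑ i ∈ I, ∑ k ∈ X \ I.image j,
        Φ (update (I.piecewise (fun i => e (j i)) A) i (e k))) := by
  have h1 : ∀ σ ∈ permsOfFinset X, Φ (fun i => A i - rowS X blk j e σ i) =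
      ∑ I ∈ (univ.filter fun i => j i ∈ X).powerset, (-1) ^ I.card * Φ (I.piecewise (rowS X blk j e σ) A) := by
    intro σ _
    apply phi_sub
    intro i hi
    simp only [mem_filter, mem_univ, true_and] at hi
    simp [rowS, hi]
  rw [sum_congr rfl h1, sum_comm]
  apply sum_congr rfl
  intro I hI
  rw [← mul_sum, cf_fixed hb hX Φ hj e A]
  intro x hx
  rw [mem_image] at hx
  obtain ⟨i, hi, rfl⟩ := hx
  rw [mem_powerset] at hI
  have := hI hi
  simpa only [mem_filter, mem_univ, true_and] using this

end Vale.Agent.P049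
end
end
end

section

section

section

/-! `closed_det`: the closed form for determinants. -/

namespace Vale.Agent.P049

open Finset Equiv Function Matrix Polynomial

variable {α : Type*} [DecidableEq α] {R : Type*} [CommRing R]

/-- unit vector -/
def ev (R : Type*) [CommRing R] (i : α) : α → R := Pi.single i 1

theorem ev_apply (i k : α) : ev R i k = if k = i then 1 else 0 := by
  simp [ev, Pi.single_apply]

theorem pact_block_row {X : Finset α} {blk : α → ℕ} {σ : Perm α} (hσ : σ ∈ permsOfFinset X) (i k : α) :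
    (pact σ (blockMat R X blk)) i k = rowS X blk id (ev R) σ i k := by
  have hX : ∀ x, σ.symm x ∈ X ↔ x ∈ X := by
    intro x
    constructor
    · intro h; have := perms_apply_mem hσ h; simpa using this
    · exact perms_symm_mem hσ
  simp only [pact, blockMat, submatrix_apply, of_apply, hX, rowS, id]
  by_cases hi : i ∈ X
  · simp only [hi, true_and, if_true, Finset.sum_apply, ev_apply]
    rw [Finset.sum_ite_eq]
    simp only [bl, mem_filter, eq_comm]
  · simp [hi]

variable [Fintype α]

/-- determinant as a function of the rows -/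
def DD (A : α → α → R) : R := (detRowAlternating (n := α) (R := R)) A

theorem DD_eq (A : Matrix α α R) : A.det = DD (fun i k => A i k) := rfl

theorem DD_map {S : Type*} [CommRing S] (φ : R →+* S) (A : α → α → R) :
    φ (DD A) = DD (fun i k => φ (A i k)) := by
  change φ (Matrix.det (Matrix.of A)) = Matrix.det _
  rw [RingHom.map_det]; rfl

theorem closed_det_sum {d s : ℕ} {X : Finset α} (hX : X.card = d * s)
    {blk : α → ℕ} (hb : IsPartition d s X blk) (A : α → α → R) :
    ∑ σ ∈ permsOfFinset X, DD (fun i k => A i k - pact σ (blockMat R X blk) i k) =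
      ∑ I ∈ X.powerset, (-1) ^ I.card *
      ((aC d s I.card : R) * DD (I.piecewise (ev R) A) +
      (bC d s I.card : R) * ∑ i ∈ I, ∑ k ∈ X \ I, DD (update (I.piecewise (ev R) A) i (ev R k))) := by
  have h := abstract_cf hb hX (detRowAlternating (n := α) (R := R)) (j := (id : α → α)) injective_id
    (ev R) A
  simp only [id, filter_mem_eq_inter, univ_inter, image_id] at h
  refine Eq.trans (sum_congr rfl ?_) h
  intro σ hσ
  unfold DD
  congr 1
  ext i k
  rw [pact_block_row (R := R) (blk := blk) hσ i]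
  rfl

theorem DD_smul_add (A : α → α → R) (X : Finset α) (z : R) :
    DD (fun i k => (if i ∈ X then z else 0) * ev R i k + A i k) =
      ∑ I ∈ X.powerset, z ^ I.card * DD (I.piecewise (ev R) A) := by
  have h2 := MultilinearMap.map_add_univ ((detRowAlternating (n := α) (R := R)).toMultilinearMap)
    (fun i => (if i ∈ X then z else 0 : R) • (ev R i)) A
  simp only [AlternatingMap.coe_multilinearMap] at h2
  have h1 : (fun i k => (if i ∈ X then z else 0) * ev R i k + A i k) =
      (fun i => (if i ∈ X then z else 0 : R) • (ev R i)) + A := by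
    ext i k
    by_cases hi : i ∈ X <;> simp [hi]
  unfold DD
  rw [h1, h2, ← sum_subset (s₁ := X.powerset) (subset_univ _)]
  · apply sum_congr rfl
    intro I hI
    rw [mem_powerset] at hI
    have h3 := MultilinearMap.map_piecewise_smul
      ((detRowAlternating (n := α) (R := R)).toMultilinearMap)
      (fun i => (if i ∈ X then z else 0 : R)) (I.piecewise (ev R) A) I
    simp only [AlternatingMap.coe_multilinearMap, smul_eq_mul] at h3
    have h4 : I.piecewise (fun i => (if i ∈ X then z else 0 : R) •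
        I.piecewise (ev R) A i) (I.piecewise (ev R) A) =
        I.piecewise (fun i => (if i ∈ X then z else 0 : R) • (ev R i)) A := by
      ext1 i
      by_cases hi : i ∈ I <;> simp [hi]
    rw [h4] at h3
    rw [h3]
    have h5 : ∏ i ∈ I, (if i ∈ X then z else 0 : R) = z ^ I.card := by
      rw [prod_congr rfl (fun i hi => if_pos (hI hi)), prod_const]
    rw [h5]
  · intro I _ hI
    rw [mem_powerset, not_subset] at hI
    obtain ⟨i, hi, hiX⟩ := hI
    apply AlternatingMap.map_coord_zero _ i
    simp [hi, hiX]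

/-- the rows of `zMat A X 0` -/
noncomputable def zRow (A : α → α → R) (X : Finset α) : α → α → R[X] :=
  fun i k => (if i ∈ X then Polynomial.X else 0) * ev R[X] i k + C (A i k)

theorem zMat_zero_row (A : Matrix α α R) (X : Finset α) (i k : α) :
    zMat A X 0 i k = zRow (fun i k => A i k) X i k := by
  simp only [zMat, diagOn, Int.cast_zero, zero_smul, Matrix.add_apply, map_apply, Matrix.smul_apply, diagonal_apply, smul_eq_mul, zRow, ev_apply]
  by_cases hik : i = k
  · subst hik; by_cases hi : i ∈ X <;> simp [hi, add_comm]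
  · have : ¬ k = i := fun h => hik h.symm
    simp [hik, this]

theorem piecewise_C (A : α → α → R) (I : Finset α) :
    I.piecewise (ev R[X]) (fun i k => C (A i k)) = fun i k => C (I.piecewise (ev R) A i k) := by
  ext i k : 2
  by_cases hi : i ∈ I
  · simp only [Finset.piecewise, hi, if_true, ev_apply]
    split_ifs <;> simp
  · simp only [Finset.piecewise, hi, if_false]

theorem DD_zRow (A : α → α → R) (X : Finset α) :
    DD (zRow A X) = ∑ I ∈ X.powerset, C (DD (I.piecewise (ev R) A)) * Polynomial.X ^ I.card := by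
  unfold zRow
  rw [DD_smul_add (fun i k => C (A i k))]
  apply sum_congr rfl
  intro I _
  rw [piecewise_C, ← DD_map, mul_comm]

theorem DD_add_outer (P : α → α → R) (X : Finset α) :
    DD (fun i k => P i k + outer R X i k) =
      DD P + ∑ i ∈ X, ∑ k ∈ X, DD (update P i (ev R k)) := by
  have h1 : (fun i k => P i k + outer R X i k) =
      (fun i => (if i ∈ X then ∑ k ∈ X, ev R k else 0)) + P := by
    ext i k
    simp only [outer, of_apply, Pi.add_apply]
    by_cases hi : i ∈ X
    · simp only [hi, true_and, if_true, Finset.sum_apply, ev_apply]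
      rw [Finset.sum_ite_eq, add_comm]
    · simp [hi]
  have h2 := MultilinearMap.map_add_univ ((detRowAlternating (n := α) (R := R)).toMultilinearMap)
    (fun i => (if i ∈ X then ∑ k ∈ X, ev R k else 0)) P
  simp only [AlternatingMap.coe_multilinearMap] at h2
  unfold DD
  rw [h1, h2]
  have h3 : ∀ I : Finset α, I ∉ X.powerset → (detRowAlternating (n := α) (R := R))
      (I.piecewise (fun i => (if i ∈ X then ∑ k ∈ X, ev R k else 0)) P) = 0 := by
    intro I hI
    rw [mem_powerset, not_subset] at hI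
    obtain ⟨i, hi, hiX⟩ := hI
    apply AlternatingMap.map_coord_zero _ i
    simp [hi, hiX]
  rw [← sum_subset (s₁ := X.powerset) (subset_univ _) (fun I _ hI => h3 I hI)]
  rw [sum_powerset_small]
  · congr 1
    apply sum_congr rfl
    intro i hi
    have h4 := MultilinearMap.map_update_sum
      (detRowAlternating (n := α) (R := R)).toMultilinearMap (t := X) i (fun k => ev R k) P
    simp only [AlternatingMap.coe_multilinearMap] at h4
    refine Eq.trans ?_ h4
    congr 1
    ext r : 1
    by_cases hr : r = i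
    · subst hr; simp [hi]
    · simp [Finset.piecewise, hr]
  · intro O hO hc
    obtain ⟨i₁, h₁, i₂, h₂, hne⟩ := one_lt_card.1 hc
    apply AlternatingMap.map_eq_zero_of_eq _ _ _ hne
    simp [h₁, h₂, hO h₁, hO h₂]

theorem DD_update_zRow (A : α → α → R) (X : Finset α) (i k : α) :
    DD (update (zRow A X) i (ev R[X] k)) =
      ∑ I ∈ (X.erase i).powerset, C (DD (update (I.piecewise (ev R) A) i (ev R k))) *
        Polynomial.X ^ I.card := by
  have h1 : update (zRow A X) i (ev R[X] k) = zRow (update A i (ev R k)) (X.erase i) := by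
    ext r t : 2
    by_cases hr : r = i
    · subst hr
      simp only [update_self, ev_apply, zRow, mem_erase]
      split_ifs <;> simp_all
    · simp only [zRow, update_of_ne hr, mem_erase, ne_eq, hr, not_false_eq_true, true_and]
  rw [h1, DD_zRow]
  apply sum_congr rfl
  intro I hI
  congr 3
  have hiI : i ∉ I := fun h => by
    have := (mem_powerset.1 hI) h
    simp at this
  ext r t
  by_cases hr : r = i
  · subst hr
    simp only [Finset.piecewise, hiI, if_false, update_self]
  · simp only [Finset.piecewise, update_of_ne hr]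

/-- sum of the complementary principal minors over `k`-subsets of `X` -/
theorem coeff_DD_zRow (A : α → α → R) (X : Finset α) (k : ℕ) :
    (DD (zRow A X)).coeff k = ∑ I ∈ X.powersetCard k, DD (I.piecewise (ev R) A) := by
  rw [DD_zRow, finsetSum_coeff]
  simp_rw [coeff_C_mul, coeff_X_pow]
  rw [← sum_filter_add_sum_filter_not X.powerset (fun I => k = I.card)]
  rw [sum_eq_zero (s := X.powerset.filter fun I => ¬ k = I.card), add_zero]
  · have : X.powerset.filter (fun I => k = I.card) = X.powersetCard k := by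
      ext I; simp only [mem_filter, mem_powerset, mem_powersetCard, eq_comm]
    rw [this]
    apply sum_congr rfl
    intro I hI
    rw [if_pos (mem_powersetCard.1 hI).2.symm, mul_one]
  · intro I hI
    rw [if_neg (mem_filter.1 hI).2, mul_zero]

theorem coeff_DD_diff (A : α → α → R) (X : Finset α) (k : ℕ) :
    (∑ i ∈ X, ∑ k' ∈ X, DD (update (zRow A X) i (ev R[X] k'))).coeff k =
      ∑ I ∈ X.powersetCard (k + 1), ((k + 1 : ℕ) * DD (I.piecewise (ev R) A) +
        ∑ i ∈ I, ∑ k' ∈ X \ I, DD (update (I.piecewise (ev R) A) i (ev R k'))) := by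
  rw [finsetSum_coeff]
  simp_rw [finsetSum_coeff]
  have h1 : ∀ i ∈ X, ∀ k' ∈ X, (DD (update (zRow A X) i (ev R[X] k'))).coeff k =
      ∑ I ∈ (X.erase i).powersetCard k, DD (update (I.piecewise (ev R) A) i (ev R k')) := by
    intro i _ k' _
    rw [DD_update_zRow A X i k', finsetSum_coeff]
    simp_rw [coeff_C_mul, coeff_X_pow]
    rw [← sum_filter_add_sum_filter_not (X.erase i).powerset (fun I => k = I.card)]
    rw [sum_eq_zero (s := (X.erase i).powerset.filter fun I => ¬ k = I.card), add_zero]
    · have : (X.erase i).powerset.filter (fun I => k = I.card) = (X.erase i).powersetCard k := by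
        ext I; simp [mem_powersetCard, eq_comm]
      rw [this]
      apply sum_congr rfl
      intro I hI
      rw [if_pos (mem_powersetCard.1 hI).2.symm, mul_one]
    · intro I hI
      rw [if_neg (mem_filter.1 hI).2, mul_zero]
  rw [sum_congr rfl (fun i hi => sum_congr rfl (fun k' hk' => h1 i hi k' hk'))]
  have h2 : ∀ i ∈ X, ∑ k' ∈ X, ∑ I ∈ (X.erase i).powersetCard k,
      DD (update (I.piecewise (ev R) A) i (ev R k')) =
      ∑ I ∈ (X.powersetCard (k + 1)).filter (fun I => i ∈ I),
        ∑ k' ∈ X, DD (update (I.piecewise (ev R) A) i (ev R k')) := by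
    intro i hi
    rw [sum_comm]
    apply sum_bij (fun I _ => insert i I)
    · intro I hI
      rw [mem_powersetCard] at hI
      rw [mem_filter, mem_powersetCard]
      have hiI : i ∉ I := fun h => by have := hI.1 h; simp at this
      refine ⟨⟨insert_subset hi (hI.1.trans (erase_subset _ _)), ?_⟩, mem_insert_self _ _⟩
      rw [card_insert_of_notMem hiI, hI.2]
    · intro I hI I' hI' h
      rw [mem_powersetCard] at hI hI'
      have hiI : i ∉ I := fun h => by have := hI.1 h; simp at this
      have hiI' : i ∉ I' := fun h => by have := hI'.1 h; simp at this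
      rw [← erase_insert hiI, ← erase_insert hiI', h]
    · intro I hI
      rw [mem_filter, mem_powersetCard] at hI
      refine ⟨I.erase i, ?_, insert_erase hI.2⟩
      rw [mem_powersetCard]
      exact ⟨erase_subset_erase _ hI.1.1, by rw [card_erase_of_mem hI.2, hI.1.2]; rfl⟩
    · intro I hI
      apply sum_congr rfl
      intro k' _
      congr 1
      ext r : 1
      by_cases hr : r = i
      · subst hr; simp
      · simp only [update_of_ne hr, Finset.piecewise, mem_insert, hr, false_or]
  rw [sum_congr rfl h2]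
  rw [sum_comm' (t' := X.powersetCard (k + 1)) (s' := fun I => I)]
  · apply sum_congr rfl
    intro I hI
    rw [mem_powersetCard] at hI
    have h3 : ∀ i ∈ I, ∑ k' ∈ X, DD (update (I.piecewise (ev R) A) i (ev R k')) =
        DD (I.piecewise (ev R) A) +
        ∑ k' ∈ X \ I, DD (update (I.piecewise (ev R) A) i (ev R k')) := by
      intro i hi
      rw [← sum_sdiff hI.1, add_comm]
      congr 1
      rw [sum_eq_single i]
      · congr 1
        ext r : 1
        by_cases hr : r = i
        · subst hr; simp [hi]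
        · simp [hr]
      · intro k' hk' hne
        unfold DD
        apply AlternatingMap.map_eq_zero_of_eq _ _ _ hne
        rw [update_self, update_of_ne hne]
        simp [hk']
      · intro h; exact absurd hi h
    rw [sum_congr rfl h3, sum_add_distrib, sum_const, hI.2, nsmul_eq_mul]
  · intro i I
    simp only [mem_filter, mem_powersetCard]
    constructor
    · rintro ⟨_, h, hiI⟩; exact ⟨hiI, h⟩
    · rintro ⟨hiI, h⟩; exact ⟨h.1 hiI, h, hiI⟩

theorem neg_prod_eq (d s k : ℕ) (hk : k ≤ s) :
    (∏ j ∈ range k, (-((d : ℤ) * ((s : ℤ) - j)))) = (-1) ^ k * ((d ^ k * s.descFactorial k : ℕ) : ℤ) := by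
  induction k with
  | zero => simp only [range_zero, prod_empty, Int.reduceNeg, pow_zero, Nat.descFactorial_zero, mul_one, Nat.cast_one]
  | succ k ih =>
    rw [prod_range_succ, ih (by omega), Nat.descFactorial_succ]
    push_cast [Nat.cast_sub (show k ≤ s by omega)]
    ring

theorem prod_fact (n : ℕ) : (∏ j ∈ range n, ((j : ℤ) + 1)) = (n.factorial : ℤ) := by
  rw [← prod_range_add_one_eq_factorial]
  push_cast
  rfl

theorem wC_eq {d s k : ℕ} (hd : 2 ≤ d) (hs : 0 < s) (hk : k ≤ s) :
    wC d s k = (-1) ^ k * ((aC d s k : ℤ) - k * (bC d s k : ℤ)) := by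
  unfold wC aC bC
  rw [neg_prod_eq d s k hk, prod_fact]
  have h1 : k + 1 ≤ d * s := by nlinarith
  obtain ⟨t, ht⟩ : ∃ t, d * s - k = t + 1 := ⟨d * s - k - 1, by omega⟩
  have ht' : d * s - k - 1 = t := by omega
  have ht2 : ((d : ℤ) * s - k) = t + 1 := by
    have : d * s = k + (t + 1) := by omega
    have h : ((d * s : ℕ) : ℤ) = ((k + (t + 1) : ℕ) : ℤ) := by rw [this]
    push_cast at h
    linarith only [this]
  rw [ht', ht, Nat.factorial_succ]
  push_cast [Nat.cast_sub (show 1 ≤ d by omega)]
  have h3 : (d : ℤ) * (s - k) = (t + 1) - k * (d - 1) := by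
    rw [← ht2]; ring
  rw [h3]
  ring

theorem vC_eq {d s k : ℕ} (hd : 2 ≤ d) (hk : k < s) :
    vC d s k = (-1) ^ (k + 1) * (bC d s (k + 1) : ℤ) := by
  unfold vC bC
  rw [neg_prod_eq d s (k + 1) hk, prod_fact]
  have ht' : d * s - (k + 1) - 1 = d * s - k - 2 := by omega
  rw [ht']
  push_cast [Nat.cast_sub (show 1 ≤ d by omega)]
  ring

theorem closed_det {d s : ℕ} (hd : 2 ≤ d) (hs : 0 < s) {X : Finset α} (hX : X.card = d * s)
    {blk : α → ℕ} (hb : IsPartition d s X blk) (A : Matrix α α R) :
    ∑ σ ∈ permsOfFinset X, (A - pact σ (blockMat R X blk)).det = closedOp d s Matrix.det X A := by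
  have h0 : ∑ σ ∈ permsOfFinset X, (A - pact σ (blockMat R X blk)).det =
      ∑ σ ∈ permsOfFinset X, DD (fun i k => A i k - pact σ (blockMat R X blk) i k) := rfl
  rw [h0, closed_det_sum hX hb (fun i k => A i k)]
  set A' : α → α → R := fun i k => A i k with hA'
  have hz0 : (zMat A X 0).det = DD (zRow A' X) := by
    rw [DD_eq]; congr 1; ext i k : 2; exact zMat_zero_row A X i k
  have hz1 : (zMat A X 1).det - (zMat A X 0).det = ∑ i ∈ X, ∑ k' ∈ X, DD (update (zRow A' X) i (ev R[X] k')) := by
    have h1 : (zMat A X 1).det = DD (fun i k => zRow A' X i k + outer R[X] X i k) := by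
      rw [DD_eq]; congr 1; ext i k : 2
      rw [← zMat_zero_row A X i k]
      simp [zMat]
    rw [h1, hz0, DD_add_outer, add_sub_cancel_left]
  unfold closedOp
  rw [hz1, hz0]
  simp_rw [coeff_DD_zRow, coeff_DD_diff]
  -- split the powerset by cardinality
  rw [Finset.sum_powerset]
  have hext : range (s + 1) ⊆ range (X.card + 1) := by
    apply range_subset_range.2
    rw [hX]; nlinarith only [hd]
  rw [← sum_subset hext]
  · -- main identity
    have hsplit : ∀ k ∈ range (s + 1), ∑ I ∈ X.powersetCard k, (-1) ^ I.card *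
        ((aC d s I.card : R) * DD (I.piecewise (ev R) A') +
        (bC d s I.card : R) * ∑ i ∈ I, ∑ k ∈ X \ I, DD (update (I.piecewise (ev R) A') i (ev R k))) =
        (wC d s k : R) * ∑ I ∈ X.powersetCard k, DD (I.piecewise (ev R) A') +
        ((-1) ^ k * (bC d s k : R)) * ∑ I ∈ X.powersetCard k, ((k : ℕ) * DD (I.piecewise (ev R) A') +
          ∑ i ∈ I, ∑ k' ∈ X \ I, DD (update (I.piecewise (ev R) A') i (ev R k'))) := by
      intro k hk
      rw [mem_range] at hk
      rw [mul_sum, mul_sum, ← sum_add_distrib]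
      apply sum_congr rfl
      intro I hI
      rw [(mem_powersetCard.1 hI).2, wC_eq hd hs (by omega)]
      push_cast
      ring
    rw [sum_congr rfl hsplit, sum_add_distrib]
    congr 1
    rw [sum_range_succ']
    have hz : ∑ I ∈ X.powersetCard 0, (((0 : ℕ) : R) * DD (I.piecewise (ev R) A') +
          ∑ i ∈ I, ∑ k' ∈ X \ I, DD (update (I.piecewise (ev R) A') i (ev R k'))) = 0 := by
      simp only [powersetCard_zero, Nat.cast_zero, zero_mul, zero_add, sum_singleton, sdiff_empty, piecewise_empty, sum_empty]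
    rw [hz, mul_zero, add_zero]
    apply sum_congr rfl
    intro k hk
    rw [mem_range] at hk
    rw [vC_eq hd hk]
    push_cast
    ring
  · intro k _ hk
    rw [mem_range, not_lt] at hk
    have hks : s < k := by omega
    apply sum_eq_zero
    intro I hI
    rw [(mem_powersetCard.1 hI).2]
    simp only [aC, Nat.descFactorial_of_lt hks, mul_zero, zero_mul, Nat.cast_zero, bC, add_zero]

end Vale.Agent.P049
end
end
end

section

section

section

/-! The closed form with further random pieces, and the coefficient bound. -/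

open Finset Matrix Polynomial

namespace Vale.Agent.P049

universe u

section expand

variable {α : Type*} [Fintype α] [DecidableEq α]

omit [Fintype α] in
theorem blockMat_map {R S : Type*} [CommRing R] [CommRing S] (φ : R →+* S) (X : Finset α)
    (blk : α → ℕ) : (blockMat R X blk).map φ = blockMat S X blk := by
  ext i k
  simp only [blockMat, Matrix.map_apply, Matrix.of_apply]
  split_ifs <;> simp

/-- `restSum` is a sum of determinants `det (A - L)` with bounded integer matrices `L`. -/
theorem exists_rest {d r : ℕ} (hd : 0 < d) {X₀ : Finset α} (hX₀ : X₀.card = d * r) (q : ℕ) :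
    ∃ (n : ℕ) (L : Fin n → Matrix α α ℤ), n ≤ ((Fintype.card α) ^ (Fintype.card α)) ^ q ∧
      (∀ x i k, 0 ≤ L x i k ∧ L x i k ≤ q) ∧
      ∀ (R : Type u) [CommRing R] (A : Matrix α α R),
        restSum d X₀ q A = ∑ x, (A - (L x).map (Int.cast : ℤ → R)).det := by
  induction q with
  | zero =>
    refine ⟨1, fun _ => 0, by simp only [pow_zero, Std.le_refl], by simp, fun R _ A => ?_⟩
    rw [restSum_zero]
    have : (0 : Matrix α α ℤ).map (Int.cast : ℤ → R) = 0 := by
      ext i k; simp
    simp only [univ_unique, Fin.default_eq_zero, Fin.isValue, this, sub_zero, sum_const, card_singleton, one_smul]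
  | succ q ih =>
    obtain ⟨n, L, hn, hb, hL⟩ := ih
    obtain ⟨blk, hblk, hbase⟩ := exists_partition_base hd hX₀
    set ι' := {σ // σ ∈ permsOfFinset X₀} × Fin n with hι'
    set e : ι' ≃ Fin (Fintype.card ι') := Fintype.equivFin ι' with he
    set F : ι' → Matrix α α ℤ := fun x => pact x.1.1 (blockMat ℤ X₀ blk) + L x.2 with hF
    refine ⟨Fintype.card ι', fun x => F (e.symm x), ?_, ?_, ?_⟩
    · have hcard : Fintype.card ι' = n * (permsOfFinset X₀).card := by
        rw [mul_comm, ← Fintype.card_coe (permsOfFinset X₀)]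
        exact (Fintype.card_prod _ _).trans (by rw [Fintype.card_fin])
      rw [hcard, pow_succ]
      apply Nat.mul_le_mul hn
      rw [card_perms_of_finset]
      refine (Nat.factorial_le (Finset.card_le_univ _)).trans ?_
      exact Nat.factorial_le_pow _
    · intro x i k
      obtain ⟨h1, h2⟩ := hb (e.symm x).2 i k
      have h3 : 0 ≤ pact (e.symm x).1.1 (blockMat ℤ X₀ blk) i k ∧
          pact (e.symm x).1.1 (blockMat ℤ X₀ blk) i k ≤ 1 := by
        simp only [pact, blockMat, Matrix.submatrix_apply, Matrix.of_apply]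
        split_ifs <;> simp
      simp only [hF, Matrix.add_apply]
      push_cast
      constructor <;> linarith only [h1, h3, h2]
    · intro R _ A
      have hB : IsBase d X₀.card X₀ ∅ (blockMat R X₀ blk) := by
        have := (hbase ℤ).map (Int.castRingHom R)
        rwa [blockMat_map] at this
      rw [restSum_succ, ordSum_eq_perm _ hB rfl (Finset.disjoint_empty_right _),
        ← Finset.sum_coe_sort]
      have h1 : ∀ σ : {σ // σ ∈ permsOfFinset X₀},
          restSum d X₀ q (A - pact σ.1 (blockMat R X₀ blk)) =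
          ∑ y : Fin n, (A - (F (σ, y)).map (Int.cast : ℤ → R)).det := by
        intro σ
        rw [hL]
        apply Finset.sum_congr rfl
        intro y _
        congr 1
        ext i k
        simp only [hF, Matrix.sub_apply, Matrix.map_apply, Matrix.add_apply]
        rw [← blockMat_map (Int.castRingHom R)]
        simp only [pact, Matrix.submatrix_apply, Matrix.map_apply]
        push_cast
        simp only [eq_intCast]
        ring
      rw [Finset.sum_congr rfl (fun σ _ => h1 σ), ← Fintype.sum_prod_type']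
      exact (Equiv.sum_comp e.symm (fun x => (A - (F x).map (Int.cast : ℤ → R)).det)).symm

end expand

section closed

variable {α : Type*} [Fintype α] [DecidableEq α] {R : Type u} [CommRing R]

omit [Fintype α] in
theorem zMat_sub (A : Matrix α α R) (X : Finset α) (t : ℤ) (L : Matrix α α ℤ) :
    zMat A X t - L.map (Int.cast : ℤ → R[X]) = zMat (A - L.map (Int.cast : ℤ → R)) X t := by
  refine Matrix.ext (fun i k => ?_)
  simp only [zMat, Matrix.sub_apply, Matrix.add_apply, map_apply, map_sub, map_intCast]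
  ring

theorem closed_rest {d s r : ℕ} (hd : 2 ≤ d) (hs : 0 < s) {X X₀ : Finset α} (hX : X.card = d * s)
    (hX₀ : X₀.card = d * r) (q : ℕ) (A : Matrix α α R) :
    ordSum d (restSum d X₀ q) X.card X ∅ A = closedOp d s (restSum d X₀ q) X A := by
  obtain ⟨n, L, _, _, hL⟩ := exists_rest.{u} (by omega : 0 < d) hX₀ q
  obtain ⟨blk, hblk, hbase⟩ := exists_partition_base (by omega : 0 < d) hX
  have hB : IsBase d X.card X ∅ (blockMat R X blk) := by
    have := (hbase ℤ).map (Int.castRingHom R)
    rwa [blockMat_map] at this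
  rw [ordSum_eq_perm _ hB rfl (Finset.disjoint_empty_right _)]
  have h1 : ∑ σ ∈ permsOfFinset X, restSum d X₀ q (A - pact σ (blockMat R X blk)) =
      ∑ x : Fin n, closedOp d s Matrix.det X (A - (L x).map (Int.cast : ℤ → R)) := by
    simp only [hL]
    rw [Finset.sum_comm]
    apply Finset.sum_congr rfl
    intro x _
    rw [← closed_det hd hs hX hblk]
    apply Finset.sum_congr rfl
    intro σ _
    congr 1
    abel
  rw [h1]
  unfold closedOp
  simp only [hL, zMat_sub, ← Finset.sum_sub_distrib, Polynomial.finsetSum_coeff, Finset.mul_sum]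
  rw [Finset.sum_add_distrib]
  congr 1
  · rw [Finset.sum_comm]
  · rw [Finset.sum_comm]

end closed

/-! ### Coefficient bound -/

section bound

/-- coefficientwise majorization -/
def Maj (p : ℤ[X]) (b : ℕ[X]) : Prop := ∀ k, (p.coeff k).natAbs ≤ b.coeff k

theorem Maj.mul {p₁ p₂ : ℤ[X]} {b₁ b₂ : ℕ[X]} (h₁ : Maj p₁ b₁) (h₂ : Maj p₂ b₂) :
    Maj (p₁ * p₂) (b₁ * b₂) := by
  intro k
  rw [Polynomial.coeff_mul, Polynomial.coeff_mul]
  refine (Int.natAbs_sum_le _ _).trans ?_
  apply Finset.sum_le_sum
  intro x _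
  rw [Int.natAbs_mul]
  exact Nat.mul_le_mul (h₁ _) (h₂ _)

theorem Maj.one : Maj 1 1 := by
  intro k
  rw [Polynomial.coeff_one, Polynomial.coeff_one]
  split_ifs <;> simp

theorem Maj.prod {ι : Type*} (s : Finset ι) {p : ι → ℤ[X]} {b : ι → ℕ[X]}
    (h : ∀ i ∈ s, Maj (p i) (b i)) : Maj (∏ i ∈ s, p i) (∏ i ∈ s, b i) := by
  classical
  induction s using Finset.induction_on with
  | empty => simpa using Maj.one
  | insert a s ha ih =>
    rw [Finset.prod_insert ha, Finset.prod_insert ha]
    exact (h a (Finset.mem_insert_self _ _)).mul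
      (ih (fun i hi => h i (Finset.mem_insert_of_mem hi)))

theorem Maj.sum {ι : Type*} (s : Finset ι) {p : ι → ℤ[X]} {b : ι → ℕ[X]}
    (h : ∀ i ∈ s, Maj (p i) (b i)) : Maj (∑ i ∈ s, p i) (∑ i ∈ s, b i) := by
  intro k
  rw [Polynomial.finsetSum_coeff, Polynomial.finsetSum_coeff]
  refine (Int.natAbs_sum_le _ _).trans ?_
  exact Finset.sum_le_sum (fun i hi => h i hi k)

theorem Maj.unit_smul {p : ℤ[X]} {b : ℕ[X]} (h : Maj p b) (u : ℤˣ) : Maj (u • p) b := by
  intro k
  rcases Int.units_eq_one_or u with rfl | rfl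
  · rw [one_smul]; exact h k
  · rw [Units.neg_smul, one_smul, Polynomial.coeff_neg, Int.natAbs_neg]; exact h k

theorem coeff_le_eval_one (b : ℕ[X]) (k : ℕ) : b.coeff k ≤ b.eval 1 := by
  rw [Polynomial.eval_eq_sum_range]
  simp only [one_pow, mul_one]
  rcases le_or_gt k b.natDegree with h | h
  · exact Finset.single_le_sum (f := fun i => b.coeff i) (fun i _ => Nat.zero_le _)
      (Finset.mem_range.mpr (by omega))
  · rw [Polynomial.coeff_eq_zero_of_natDegree_lt h]; exact Nat.zero_le _

variable {α : Type*} [Fintype α] [DecidableEq α]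

theorem Maj.det {M : Matrix α α ℤ[X]} {b : ℕ[X]} (h : ∀ i k, Maj (M i k) b) :
    Maj M.det (∑ _σ : Equiv.Perm α, ∏ _i : α, b) := by
  rw [Matrix.det_apply]
  apply Maj.sum
  intro σ _
  apply Maj.unit_smul
  apply Maj.prod
  intro i _
  exact h _ _

omit [Fintype α] in
theorem maj_entry {A : Matrix α α ℤ} {X : Finset α} {t : ℤ} {N q : ℕ}
    (hA : ∀ i k, (A i k).natAbs ≤ N) (ht : t.natAbs ≤ 1) {L : Matrix α α ℤ}
    (hL : ∀ i k, 0 ≤ L i k ∧ L i k ≤ q) (i k : α) :
    Maj ((zMat A X t - L.map (Int.cast : ℤ → ℤ[X])) i k) (C (N + q + 1) + Polynomial.X) := by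
  intro j
  rw [zMat_sub]
  have hdiag : (diagOn ℤ[X] X) i k = if i = k ∧ i ∈ X then 1 else 0 := by
    unfold diagOn
    rw [Matrix.diagonal_apply]
    by_cases h : i = k
    · simp [h]
    · simp [h]
  have hout : (outer ℤ[X] X) i k = if i ∈ X ∧ k ∈ X then 1 else 0 := rfl
  simp only [zMat, Matrix.add_apply, Matrix.map_apply, Matrix.smul_apply, smul_eq_mul,
    Polynomial.coeff_add, hdiag, hout]
  have hB : (A - L.map (Int.cast : ℤ → ℤ)) i k = A i k - L i k := by simp
  rw [hB]
  have hb := hL i k
  have ha := hA i k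
  rcases j with _ | j
  · have e1 : ((Polynomial.X : ℤ[X]) * (if i = k ∧ i ∈ X then 1 else 0)).coeff 0 = 0 := by
      rw [Polynomial.mul_coeff_zero, Polynomial.coeff_X_zero, zero_mul]
    have e2 : (((t : ℤ[X])) * (if i ∈ X ∧ k ∈ X then 1 else 0)).coeff 0 =
        if i ∈ X ∧ k ∈ X then t else 0 := by
      split_ifs
      · rw [mul_one]
        have : ((t : ℤ[X])) = C t := by simp
        rw [this, Polynomial.coeff_C_zero]
      · simp
    rw [e1, e2, Polynomial.coeff_C_zero, Polynomial.coeff_C_zero, Polynomial.coeff_X_zero]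
    split_ifs <;> omega
  · have e2 : (((t : ℤ[X])) * (if i ∈ X ∧ k ∈ X then 1 else 0)).coeff (j + 1) = 0 := by
      split_ifs
      · rw [mul_one]
        have : ((t : ℤ[X])) = C t := by simp
        rw [this, Polynomial.coeff_C_succ]
      · simp
    rw [e2, Polynomial.coeff_C_succ, Polynomial.coeff_C_succ]
    rcases j with _ | j
    · have e1 : ((Polynomial.X : ℤ[X]) * (if i = k ∧ i ∈ X then 1 else 0)).coeff (0 + 1) =
          if i = k ∧ i ∈ X then 1 else 0 := by
        rw [Polynomial.coeff_X_mul]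
        split_ifs <;> simp
      rw [e1]
      have e3 : (Polynomial.X : ℕ[X]).coeff (0 + 1) = 1 := by simp
      rw [e3]
      split_ifs <;> simp
    · have e1 : ((Polynomial.X : ℤ[X]) * (if i = k ∧ i ∈ X then 1 else 0)).coeff (j + 1 + 1) =
          0 := by
        rw [Polynomial.coeff_X_mul]
        split_ifs
        · rw [Polynomial.coeff_one]; simp
        · simp
      rw [e1]
      simp only [add_zero, Int.natAbs_zero, zero_add, zero_le]

/-- coefficient bound (for Kronecker substitution) -/
theorem coeff_rest_bound {d r : ℕ} {X X₀ : Finset α} (hd : 2 ≤ d) (hX₀ : X₀.card = d * r) (q : ℕ)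
    (A : Matrix α α ℤ) (t : ℤ) (N : ℕ) (hA : ∀ i k, (A i k).natAbs ≤ N) (ht : t.natAbs ≤ 1)
    (k : ℕ) :
    ((restSum d X₀ q (zMat A X t)).coeff k).natAbs ≤
      ((Fintype.card α) ^ (q + 1) * (N + q + 2)) ^ (Fintype.card α) := by
  obtain ⟨n, L, hn, hb, hL⟩ := exists_rest.{0} (by omega : 0 < d) hX₀ q
  rw [hL]
  have h1 : Maj (∑ x : Fin n, (zMat A X t - (L x).map (Int.cast : ℤ → ℤ[X])).det)
      (∑ _x : Fin n, ∑ _σ : Equiv.Perm α, ∏ _i : α, (C (N + q + 1) + Polynomial.X)) := by
    apply Maj.sum
    intro x _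
    apply Maj.det
    intro i k
    exact maj_entry hA ht (hb x) i k
  refine (h1 k).trans ((coeff_le_eval_one _ k).trans ?_)
  simp only [Finset.sum_const, Finset.card_univ, Fintype.card_fin, Fintype.card_perm,
    Finset.prod_const, nsmul_eq_mul, Polynomial.eval_mul, Polynomial.eval_natCast,
    Polynomial.eval_pow, Polynomial.eval_add, Polynomial.eval_C, Polynomial.eval_X]
  have h2 : (Fintype.card α).factorial ≤ (Fintype.card α) ^ (Fintype.card α) :=
    Nat.factorial_le_pow _
  calc n * ((Fintype.card α).factorial * (N + q + 1 + 1) ^ Fintype.card α)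
      ≤ ((Fintype.card α) ^ (Fintype.card α)) ^ q *
        ((Fintype.card α) ^ (Fintype.card α) * (N + q + 1 + 1) ^ Fintype.card α) := by
        apply Nat.mul_le_mul hn
        exact Nat.mul_le_mul_right _ h2
    _ = ((Fintype.card α) ^ (q + 1) * (N + q + 2)) ^ (Fintype.card α) := by
        have : N + q + 1 + 1 = N + q + 2 := rfl
        rw [this, mul_pow, ← mul_assoc]
        congr 1
        rw [← pow_mul, ← pow_mul, ← pow_add]
        congr 1
        ring

end bound

end Vale.Agent.P049
end
end
end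

section

section

section

/-! Correctness of the determinant algorithm. -/

open Finset Matrix

namespace Vale.Agent.P049

section newton

variable {m : ℕ}

theorem trace_pow_eigen {A : Matrix (Fin m) (Fin m) ℝ} (hA : A.IsHermitian) (n : ℕ) :
    (A ^ n).trace = ∑ i, hA.eigenvalues i ^ n := by
  have h1 := hA.spectral_theorem
  have h2 : A ^ n = Unitary.conjStarAlgAut ℝ _ hA.eigenvectorUnitary
      ((diagonal (RCLike.ofReal ∘ hA.eigenvalues)) ^ n) := by
    rw [map_pow, ← h1]
  rw [h2, Unitary.conjStarAlgAut_apply, Matrix.trace_mul_comm, ← mul_assoc,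
    Unitary.coe_star_mul_self, one_mul, Matrix.diagonal_pow, Matrix.trace_diagonal]
  rfl

theorem exists_newton (A : Matrix (Fin m) (Fin m) ℤ) (hA : A.IsSymm) :
    ∃ e : ℕ → ℤ, e 0 = 1 ∧ e m = A.det ∧ ∀ k, k < m → ((k : ℤ) + 1) * e (k + 1) =
      ∑ i ∈ range (k + 1), e (k - i) * ((-1) ^ i * (A ^ (i + 1)).trace) := by
  refine ⟨fun k => (-1) ^ k * A.charpoly.coeff (m - k), ?_, ?_, ?_⟩
  · have h1 := Matrix.charpoly_monic A
    have h2 := Matrix.charpoly_natDegree_eq_dim A
    rw [Fintype.card_fin] at h2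
    rw [Polynomial.Monic, Polynomial.leadingCoeff, h2] at h1
    simp only [Int.reduceNeg, pow_zero, tsub_zero, h1, mul_one]
  · have := Matrix.det_eq_sign_charpoly_coeff A
    rw [Fintype.card_fin] at this
    rw [this]; simp only [Int.reduceNeg, tsub_self]
  · intro k hk
    set B : Matrix (Fin m) (Fin m) ℝ := (Int.castRingHom ℝ).mapMatrix A with hB
    have hBH : B.IsHermitian := by
      unfold Matrix.IsHermitian
      rw [Matrix.conjTranspose_eq_transpose_of_trivial, hB]
      exact (hA.map _)
    set l := hBH.eigenvalues with hl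
    have hcp : B.charpoly = A.charpoly.map (Int.castRingHom ℝ) := Matrix.charpoly_map A _
    have hes : ∀ j ≤ m, (((-1) ^ j * A.charpoly.coeff (m - j) : ℤ) : ℝ) =
        MvPolynomial.aeval l (MvPolynomial.esymm (Fin m) ℝ j) := by
      intro j hj
      rw [MvPolynomial.aeval_esymm_eq_multiset_esymm]
      have h1 : B.charpoly = ((univ.val.map l).map (fun t => Polynomial.X - Polynomial.C t)).prod := by
        rw [hBH.charpoly_eq, Multiset.map_map]
        rfl
      have h2 := Multiset.prod_X_sub_C_coeff (univ.val.map l) (k := m - j) (by simp only [Fin.univ_val_map, Multiset.coe_card, List.length_ofFn, tsub_le_iff_right, le_add_iff_nonneg_right, zero_le])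
      rw [← h1, hcp, Polynomial.coeff_map] at h2
      simp only [Multiset.card_map, Finset.card_val, Finset.card_univ, Fintype.card_fin] at h2
      have h3 : m - (m - j) = j := by omega
      rw [h3] at h2
      push_cast
      have h4 : ((A.charpoly.coeff (m - j) : ℤ) : ℝ) = (-1) ^ j * (univ.val.map l).esymm j := h2
      rw [h4, ← mul_assoc, ← mul_pow]
      simp only [mul_neg, mul_one, neg_neg, one_pow, Fin.univ_val_map, one_mul]
    have hps : ∀ j, MvPolynomial.aeval l (MvPolynomial.psum (Fin m) ℝ j) =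
        (((A ^ j).trace : ℤ) : ℝ) := by
      intro j
      have h1 : (B ^ j).trace = (((A ^ j).trace : ℤ) : ℝ) := by
        rw [hB, ← map_pow]
        exact (AddMonoidHom.map_trace (Int.castRingHom ℝ) (A ^ j)).symm
      rw [← h1, trace_pow_eigen hBH, MvPolynomial.psum]
      simp only [map_sum, MvPolynomial.aeval_eq_eval, map_pow, MvPolynomial.eval_X]
      rfl
    have hN := congrArg (MvPolynomial.aeval l) (MvPolynomial.mul_esymm_eq_sum (Fin m) ℝ (k + 1))
    simp only [map_mul, map_sum, map_pow, map_neg, map_one, map_natCast] at hN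
    rw [Finset.sum_filter, Finset.Nat.sum_antidiagonal_eq_sum_range_succ_mk,
      Finset.sum_range_succ, if_neg (by simp), add_zero] at hN
    have hN2 : ((k + 1 : ℕ) : ℝ) * MvPolynomial.aeval l (MvPolynomial.esymm (Fin m) ℝ (k + 1)) =
        ∑ i ∈ range (k + 1), MvPolynomial.aeval l (MvPolynomial.esymm (Fin m) ℝ (k - i)) *
          ((-1) ^ i * MvPolynomial.aeval l (MvPolynomial.psum (Fin m) ℝ (i + 1))) := by
      rw [hN, ← Finset.sum_range_reflect, Finset.mul_sum]
      apply Finset.sum_congr rfl
      intro j hj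
      have hj' : j ≤ k := by rw [Finset.mem_range] at hj; omega
      have e1 : k + 1 - 1 - j = k - j := by omega
      have e2 : k + 1 - (k - j) = j + 1 := by omega
      simp only [e1, e2]
      rw [if_pos (by omega)]
      have e3 : (-1 : ℝ) ^ (k + 1 + 1) * (-1) ^ (k - j) = (-1) ^ j := by
        rw [← pow_add]
        have : k + 1 + 1 + (k - j) = j + 2 * (k - j + 1) := by omega
        rw [this, pow_add, pow_mul]
        simp only [even_two, Even.neg_pow, one_pow, mul_one]
      rw [← e3]; ring
    rw [← hes (k + 1) (by omega)] at hN2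
    have hN3 : ((((k : ℤ) + 1) * ((-1) ^ (k + 1) * A.charpoly.coeff (m - (k + 1))) : ℤ) : ℝ) =
        ((∑ i ∈ range (k + 1), ((-1) ^ (k - i) * A.charpoly.coeff (m - (k - i))) *
          ((-1) ^ i * (A ^ (i + 1)).trace) : ℤ) : ℝ) := by
      rw [Int.cast_mul, Int.cast_sum]
      have : (((k : ℤ) + 1 : ℤ) : ℝ) = ((k + 1 : ℕ) : ℝ) := by push_cast; ring
      rw [this, hN2]
      apply Finset.sum_congr rfl
      intro i hi
      rw [← hes (k - i) (by omega), hps]
      push_cast
      ring
    exact_mod_cast hN3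

end newton

section lists

theorem dot_cons (a b : ℤ) (r s : List ℤ) : dot (a :: r) (b :: s) = a * b + dot r s := by
  simp [dot]

theorem dot_range (f g : ℕ → ℤ) {a b : ℕ} (h : a ≤ b) :
    dot ((List.range a).map f) ((List.range b).map g) = ∑ i ∈ range a, f i * g i := by
  induction a generalizing b f g with
  | zero => simp [dot]
  | succ a ih =>
    obtain ⟨b, rfl⟩ : ∃ b', b = b' + 1 := ⟨b - 1, by omega⟩
    rw [List.range_succ_eq_map, List.range_succ_eq_map, List.map_cons, List.map_cons, dot_cons,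
      List.map_map, List.map_map, ih (f ∘ Nat.succ) (g ∘ Nat.succ) (by omega),
      Finset.sum_range_succ', add_comm]
    rfl

/-- rows of a matrix as lists -/
def rows {m : ℕ} (A : Matrix (Fin m) (Fin m) ℤ) : List (List ℤ) :=
  List.ofFn fun i => List.ofFn fun k => A i k

theorem zipWith_ofFn {β γ δ : Type*} (f : β → γ → δ) {n : ℕ} (u : Fin n → β) (v : Fin n → γ) :
    List.zipWith f (List.ofFn u) (List.ofFn v) = List.ofFn fun i => f (u i) (v i) := by
  induction n with
  | zero => simp
  | succ n ih =>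
    rw [List.ofFn_succ, List.ofFn_succ, List.ofFn_succ, List.zipWith_cons_cons, ih]

theorem dot_ofFn {n : ℕ} (u v : Fin n → ℤ) :
    dot (List.ofFn u) (List.ofFn v) = ∑ i, u i * v i := by
  unfold dot
  rw [zipWith_ofFn, List.sum_ofFn]

variable {m : ℕ}

theorem mulS_rows (M : Matrix (Fin m) (Fin m) ℤ) {A : Matrix (Fin m) (Fin m) ℤ}
    (hA : A.IsSymm) : mulS (rows M) (rows A) = rows (M * A) := by
  unfold mulS rows
  rw [List.map_ofFn]
  congr 1
  funext i
  simp only [Function.comp_apply]
  rw [List.map_ofFn]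
  congr 1
  funext k
  simp only [Function.comp_apply]
  rw [dot_ofFn, Matrix.mul_apply]
  apply Finset.sum_congr rfl
  intro j _
  rw [hA.apply]

theorem frob_rows (M : Matrix (Fin m) (Fin m) ℤ) {A : Matrix (Fin m) (Fin m) ℤ}
    (hA : A.IsSymm) : frob (rows M) (rows A) = (M * A).trace := by
  unfold frob rows
  rw [zipWith_ofFn, List.sum_ofFn, Matrix.trace]
  apply Finset.sum_congr rfl
  intro i _
  rw [dot_ofFn, Matrix.diag_apply, Matrix.mul_apply]
  apply Finset.sum_congr rfl
  intro j _
  rw [hA.apply]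

theorem powTr_rows {A : Matrix (Fin m) (Fin m) ℤ} (hA : A.IsSymm) :
    powTr (rows (1 : Matrix (Fin m) (Fin m) ℤ)) (rows A) =
      (List.range m).map (fun i => (-1) ^ i * (A ^ (i + 1)).trace) := by
  have key : ∀ k, (powTrStep (rows A))^[k] (rows (1 : Matrix (Fin m) (Fin m) ℤ), 1, []) =
      (rows (A ^ k), (-1) ^ k,
        ((List.range k).map (fun i => (-1) ^ i * (A ^ (i + 1)).trace)).reverse) := by
    intro k
    induction k with
    | zero => simp only [Function.iterate_zero, id_eq, pow_zero, Int.reduceNeg, List.range_zero, List.map_nil, List.reverse_nil]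
    | succ k ih =>
      rw [Function.iterate_succ_apply', ih]
      unfold powTrStep
      simp only
      rw [mulS_rows _ hA, frob_rows _ hA, ← pow_succ, List.range_succ, List.map_append,
        List.reverse_append]
      refine Prod.ext rfl (Prod.ext ?_ ?_)
      · simp only; rw [pow_succ]; ring
      · simp only [Int.reduceNeg, List.map_cons, List.map_nil, List.reverse_cons, List.reverse_nil, List.nil_append, List.cons_append]
  unfold powTr
  have hlen : (rows A).length = m := by simp [rows]
  have h1 : (rows A).foldl (fun s _ => powTrStep (rows A) s)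
      (rows (1 : Matrix (Fin m) (Fin m) ℤ), 1, []) =
      (powTrStep (rows A))^[(rows A).length] (rows (1 : Matrix (Fin m) (Fin m) ℤ), 1, []) :=
    List.foldl_const _ _ _
  rw [h1, hlen, key]
  simp only [Int.reduceNeg, List.reverse_reverse]

theorem newton_range (e p : ℕ → ℤ) (h0 : e 0 = 1)
    (h : ∀ k, k < m → ((k : ℤ) + 1) * e (k + 1) = ∑ i ∈ range (k + 1), e (k - i) * p i) :
    newton ((List.range m).map p) = e m := by
  have key : ∀ k ≤ m, (newtonStep ((List.range m).map p))^[k] (0, [1]) =
      ((k : ℤ), (List.range (k + 1)).map (fun i => e (k - i))) := by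
    intro k
    induction k with
    | zero => intro _; simp [h0]
    | succ k ih =>
      intro hk
      rw [Function.iterate_succ_apply', ih (by omega)]
      unfold newtonStep
      simp only
      rw [dot_range _ _ (by omega : k + 1 ≤ m), ← h k (by omega),
        Int.mul_ediv_cancel_left _ (by omega)]
      refine Prod.ext ?_ ?_
      · push_cast; rfl
      · simp only
        rw [List.range_succ_eq_map (n := k + 1), List.map_cons, List.map_map]
        congr 1
        apply List.map_congr_left
        intro i _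
        simp only [Function.comp_apply]
        congr 1
        omega
  unfold newton
  have h1 : ((List.range m).map p).foldl (fun s _ => newtonStep ((List.range m).map p) s)
      (0, [1]) = (newtonStep ((List.range m).map p))^[((List.range m).map p).length] (0, [1]) :=
    List.foldl_const _ _ _
  rw [h1, List.length_map, List.length_range, key m le_rfl]
  simp only
  rw [List.range_succ_eq_map, List.map_cons]
  simp only [tsub_zero, List.map_map, List.headD_eq_head?_getD, List.head?_cons, Option.getD_some]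

theorem detL_eq (A : Matrix (Fin m) (Fin m) ℤ) (hA : A.IsSymm) :
    detL (rows (1 : Matrix (Fin m) (Fin m) ℤ)) (rows A) = A.det := by
  obtain ⟨e, h0, h1, h2⟩ := exists_newton A hA
  unfold detL
  rw [powTr_rows hA, newton_range e _ h0 h2, h1]

end lists

end Vale.Agent.P049
end
end
end

section

section

section

/-! Extraction of the coefficients of an integer polynomial from its value at a large integer. -/

open Polynomial

namespace Vale.Agent.P049

theorem bm_eq {c B Q : ℤ} (h : 2 * |c| < B) : bm (c + B * Q) B = c := by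
  have h0 := abs_lt.mp (show |2 * c| < B by rw [abs_mul]; simpa using h)
  have hrem : c + B * Q - B * ((c + B * Q) / B) = c % B := by
    rw [← Int.emod_def, Int.add_mul_emod_self_left]
  unfold bm
  rw [hrem]
  rcases le_or_gt 0 c with hc | hc
  · rw [Int.emod_eq_of_lt hc (by linarith only [h0]), if_neg (by linarith only [h0])]
  · have h1 : c % B = c + B := by
      have h2 : (c + B) % B = c % B := Int.add_emod_right c B
      rw [← h2]
      exact Int.emod_eq_of_lt (by linarith only [h0]) (by linarith only [hc])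
    rw [h1, if_pos (by linarith only [h0])]
    ring

theorem digitsL_coeff (p : ℤ[X]) (B : ℤ) (hp : ∀ k, 2 * |p.coeff k| < B) (L : List ℕ) :
    digitsL B L (p.eval B) = (List.range L.length).map fun k => p.coeff k := by
  have hB : 0 < B := by
    have := hp 0
    have h1 := abs_nonneg (p.coeff 0)
    linarith
  have hcoeff : ∀ k j, (divX^[k] p).coeff j = p.coeff (j + k) := by
    intro k
    induction k with
    | zero => intro j; simp
    | succ k ih =>
      intro j
      rw [Function.iterate_succ_apply', coeff_divX, ih]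
      congr 1
      omega
  have heval : ∀ q : ℤ[X], q.eval B = q.coeff 0 + B * (divX q).eval B := by
    intro q
    conv_lhs => rw [← divX_mul_X_add q]
    simp only [eq_intCast, eval_add, eval_mul, eval_X, eval_intCast, Int.cast_eq]
    ring
  have key : ∀ k, (digitStep B)^[k] (p.eval B, []) =
      ((divX^[k] p).eval B, ((List.range k).map (fun i => p.coeff i)).reverse) := by
    intro k
    induction k with
    | zero => simp
    | succ k ih =>
      rw [Function.iterate_succ_apply', ih, Function.iterate_succ_apply']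
      unfold digitStep
      simp only
      have h1 : bm ((divX^[k] p).eval B) B = p.coeff k := by
        rw [heval, hcoeff, zero_add]
        exact bm_eq (hp k)
      rw [h1]
      refine Prod.ext ?_ ?_
      · simp only
        rw [heval (divX^[k] p), hcoeff, zero_add, add_sub_cancel_left,
          Int.mul_ediv_cancel_left _ hB.ne']
      · simp only
        rw [List.range_succ, List.map_append, List.reverse_append]
        rfl
  unfold digitsL
  have h1 : L.foldl (fun s _ => digitStep B s) (p.eval B, []) =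
      (digitStep B)^[L.length] (p.eval B, []) := List.foldl_const _ _ _
  rw [h1, key]
  simp

end Vale.Agent.P049
end
end
end

section

section

section

/-! Lists of numbers `< m` as finsets of `Fin m`. -/

open Finset

namespace Vale.Agent.P049

/-- the set of elements of a list, inside `Fin m` -/
def fs (m : ℕ) (l : List ℕ) : Finset (Fin m) := univ.filter fun i => (i : ℕ) ∈ l

/-- a list of distinct elements `< m` -/
def ListOK (m : ℕ) (l : List ℕ) : Prop := l.Nodup ∧ ∀ x ∈ l, x < m

section basic

variable {m : ℕ}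

theorem mem_fs {l : List ℕ} {i : Fin m} : i ∈ fs m l ↔ (i : ℕ) ∈ l := by
  unfold fs
  rw [Finset.mem_filter]
  simp only [mem_univ, true_and]

theorem fs_map {l : List ℕ} (h : ListOK m l) : (fs m l).map Fin.valEmbedding = l.toFinset := by
  ext x
  rw [Finset.mem_map, List.mem_toFinset]
  constructor
  · rintro ⟨i, hi, rfl⟩
    exact mem_fs.mp hi
  · intro hx
    exact ⟨⟨x, h.2 x hx⟩, mem_fs.mpr hx, rfl⟩

theorem card_fs {l : List ℕ} (h : ListOK m l) : (fs m l).card = l.length := by
  rw [← Finset.card_map Fin.valEmbedding, fs_map h, List.toFinset_card_of_nodup h.1]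

theorem sum_fs {M : Type*} [AddCommMonoid M] {l : List ℕ} (h : ListOK m l) (F : ℕ → M) :
    (l.map F).sum = ∑ i ∈ fs m l, F i := by
  rw [← List.sum_toFinset F h.1, ← fs_map h, Finset.sum_map]
  rfl

theorem fs_nil : fs m [] = ∅ := by
  ext i; rw [mem_fs]; simp

theorem fs_cons {l : List ℕ} {a : Fin m} : fs m ((a : ℕ) :: l) = insert a (fs m l) := by
  ext i
  rw [mem_fs, Finset.mem_insert, mem_fs, List.mem_cons, Fin.ext_iff]

theorem fs_filter {l : List ℕ} {a : Fin m} :
    fs m (l.filter (· ≠ (a : ℕ))) = (fs m l).erase a := by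
  ext i
  simp only [mem_fs, Finset.mem_erase, List.mem_filter, ne_eq, Fin.ext_iff, decide_eq_true_eq]
  tauto

theorem ListOK.filter {l : List ℕ} (h : ListOK m l) (p : ℕ → Bool) : ListOK m (l.filter p) :=
  ⟨h.1.filter _, fun x hx => h.2 x (List.mem_of_mem_filter hx)⟩

theorem ListOK.cons {l : List ℕ} (h : ListOK m l) {a : Fin m} (ha : (a : ℕ) ∉ l) :
    ListOK m ((a : ℕ) :: l) := by
  refine ⟨List.nodup_cons.mpr ⟨ha, h.1⟩, ?_⟩
  intro x hx
  rcases List.mem_cons.mp hx with rfl | hx
  · exact a.2
  · exact h.2 x hx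

end basic

end Vale.Agent.P049
end
end
end

section

section

section

/-! The list functions compute the mathematical values. -/

open Finset Matrix Polynomial

namespace Vale.Agent.P049

def entryMat (m : ℕ) (c : ℤ) (blocks : List (List ℕ)) (zs : List (List ℕ × ℤ × ℤ)) :
    Matrix (Fin m) (Fin m) ℤ := Matrix.of fun i k => entry c blocks zs i k

section basic

variable {m : ℕ}

theorem map_range_ofFn {β : Type*} (f : ℕ → β) :
    (List.range m).map f = List.ofFn (fun i : Fin m => f i) := by
  apply List.ext_getElem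
  · simp
  · intro i h1 h2
    simp

theorem matL_eq (c : ℤ) (blocks : List (List ℕ)) (zs : List (List ℕ × ℤ × ℤ)) :
    matL (List.range m) c blocks zs = rows (entryMat m c blocks zs) := by
  unfold matL rows entryMat
  rw [map_range_ofFn]
  congr 1
  funext i
  rw [map_range_ofFn]
  rfl

theorem idL_eq : idL (List.range m) = rows (1 : Matrix (Fin m) (Fin m) ℤ) := by
  unfold idL rows
  rw [map_range_ofFn]
  congr 1
  funext i
  rw [map_range_ofFn]
  congr 1
  funext k
  rw [Matrix.one_apply]
  simp only [Fin.ext_iff]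

theorem entryMat_cons_block (c : ℤ) (b : List ℕ) (blocks : List (List ℕ))
    (zs : List (List ℕ × ℤ × ℤ)) :
    entryMat m c (b :: blocks) zs = entryMat m c blocks zs - outer ℤ (fs m b) := by
  refine Matrix.ext (fun i k => ?_)
  simp only [entryMat, entry, List.map_cons, List.sum_cons, of_apply, outer, mem_fs, Matrix.sub_apply]
  ring

theorem entryMat_cons_z (c : ℤ) (blocks : List (List ℕ)) (X : List ℕ) (B t : ℤ)
    (zs : List (List ℕ × ℤ × ℤ)) :
    entryMat m c blocks ((X, B, t) :: zs) =
      entryMat m c blocks zs + B • diagOn ℤ (fs m X) + t • outer ℤ (fs m X) := by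
  refine Matrix.ext (fun i k => ?_)
  have e1 : (diagOn ℤ (fs m X)) i k = if (i : ℕ) = k ∧ (i : ℕ) ∈ X then 1 else 0 := by
    unfold diagOn
    rw [Matrix.diagonal_apply]
    by_cases h : i = k
    · subst h; simp [mem_fs]
    · rw [if_neg h, if_neg]
      rintro ⟨h1, _⟩
      exact h (Fin.ext h1)
  simp only [Matrix.add_apply, Matrix.smul_apply, e1, smul_eq_mul]
  simp only [entryMat, entry, outer, Matrix.of_apply, List.map_cons,
    List.sum_cons, mem_fs]
  split_ifs <;> ring

theorem entryMat_isSymm (c : ℤ) (blocks : List (List ℕ)) (zs : List (List ℕ × ℤ × ℤ)) :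
    (entryMat m c blocks zs).IsSymm := by
  have h0 : (entryMat m c [] []).IsSymm := by
    unfold Matrix.IsSymm
    refine Matrix.ext (fun i k => ?_)
    simp only [entryMat, entry, Matrix.transpose_apply, Matrix.of_apply, List.map_nil,
      List.sum_nil, eq_comm]
  have h1 : (entryMat m c [] zs).IsSymm := by
    induction zs with
    | nil => exact h0
    | cons z zs ih =>
      obtain ⟨X, B, t⟩ := z
      rw [entryMat_cons_z]
      refine (ih.add ?_).add ?_
      · exact (Matrix.isSymm_diagonal _).smul _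
      · exact (outer_isSymm _).smul _
  induction blocks with
  | nil => exact h1
  | cons b blocks ih =>
    rw [entryMat_cons_block]
    exact ih.sub (outer_isSymm _)

theorem eval_zMat (A : Matrix (Fin m) (Fin m) ℤ) (X : Finset (Fin m)) (t B : ℤ) :
    (zMat A X t).map (Polynomial.evalRingHom B) = A + B • diagOn ℤ X + t • outer ℤ X := by
  refine Matrix.ext (fun i k => ?_)
  simp only [zMat, Matrix.map_apply, Matrix.add_apply, Matrix.smul_apply, smul_eq_mul,
    Polynomial.coe_evalRingHom, diagOn, outer, Matrix.diagonal_apply, Matrix.of_apply]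
  split_ifs <;> simp

theorem rest_eval (d : ℕ) (X₀ : Finset (Fin m)) (q : ℕ) (A : Matrix (Fin m) (Fin m) ℤ)
    (X : Finset (Fin m)) (t B : ℤ) :
    restSum d X₀ q (A + B • diagOn ℤ X + t • outer ℤ X) = (restSum d X₀ q (zMat A X t)).eval B := by
  rw [← eval_zMat]
  exact (restSum_map (Polynomial.evalRingHom B) d X₀ q (zMat A X t)).symm

end basic

section sums

theorem filter_range {m s : ℕ} (h : s ≤ m) : (List.range m).filter (· < s) = List.range s := by
  induction m with
  | zero =>
    have : s = 0 := by omega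
    subst this; rfl
  | succ m ih =>
    rw [List.range_succ, List.filter_append]
    rcases Nat.lt_or_ge s (m + 1) with h1 | h1
    · rw [ih (by omega)]
      have : ¬ m < s := by omega
      simp [this]
    · have hs : s = m + 1 := by omega
      subst hs
      have h2 : (List.range m).filter (· < m + 1) = List.range m := by
        rw [List.filter_eq_self]
        intro a ha
        rw [List.mem_range] at ha
        simp only [Order.lt_add_one_iff, decide_eq_true_eq]
        omega
      rw [h2, List.range_succ]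
      simp only [Order.lt_add_one_iff, Std.le_refl, decide_true, List.filter_cons_of_pos, List.filter_nil]

theorem prod_range_list (f : ℕ → ℤ) (n : ℕ) :
    ((List.range n).map f).prod = ∏ j ∈ Finset.range n, f j := by
  induction n with
  | zero => simp
  | succ n ih =>
    rw [List.range_succ, List.map_append, List.prod_append, ih, Finset.prod_range_succ]
    simp

theorem wL_eq {d m s k : ℕ} (hm : d * s ≤ m) (hk : k ≤ m) :
    wL d (List.range m) s k = wC d s k := by
  unfold wL wC
  rw [filter_range hk, filter_range (show d * s - k - 1 ≤ m by omega), prod_range_list,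
    prod_range_list]

theorem vL_eq {d m s k : ℕ} (hm : d * s ≤ m) (hk : k + 1 ≤ m) :
    vL d (List.range m) s k = vC d s k := by
  unfold vL vC
  rw [filter_range hk, filter_range (show d * s - k - 2 ≤ m by omega), prod_range_list,
    prod_range_list]

theorem le_absSum {m : ℕ} (A : Matrix (Fin m) (Fin m) ℤ) :
    0 ≤ absSum (rows A) ∧ ∀ i k, |A i k| ≤ absSum (rows A) := by
  have e : absSum (rows A) = ∑ i, ∑ k, |A i k| := by
    unfold absSum rows
    rw [List.map_ofFn, List.sum_ofFn]
    apply Finset.sum_congr rfl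
    intro i _
    simp only [Function.comp_apply]
    rw [List.map_ofFn, List.sum_ofFn]
    rfl
  rw [e]
  constructor
  · exact Finset.sum_nonneg (fun i _ => Finset.sum_nonneg (fun k _ => abs_nonneg _))
  · intro i k
    refine le_trans ?_ (Finset.single_le_sum (f := fun i => ∑ k, |A i k|)
      (fun i _ => Finset.sum_nonneg (fun k _ => abs_nonneg _)) (Finset.mem_univ i))
    exact Finset.single_le_sum (f := fun k => |A i k|) (fun k _ => abs_nonneg _)
      (Finset.mem_univ k)

theorem base_eq (q m : ℕ) (N : ℤ) :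
    base q (List.range m) N = 5 * (((m : ℤ) + 1) ^ (q + 1) * (N + q + 3)) ^ m := by
  unfold base
  rw [List.length_range, List.map_const', List.prod_replicate, List.length_range]

theorem base_large {d r m q : ℕ} {X X₀ : Finset (Fin m)} (hd : 2 ≤ d) (hX₀ : X₀.card = d * r)
    (A : Matrix (Fin m) (Fin m) ℤ) (k : ℕ) {t : ℤ} (ht : t.natAbs ≤ 1) :
    4 * |(restSum d X₀ q (zMat A X t)).coeff k| < base q (List.range m) (absSum (rows A)) := by
  obtain ⟨h0, h1⟩ := le_absSum A
  have hb := coeff_rest_bound (X := X) hd hX₀ q A t (absSum (rows A)).natAbs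
    (by
      intro i k
      have := h1 i k
      rw [Int.abs_eq_natAbs] at this
      omega) ht k
  rw [Fintype.card_fin] at hb
  rw [base_eq]
  obtain ⟨N, hN⟩ : ∃ N : ℕ, absSum (rows A) = N := ⟨(absSum (rows A)).natAbs, by omega⟩
  rw [hN] at hb ⊢
  simp only [Int.natAbs_natCast] at hb
  have h2 : |(restSum d X₀ q (zMat A X t)).coeff k| ≤
      (((m ^ (q + 1) * (N + q + 2)) ^ m : ℕ) : ℤ) := by
    rw [Int.abs_eq_natAbs]
    exact_mod_cast hb
  have h3 : (m ^ (q + 1) * (N + q + 2)) ^ m ≤ ((m + 1) ^ (q + 1) * (N + q + 3)) ^ m := by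
    apply Nat.pow_le_pow_left
    apply Nat.mul_le_mul
    · exact Nat.pow_le_pow_left (by omega) _
    · omega
  have h4 : 0 < ((m + 1) ^ (q + 1) * (N + q + 3)) ^ m := by (clear * -; positivity)
  have h5 : (((m : ℤ) + 1) ^ (q + 1) * ((N : ℤ) + q + 3)) ^ m =
      ((((m + 1) ^ (q + 1) * (N + q + 3)) ^ m : ℕ) : ℤ) := by
    push_cast; ring
  rw [h5]
  have h3' : (((m ^ (q + 1) * (N + q + 2)) ^ m : ℕ) : ℤ) ≤
      ((((m + 1) ^ (q + 1) * (N + q + 3)) ^ m : ℕ) : ℤ) := by exact_mod_cast h3
  have h4' : (0 : ℤ) < ((((m + 1) ^ (q + 1) * (N + q + 3)) ^ m : ℕ) : ℤ) := by exact_mod_cast h4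
  linarith only [hb, h3, h4, h5]

end sums

section main

variable {d m q : ℕ}

theorem closedL_pos {c : ℤ} {L : List ℕ} {g : St → ℤ} {X : List ℕ} {st : St}
    (h : ¬ X.length / d = 0) :
    closedL d c L q g X st =
    dot ((L.filter (· < X.length / d + 1)).map fun k => wL d L (X.length / d) k)
      (digitsL (base q L (absSum (matL L c st.1 st.2))) L
        (g (st.1, (X, base q L (absSum (matL L c st.1 st.2)), 0) :: st.2))) +
    dot ((L.filter (· < X.length / d)).map fun k => vL d L (X.length / d) k)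
      (digitsL (base q L (absSum (matL L c st.1 st.2))) L
        (g (st.1, (X, base q L (absSum (matL L c st.1 st.2)), 1) :: st.2) -
          g (st.1, (X, base q L (absSum (matL L c st.1 st.2)), 0) :: st.2))) := by
  unfold closedL
  rw [if_neg h]

theorem closedL_neg {c : ℤ} {L : List ℕ} {g : St → ℤ} {X : List ℕ} {st : St}
    (h : X.length / d = 0) : closedL d c L q g X st = g st := by
  unfold closedL
  rw [if_pos h]

theorem closedL_eq_aux (hd : 2 ≤ d) (c : ℤ) {X₀ X : List ℕ} (hX₀ : ListOK m X₀)
    (hdiv : d ∣ X₀.length) (hX : ListOK m X) (hdivX : d ∣ X.length)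
    (hlvl : ∀ st : St, lvl d c (List.range m) X₀ q st =
      restSum d (fs m X₀) q (entryMat m c st.1 st.2))
    (st : St) : closedL d c (List.range m) q (lvl d c (List.range m) X₀ q) X st =
      ordSum d (restSum d (fs m X₀) q) X.length (fs m X) ∅ (entryMat m c st.1 st.2) := by
  by_cases hs : X.length / d = 0
  · have hX0 : X = [] := by
      rw [← List.length_eq_zero_iff, ← Nat.div_mul_cancel hdivX, hs, Nat.zero_mul]
    subst hX0
    rw [closedL_neg hs, hlvl, List.length_nil, ordSum_zero]
  · obtain ⟨s, hsX⟩ := hdivX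
    have hs' : X.length / d = s := by rw [hsX]; exact Nat.mul_div_cancel_left s (by omega)
    rw [closedL_pos hs]
    rw [hs'] at hs ⊢
    have hs0 : 0 < s := Nat.pos_of_ne_zero hs
    have hcard : (fs m X).card = d * s := by rw [card_fs hX, hsX]
    have hm : d * s ≤ m := by
      rw [← hcard]
      exact (Finset.card_le_univ _).trans (by simp only [Fintype.card_fin, Std.le_refl])
    have hsm : s + 1 ≤ m := by nlinarith only [hd, hs0, hm]
    obtain ⟨r, hr⟩ := hdiv
    have hcard₀ : (fs m X₀).card = d * r := by rw [card_fs hX₀, hr]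
    have hclosed := closed_rest hd hs0 hcard hcard₀ q (entryMat m c st.1 st.2)
    rw [hcard] at hclosed
    rw [hsX, hclosed]
    set A := entryMat m c st.1 st.2 with hA
    have hmat : matL (List.range m) c st.1 st.2 = rows A := matL_eq c st.1 st.2
    rw [hmat]
    set B := base q (List.range m) (absSum (rows A)) with hB
    set p0 := restSum d (fs m X₀) q (zMat A (fs m X) 0) with hp0
    set p1 := restSum d (fs m X₀) q (zMat A (fs m X) 1) with hp1
    have hv0 : lvl d c (List.range m) X₀ q (st.1, (X, B, 0) :: st.2) = p0.eval B := by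
      rw [hlvl, entryMat_cons_z, rest_eval]
    have hv1 : lvl d c (List.range m) X₀ q (st.1, (X, B, 1) :: st.2) = p1.eval B := by
      rw [hlvl, entryMat_cons_z, rest_eval]
    rw [hv0, hv1, ← Polynomial.eval_sub]
    have hb0 : ∀ k, 4 * |p0.coeff k| < B := fun k =>
      base_large hd hcard₀ A k (by simp only [Int.natAbs_zero, zero_le])
    have hb1 : ∀ k, 4 * |p1.coeff k| < B := fun k =>
      base_large hd hcard₀ A k (by simp)
    rw [digitsL_coeff p0 B (by
        intro k
        have := hb0 k
        have := abs_nonneg (p0.coeff k)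
        (clear hX hlvl s hs hsX hs' hs0 hcard hm hsm hclosed hA hmat hB hp0 p1 hp1 hv0 hv1 hb1; linarith)),
      digitsL_coeff (p1 - p0) B (by
        intro k
        have h0 := hb0 k
        have h1 := hb1 k
        rw [Polynomial.coeff_sub]
        have := abs_sub (p1.coeff k) (p0.coeff k)
        linarith only [h0, h1, this])]
    rw [List.length_range, filter_range hsm, filter_range (by omega : s ≤ m),
      dot_range _ _ hsm, dot_range _ _ (by omega : s ≤ m)]
    unfold closedOp
    congr 1
    · apply Finset.sum_congr rfl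
      intro k hk
      rw [Finset.mem_range] at hk
      rw [wL_eq hm (by omega), Int.cast_id]
    · apply Finset.sum_congr rfl
      intro k hk
      rw [Finset.mem_range] at hk
      rw [vL_eq hm (by omega), Int.cast_id]

theorem lvl_zero (c : ℤ) (L X₀ : List ℕ) (st : St) :
    lvl d c L X₀ 0 st = detL (idL L) (matL L c st.1 st.2) := rfl

theorem lvl_succ (c : ℤ) (L X₀ : List ℕ) (st : St) :
    lvl d c L X₀ (q + 1) st = closedL d c L q (lvl d c L X₀ q) X₀ st := rfl

theorem lvl_eq (hd : 2 ≤ d) (c : ℤ) {X₀ : List ℕ} (hX₀ : ListOK m X₀) (hdiv : d ∣ X₀.length)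
    (st : St) : lvl d c (List.range m) X₀ q st =
      restSum d (fs m X₀) q (entryMat m c st.1 st.2) := by
  induction q generalizing st with
  | zero =>
    rw [lvl_zero, restSum_zero, idL_eq, matL_eq, detL_eq _ (entryMat_isSymm _ _ _)]
  | succ q ih =>
    rw [lvl_succ, closedL_eq_aux hd c hX₀ hdiv hX₀ hdiv ih, restSum_succ, card_fs hX₀]

theorem closedL_eq (hd : 2 ≤ d) (c : ℤ) {X₀ X : List ℕ} (hX₀ : ListOK m X₀)
    (hdiv : d ∣ X₀.length) (hX : ListOK m X) (hdivX : d ∣ X.length)
    (st : St) : closedL d c (List.range m) q (lvl d c (List.range m) X₀ q) X st =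
      ordSum d (restSum d (fs m X₀) q) X.length (fs m X) ∅ (entryMat m c st.1 st.2) :=
  closedL_eq_aux hd c hX₀ hdiv hX hdivX (lvl_eq hd c hX₀ hdiv) st

theorem valF_succ (c : ℤ) (L X₀ : List ℕ) (f : ℕ) (X γ : List ℕ) (blocks : List (List ℕ)) :
    valF d c L X₀ q (f + 1) X γ blocks =
    if γ.length = d then closedL d c L q (lvl d c L X₀ q) X (γ :: blocks, [])
    else (X.map fun a => valF d c L X₀ q f (X.filter (· ≠ a)) (a :: γ) blocks).sum := rfl

theorem valF_eq (hd : 2 ≤ d) (c : ℤ) {X₀ : List ℕ} (hX₀ : ListOK m X₀) (hdiv : d ∣ X₀.length)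
    {f : ℕ} : ∀ {X γ : List ℕ}, ListOK m X → ListOK m γ → (∀ x ∈ X, x ∉ γ) → γ.length ≤ d →
    d ∣ X.length + γ.length → d + 1 ≤ f + γ.length → γ ≠ [] → ∀ (blocks : List (List ℕ)),
    valF d c (List.range m) X₀ q f X γ blocks =
      if γ.length = d then ordSum d (restSum d (fs m X₀) q) X.length (fs m X) ∅
        (entryMat m c (γ :: blocks) [])
      else ordSum d (restSum d (fs m X₀) q) X.length (fs m X) (fs m γ)
        (entryMat m c blocks []) := by
  induction f with
  | zero =>
    intro X γ _ _ _ hlen _ hf _ _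
    omega
  | succ f ih =>
    intro X γ hX hγ hdisj hlen hdivX hf hne blocks
    rw [valF_succ]
    by_cases hγd : γ.length = d
    · rw [if_pos hγd, if_pos hγd]
      rw [hγd] at hdivX
      exact closedL_eq hd c hX₀ hdiv hX ((Nat.dvd_add_left (dvd_refl d)).mp hdivX) _
    · rw [if_neg hγd, if_neg hγd]
      have hγpos : 0 < γ.length := List.length_pos_iff.mpr hne
      have hXpos : 0 < X.length := by
        by_contra h
        have h0 : X.length = 0 := by omega
        rw [h0, Nat.zero_add] at hdivX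
        have := Nat.le_of_dvd hγpos hdivX
        omega
      obtain ⟨n, hn⟩ : ∃ n, X.length = n + 1 := ⟨X.length - 1, by omega⟩
      rw [hn, ordSum_succ, sum_fs hX]
      apply Finset.sum_congr rfl
      intro a ha
      have haX : (a : ℕ) ∈ X := mem_fs.mp ha
      have haγ : (a : ℕ) ∉ γ := hdisj a haX
      have hX' : ListOK m (X.filter (· ≠ (a : ℕ))) := hX.filter _
      have hγ' : ListOK m ((a : ℕ) :: γ) := hγ.cons haγ
      have hlen' : (X.filter (· ≠ (a : ℕ))).length = n := by
        rw [← card_fs hX', fs_filter, Finset.card_erase_of_mem ha, card_fs hX, hn]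
        rfl
      have hdisj' : ∀ x ∈ X.filter (· ≠ (a : ℕ)), x ∉ (a : ℕ) :: γ := by
        intro x hx
        rw [List.mem_filter] at hx
        rw [List.mem_cons]
        rintro (h | h)
        · simp [h] at hx
        · exact hdisj x hx.1 h
      rw [ih hX' hγ' hdisj' (by rw [List.length_cons]; omega)
        (by rw [hlen', List.length_cons]; rw [hn] at hdivX
            have : n + (γ.length + 1) = n + 1 + γ.length := by omega
            rw [this]; exact hdivX)
        (by rw [List.length_cons]; omega) (by simp) blocks]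
      rw [hlen', fs_filter, fs_cons]
      by_cases hc : γ.length + 1 = d
      · rw [if_pos (by rw [List.length_cons]; exact hc),
          child_pos (by rw [card_fs hγ]; exact hc), entryMat_cons_block, fs_cons]
      · rw [if_neg (by rw [List.length_cons]; exact hc),
          child_neg (by rw [card_fs hγ]; exact hc)]

end main

end Vale.Agent.P049
end
end
end

section

section

section

/-! One random piece, in coordinates where `Σ_{k ∈ X} e k = -w`. -/

namespace Vale.Agent.P049

open Finset Equiv Function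

variable {α : Type*} [Fintype α] [DecidableEq α]
variable {R : Type*} [CommRing R] {V : Type*} [AddCommGroup V] [Module R V]

theorem aC_split {d s k : ℕ} (hd : 1 ≤ d) (hk : k < d * s) :
    aC d s k = aC d s (k + 1) + k * bC d s k := by
  unfold aC bC
  rcases le_or_gt k s with h | h
  · obtain ⟨t, ht⟩ : ∃ t, d * s - k = t + 1 := ⟨d * s - k - 1, by omega⟩
    have ht' : d * s - (k + 1) = t := by omega
    have ht'' : d * s - k - 1 = t := by omega
    rw [ht', ht, Nat.factorial_succ, Nat.descFactorial_succ]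
    obtain ⟨s', rfl⟩ := Nat.exists_eq_add_of_le h
    obtain ⟨d', rfl⟩ := Nat.exists_eq_add_of_le hd
    have h1 : t + 1 = (1 + d') * s' + k * d' := by
      have : (1 + d') * (k + s') = (1 + d') * s' + k * d' + k := by ring
      omega
    rw [h1]
    have e1 : k + s' - k = s' := by omega
    have e2 : 1 + d' - 1 = d' := by omega
    have e3 : t + 1 - 1 = t := by omega
    have e4 : (1 + d') * s' + k * d' - 1 = t := by (clear * - ht' h1 e3; omega)
    simp only [e1, e2, e4]
    ring
  · rw [Nat.descFactorial_eq_zero_iff_lt.2 h, Nat.descFactorial_eq_zero_iff_lt.2 (by omega)]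
    simp only [mul_zero, zero_mul, add_zero]

theorem sum_powerset_insert_reindex {M : Type*} [AddCommMonoid M] (Y : Finset α)
    (f : Finset α → α → M) :
    ∑ I ∈ Y.powerset, ∑ i ∈ Y \ I, f (insert i I) i = ∑ I ∈ Y.powerset, ∑ i ∈ I, f I i := by
  rw [sum_sigma', sum_sigma']
  refine sum_bij' (fun (p : (_ : Finset α) × α) _ => (⟨insert p.2 p.1, p.2⟩ : (_ : Finset α) × α))
    (fun (p : (_ : Finset α) × α) _ => (⟨p.1.erase p.2, p.2⟩ : (_ : Finset α) × α)) ?_ ?_ ?_ ?_ ?_
  · rintro ⟨I, i⟩ h
    simp only [mem_sigma, mem_powerset, mem_sdiff] at h ⊢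
    exact ⟨insert_subset h.2.1 h.1, mem_insert_self _ _⟩
  · rintro ⟨I, i⟩ h
    simp only [mem_sigma, mem_powerset, mem_sdiff, mem_erase] at h ⊢
    exact ⟨(erase_subset _ _).trans h.1, h.1 h.2, by simp⟩
  · rintro ⟨I, i⟩ h
    simp only [mem_sigma, mem_powerset, mem_sdiff] at h ⊢
    simp [erase_insert h.2.2]
  · rintro ⟨I, i⟩ h
    simp only [mem_sigma, mem_powerset] at h ⊢
    simp [insert_erase h.2]
  · rintro ⟨I, i⟩ _
    rfl

theorem update_piecewise_insert (I : Finset α) (i : α) (e A : α → V) (v : V) :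
    update ((insert i I).piecewise e A) i v = update (I.piecewise e A) i v := by
  ext x
  by_cases hx : x = i
  · subst hx; simp
  · by_cases hI : x ∈ I <;> simp [hx, hI]

theorem inner_sum {X : Finset α} (Φ : V [⋀^α]→ₗ[R] R) (e : α → V) {w : V}
    (hw : ∑ k ∈ X, e k = -w) {I : Finset α} (hI : I ⊆ X) (A : α → V) {i : α} (hi : i ∈ I) :
    ∑ k ∈ X \ I, Φ (update (I.piecewise e A) i (e k)) =
      -Φ (update (I.piecewise e A) i w) - Φ (I.piecewise e A) := by
  have h1 : ∑ k ∈ X, Φ (update (I.piecewise e A) i (e k)) = -Φ (update (I.piecewise e A) i w) := by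
    have := MultilinearMap.map_update_sum Φ.toMultilinearMap (t := X) i (fun k => e k)
      (I.piecewise e A)
    simp only [AlternatingMap.coe_multilinearMap] at this
    rw [← this, hw, Φ.map_update_neg]
  have h2 : ∑ k ∈ I, Φ (update (I.piecewise e A) i (e k)) = Φ (I.piecewise e A) := by
    rw [sum_eq_single_of_mem i hi]
    · congr 1
      ext x
      by_cases hx : x = i
      · subst hx; simp [hi]
      · simp [hx]
    · intro k hk hki
      apply Φ.map_eq_zero_of_eq _ _ hki
      simp [hki, hk]
  rw [← h1, ← h2, ← sum_sdiff hI]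
  ring

theorem piece_formula {d s : ℕ} (hd : 1 ≤ d) {X : Finset α} {blk : α → ℕ}
    (hb : IsPartition d s X blk) (hX : X.card = d * s) (Φ : V [⋀^α]→ₗ[R] R) (e : α → V) {w : V}
    (hw : ∑ k ∈ X, e k = -w) {l : α} (hl : l ∈ X) {Y : Finset α} (hY : Y ⊆ X.erase l)
    (A : α → V) :
    ∑ σ ∈ permsOfFinset X, Φ (fun i => A i - if i ∈ Y then ∑ k ∈ bl X blk σ i, e k else 0) =
      ∑ I ∈ Y.powerset, (-1) ^ I.card * ∑ σ ∈ TT X blk (insert l I), (Φ (I.piecewise e A) +
        ∑ i ∈ Y \ I, if blk (σ.symm i) = blk (σ.symm l) then Φ (update (I.piecewise e A) i w)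
          else 0) := by
  have hYX : Y ⊆ X := hY.trans (erase_subset _ _)
  -- left side
  have h1 : ∀ σ ∈ permsOfFinset X,
      Φ (fun i => A i - if i ∈ Y then ∑ k ∈ bl X blk σ i, e k else 0) =
      ∑ I ∈ Y.powerset, (-1) ^ I.card * Φ (I.piecewise (rowS X blk id e σ) A) := by
    intro σ _
    rw [phi_sub Φ A _ Y (fun i hi => by simp [hi])]
    apply sum_congr rfl
    intro I hI
    rw [mem_powerset] at hI
    congr 2
    ext i
    by_cases hi : i ∈ I
    · simp [hi, hI hi, rowS, hYX (hI hi)]
    · simp [hi]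
  have hLHS : ∑ σ ∈ permsOfFinset X,
      Φ (fun i => A i - if i ∈ Y then ∑ k ∈ bl X blk σ i, e k else 0) =
      ∑ I ∈ Y.powerset, (-1) ^ I.card * (((aC d s (I.card + 1) : ℕ) : R) * Φ (I.piecewise e A) -
        (bC d s I.card : R) * ∑ i ∈ I, Φ (update (I.piecewise e A) i w)) := by
    rw [sum_congr rfl h1, sum_comm]
    apply sum_congr rfl
    intro I hI
    rw [mem_powerset] at hI
    rw [← mul_sum]
    congr 1
    have hIX : I ⊆ X := hI.trans hYX
    rw [cf_fixed hb hX Φ (injective_id) e A (by simpa only [image_id] using hIX)]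
    rw [image_id]
    simp only [id]
    rw [sum_congr rfl (fun i hi => inner_sum Φ e hw hIX A hi)]
    rw [sum_sub_distrib, sum_const, sum_neg_distrib, nsmul_eq_mul]
    have hlt : I.card < d * s := by
      have h2 : insert l I ⊆ X := insert_subset hl hIX
      have h3 := card_le_card h2
      rw [card_insert_of_notMem (fun h => by simpa using hY (hI h)), hX] at h3
      omega
    rw [aC_split hd hlt]
    push_cast
    ring
  rw [hLHS]
  -- right side
  have hRHS : ∀ I ∈ Y.powerset, (-1 : R) ^ I.card * ∑ σ ∈ TT X blk (insert l I),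
      (Φ (I.piecewise e A) + ∑ i ∈ Y \ I, if blk (σ.symm i) = blk (σ.symm l) then
        Φ (update (I.piecewise e A) i w) else 0) =
      (-1 : R) ^ I.card * (((aC d s (I.card + 1) : ℕ) : R) * Φ (I.piecewise e A)) -
      ∑ i ∈ Y \ I, (-1 : R) ^ (insert i I).card * ((bC d s (insert i I).card : ℕ) : R) *
        Φ (update ((insert i I).piecewise e A) i w) := by
    intro I hI
    rw [mem_powerset] at hI
    have hlI : l ∉ I := fun h => by simpa using hY (hI h)
    have hsub : insert l I ⊆ X := insert_subset hl (hI.trans hYX)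
    rw [sum_add_distrib, sum_const, card_TT hb hX _ hsub, card_insert_of_notMem hlI, sum_comm,
      nsmul_eq_mul, mul_add, sub_eq_add_neg, ← sum_neg_distrib, mul_sum]
    congr 1
    apply sum_congr rfl
    intro i hi
    rw [mem_sdiff] at hi
    have hiX : i ∈ X \ insert l I := by
      rw [mem_sdiff, mem_insert]
      refine ⟨hYX hi.1, ?_⟩
      rintro (h | h)
      · subst h; simpa using hY hi.1
      · exact hi.2 h
    rw [← sum_filter, sum_const, card_TT_pair hb hX hsub (mem_insert_self l I) hiX,
      card_insert_of_notMem hlI, card_insert_of_notMem hi.2, update_piecewise_insert, nsmul_eq_mul]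
    ring
  rw [sum_congr rfl hRHS, sum_sub_distrib,
    sum_powerset_insert_reindex Y (fun I i => (-1 : R) ^ I.card * ((bC d s I.card : ℕ) : R) *
      Φ (update (I.piecewise e A) i w)), ← sum_sub_distrib]
  apply sum_congr rfl
  intro I _
  rw [mul_sub, mul_sum, mul_sum]
  congr 1
  apply sum_congr rfl
  intro i _
  ring

end Vale.Agent.P049
end
end
end

section

section

section

/-! Several random pieces: recursion in the number of pieces. -/

namespace Vale.Agent.P049

open Finset Equiv Function

variable {α : Type*} [Fintype α] [DecidableEq α]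
variable {R : Type*} [CommRing R] {V : Type*} [AddCommGroup V] [Module R V]

/-- The rows of `A` minus the block rows of `σ` in `X \ S`. -/
def subR (X : Finset α) (blk : α → ℕ) (e : α → V) (S : Finset α) (σ : Perm α) (A : α → V) :
    α → V := fun i => A i - if i ∈ X \ S then ∑ k ∈ bl X blk σ i, e k else 0

/-- `q` random pieces on `X`, subtracted from the rows outside `S`. -/
def TS (Φ : V [⋀^α]→ₗ[R] R) (X : Finset α) (blk : α → ℕ) (e : α → V) :
    ℕ → Finset α → (α → V) → R
  | 0, _, A => Φ A
  | q + 1, S, A => ∑ σ ∈ permsOfFinset X, TS Φ X blk e q S (subR X blk e S σ A)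

theorem TS_eq_zero (Φ : V [⋀^α]→ₗ[R] R) (X : Finset α) (blk : α → ℕ) (e : α → V) (q : ℕ)
    (S : Finset α) (A : α → V) {i j : α} (hi : i ∈ S) (hj : j ∈ S) (hij : i ≠ j)
    (h : A i = A j) : TS Φ X blk e q S A = 0 := by
  induction q generalizing A with
  | zero => exact Φ.map_eq_zero_of_eq _ h hij
  | succ q ih =>
    apply sum_eq_zero
    intro σ _
    apply ih
    simp [subR, hi, hj, h]

theorem subR_piecewise (X : Finset α) (blk : α → ℕ) (e : α → V) (S I : Finset α) (σ : Perm α)
    (A : α → V) : subR X blk e (S ∪ I) σ (I.piecewise e A) =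
      I.piecewise e (subR X blk e S σ A) := by
  ext i
  by_cases hi : i ∈ I
  · simp [subR, hi]
  · simp [subR, hi]

theorem subR_update (X : Finset α) (blk : α → ℕ) (e : α → V) (S I : Finset α) (σ : Perm α)
    (A : α → V) (i : α) (w : V) : subR X blk e (insert i (S ∪ I)) σ (update (I.piecewise e A) i w) =
      update (I.piecewise e (subR X blk e S σ A)) i w := by
  ext k
  by_cases hk : k = i
  · subst hk; simp [subR]
  · by_cases hI : k ∈ I
    · simp [subR, hI, hk]
    · simp only [subR, ne_eq, hk, not_false_eq_true, update_of_ne, hI, piecewise_eq_of_notMem, mem_sdiff, mem_insert, mem_union, or_false, false_or]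

theorem TS_step {d s : ℕ} (hd : 1 ≤ d) {X : Finset α} {blk : α → ℕ}
    (hb : IsPartition d s X blk) (hX : X.card = d * s) (Φ : V [⋀^α]→ₗ[R] R) (e : α → V) {w : V}
    (hw : ∑ k ∈ X, e k = -w) {l : α} (hl : l ∈ X) (q : ℕ) {S : Finset α} (hS : l ∈ S)
    (A : α → V) :
    TS Φ X blk e (q + 1) S A = ∑ I ∈ (X \ S).powerset, (-1) ^ I.card *
      ∑ σ ∈ TT X blk (insert l I), (TS Φ X blk e q (S ∪ I) (I.piecewise e A) +
        ∑ i ∈ (X \ S) \ I, if blk (σ.symm i) = blk (σ.symm l) then
          TS Φ X blk e q (insert i (S ∪ I)) (update (I.piecewise e A) i w) else 0) := by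
  induction q generalizing A with
  | zero =>
    apply piece_formula hd hb hX Φ e hw hl
    intro x hx
    rw [mem_sdiff] at hx
    exact mem_erase.2 ⟨fun h => hx.2 (h ▸ hS), hx.1⟩
  | succ q ih =>
    rw [TS]
    simp only [ih]
    rw [sum_comm]
    apply sum_congr rfl
    intro I _
    rw [← mul_sum, sum_comm]
    congr 1
    apply sum_congr rfl
    intro σ _
    rw [sum_add_distrib]
    congr 1
    · rw [TS]
      apply sum_congr rfl
      intro τ _
      rw [subR_piecewise]
    · rw [sum_comm]
      apply sum_congr rfl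
      intro i _
      by_cases h : blk (σ.symm i) = blk (σ.symm l)
      · simp only [h, if_true]
        rw [TS]
        apply sum_congr rfl
        intro τ _
        rw [subR_update]
      · simp [h]

end Vale.Agent.P049
end
end
end

section

section

section

/-! Matching sums of bipartite incidence structures and their positivity (Heilmann–Lieb). -/

namespace Vale.Agent.P049

open Finset

section Defs

variable {α : Type*} [DecidableEq α] {R : Type*} [CommRing R]

/-- The block operator: a block may remove one of its vertices, with sign `-1`. -/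
def opb (b : Finset α) (F : Finset α → R) : Finset α → R :=
  fun V => F V - ∑ v ∈ b ∩ V, F (V.erase v)

theorem opb_comm (b b' : Finset α) (F : Finset α → R) : opb b (opb b' F) = opb b' (opb b F) := by
  funext V
  simp only [opb]
  have h : ∑ v ∈ b ∩ V, ∑ v' ∈ b' ∩ V.erase v, F ((V.erase v).erase v') =
      ∑ v' ∈ b' ∩ V, ∑ v ∈ b ∩ V.erase v', F ((V.erase v').erase v) := by
    rw [sum_comm' (s' := fun v' => b ∩ V.erase v') (t' := b' ∩ V)]
    · apply sum_congr rfl; intro v _
      apply sum_congr rfl; intro v' _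
      rw [erase_right_comm]
    · intro v v'
      simp only [mem_inter, mem_erase]
      constructor
      · rintro ⟨⟨h1, h2⟩, h3, h4, h5⟩
        exact ⟨⟨h1, fun h => h4 h.symm, h2⟩, h3, h5⟩
      · rintro ⟨⟨h1, h2, h3⟩, h4, h5⟩
        exact ⟨⟨h1, h3⟩, h4, fun h => h2 h.symm, h5⟩
  simp only [sum_sub_distrib, h]
  ring

instance : LeftCommutative (opb : Finset α → (Finset α → R) → (Finset α → R)) := ⟨opb_comm⟩

/-- The matching sum of the blocks `L` on the vertex set `V`. -/
def mu (x : R) (L : Multiset (Finset α)) : Finset α → R := L.foldr opb (fun V => x ^ V.card)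

theorem mu_zero (x : R) (V : Finset α) : mu x (0 : Multiset (Finset α)) V = x ^ V.card := rfl

theorem mu_cons (x : R) (b : Finset α) (L : Multiset (Finset α)) (V : Finset α) :
    mu x (b ::ₘ L) V = mu x L V - ∑ v ∈ b ∩ V, mu x L (V.erase v) := by
  unfold mu
  rw [Multiset.foldr_cons]
  rfl

theorem mu_add (x : R) (L L' : Multiset (Finset α)) :
    mu x (L + L') = L.foldr opb (mu x L') := by
  unfold mu
  rw [Multiset.foldr_add]

theorem mu_empty (x : R) (L : Multiset (Finset α)) : mu x L ∅ = 1 := by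
  induction L using Multiset.induction_on with
  | empty => simp [mu_zero]
  | cons b L ih => simp [mu_cons, ih]

theorem map_sum_finset_sum {β ι : Type*} (M : Multiset β) (s : Finset ι) (g : β → ι → R) :
    (M.map fun b => ∑ v ∈ s, g b v).sum = ∑ v ∈ s, (M.map fun b => g b v).sum := by
  induction M using Multiset.induction_on with
  | empty => simp
  | cons b M ih => simp only [Multiset.map_cons, Multiset.sum_cons, ih, sum_add_distrib]

/-- Expansion at a vertex. -/
theorem mu_vertex (x : R) (L : Multiset (Finset α)) {v : α} : ∀ {V : Finset α}, v ∈ V →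
    mu x L V = x * mu x L (V.erase v) -
      ((L.filter (v ∈ ·)).map fun b => mu x (L.erase b) (V.erase v)).sum := by
  induction L using Multiset.induction_on with
  | empty =>
    intro V hv
    simp only [mu_zero, Multiset.filter_zero, Multiset.map_zero, Multiset.sum_zero, sub_zero]
    rw [← card_erase_add_one hv, pow_succ]; ring
  | cons b L ih =>
    intro V hv
    rw [mu_cons, mu_cons, ih hv]
    -- the sum over the multiset for `b ::ₘ L`
    have h1 : ∀ b' ∈ L.filter (v ∈ ·), mu x ((b ::ₘ L).erase b') (V.erase v) =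
        mu x (L.erase b') (V.erase v) -
          ∑ v' ∈ b ∩ V.erase v, mu x (L.erase b') ((V.erase v).erase v') := by
      intro b' hb'
      rw [Multiset.erase_cons_tail_of_mem (Multiset.mem_filter.1 hb').1, mu_cons]
    have h2 : ((L.filter (v ∈ ·)).map fun b' => mu x ((b ::ₘ L).erase b') (V.erase v)).sum =
        ((L.filter (v ∈ ·)).map fun b' => mu x (L.erase b') (V.erase v)).sum -
        ∑ v' ∈ b ∩ V.erase v,
          ((L.filter (v ∈ ·)).map fun b' => mu x (L.erase b') ((V.erase v).erase v')).sum := by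
      rw [Multiset.map_congr rfl h1, Multiset.sum_map_sub, map_sum_finset_sum]
    have h3 : ∀ v' ∈ b ∩ V.erase v, mu x L (V.erase v') = x * mu x L ((V.erase v).erase v') -
        ((L.filter (v ∈ ·)).map fun b' => mu x (L.erase b') ((V.erase v).erase v')).sum := by
      intro v' hv'
      simp only [mem_inter, mem_erase] at hv'
      rw [erase_right_comm]
      exact ih (mem_erase.2 ⟨fun h => hv'.2.1 h.symm, hv⟩)
    by_cases hb : v ∈ b
    · rw [Multiset.filter_cons_of_pos (p := fun c => v ∈ c) _ hb, Multiset.map_cons, Multiset.sum_cons, h2,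
        Multiset.erase_cons_head]
      have h4 : b ∩ V = insert v (b ∩ V.erase v) := by
        ext z; simp only [mem_inter, mem_insert, mem_erase]
        constructor
        · rintro ⟨h1, h2⟩
          by_cases h : z = v
          · exact Or.inl h
          · exact Or.inr ⟨h1, h, h2⟩
        · rintro (rfl | ⟨h1, _, h2⟩)
          · exact ⟨hb, hv⟩
          · exact ⟨h1, h2⟩
      rw [h4, sum_insert (by simp), sum_congr rfl h3]
      rw [sum_sub_distrib, ← mul_sum]
      ring
    · rw [Multiset.filter_cons_of_neg (p := fun c => v ∈ c) _ hb, h2]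
      have h4 : b ∩ V = b ∩ V.erase v := by
        ext z; simp only [mem_inter, mem_erase]
        constructor
        · rintro ⟨h1, h2⟩
          exact ⟨h1, fun h => hb (h ▸ h1), h2⟩
        · rintro ⟨h1, _, h2⟩
          exact ⟨h1, h2⟩
      rw [h4, sum_congr rfl h3]
      rw [sum_sub_distrib, ← mul_sum]
      ring

end Defs

section Pos

variable {α : Type*} [DecidableEq α]

theorem multiset_sum_le_card_mul {β : Type*} (s : Multiset β) (f : β → ℝ) (c : ℝ)
    (h : ∀ b ∈ s, f b ≤ c) : (s.map f).sum ≤ s.card * c := by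
  have := Multiset.sum_le_card_nsmul (s.map f) c (by
    intro y hy
    obtain ⟨b, hb, rfl⟩ := Multiset.mem_map.1 hy
    exact h b hb)
  simpa only [ge_iff_le, Multiset.card_map, nsmul_eq_mul] using this

theorem mu_bounds {d : ℕ} (hd : 3 ≤ d) {x : ℝ} (hx : 4 * ((d : ℝ) - 1) ≤ x) : ∀ (N : ℕ)
    (V : Finset α) (L : Multiset (Finset α)), V.card + L.card ≤ N →
    (∀ b ∈ L, (b ∩ V).card ≤ d) → (∀ v ∈ V, (L.filter (v ∈ ·)).card ≤ d) →
    (0 < mu x L V) ∧
    (∀ v ∈ V, (L.filter (v ∈ ·)).card ≤ d - 1 →
      2 * ((d : ℝ) - 1) * mu x L (V.erase v) ≤ mu x L V) ∧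
    (∀ b ∈ L, (b ∩ V).card ≤ d - 1 → mu x (L.erase b) V ≤ 2 * mu x L V) := by
  have hd' : (3 : ℝ) ≤ d := by exact_mod_cast hd
  have hd1 : ((d - 1 : ℕ) : ℝ) = (d : ℝ) - 1 := by
    rw [Nat.cast_sub (by omega)]; simp
  intro N
  induction N with
  | zero =>
    intro V L hN _ _
    have hV : V = ∅ := card_eq_zero.1 (by omega)
    have hL : L = 0 := Multiset.card_eq_zero.1 (by omega)
    subst hV hL
    refine ⟨?_, ?_, ?_⟩
    · simp only [mu_zero, card_empty, pow_zero, zero_lt_one]
    · simp only [notMem_empty, Multiset.filter_zero, Multiset.card_zero, zero_le, not_false_eq_true, erase_eq_of_notMem, forall_const, IsEmpty.forall_iff, implies_true]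
    · simp only [Multiset.notMem_zero, inter_empty, card_empty, zero_le, not_false_eq_true, Multiset.erase_of_notMem, forall_const, IsEmpty.forall_iff, implies_true]
  | succ N ih =>
    intro V L hN hb hv
    have hmono : ∀ {W W' : Finset α} (b : Finset α), W ⊆ W' → (b ∩ W).card ≤ (b ∩ W').card :=
      fun b h => card_le_card (inter_subset_inter_left h)
    -- sums at a vertex
    have hvert : ∀ v ∈ V, mu x L V ≥ (x - 2 * ((L.filter (v ∈ ·)).card : ℝ)) * mu x L (V.erase v) ∧
        0 < mu x L (V.erase v) := by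
      intro v hvV
      have hcard : (V.erase v).card + L.card ≤ N := by
        have := card_erase_add_one hvV; omega
      have hb' : ∀ b ∈ L, (b ∩ V.erase v).card ≤ d := fun b hbL =>
        (hmono b (erase_subset _ _)).trans (hb b hbL)
      have hv' : ∀ w ∈ V.erase v, (L.filter (w ∈ ·)).card ≤ d := fun w hw =>
        hv w (mem_of_mem_erase hw)
      obtain ⟨i1, _, i3⟩ := ih (V.erase v) L hcard hb' hv'
      refine ⟨?_, i1⟩
      rw [mu_vertex x L hvV]
      have h1 : ((L.filter (v ∈ ·)).map fun b => mu x (L.erase b) (V.erase v)).sum ≤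
          (L.filter (v ∈ ·)).card * (2 * mu x L (V.erase v)) := by
        apply multiset_sum_le_card_mul
        intro b hbm
        rw [Multiset.mem_filter] at hbm
        apply i3 b hbm.1
        have h2 : (b ∩ V.erase v).card + 1 = (b ∩ V).card := by
          rw [← card_erase_add_one (show v ∈ b ∩ V from mem_inter.2 ⟨hbm.2, hvV⟩)]
          congr 2
          ext z; simp only [mem_inter, mem_erase]; (clear * - hbm; tauto)
        have := hb b hbm.1
        omega
      linarith
    refine ⟨?_, ?_, ?_⟩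
    · rcases V.eq_empty_or_nonempty with rfl | ⟨v, hvV⟩
      · rw [mu_empty]; norm_num
      · obtain ⟨h1, h2⟩ := hvert v hvV
        have h3 : ((L.filter (v ∈ ·)).card : ℝ) ≤ d := by exact_mod_cast hv v hvV
        have h4 : 0 < x - 2 * ((L.filter (v ∈ ·)).card : ℝ) := by linarith only [hx, hd', h3]
        exact lt_of_lt_of_le (mul_pos h4 h2) h1
    · intro v hvV hdeg
      obtain ⟨h1, h2⟩ := hvert v hvV
      have h3 : ((L.filter (v ∈ ·)).card : ℝ) ≤ (d : ℝ) - 1 := by
        rw [← hd1]; exact_mod_cast hdeg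
      have h4 : 2 * ((d : ℝ) - 1) ≤ x - 2 * ((L.filter (v ∈ ·)).card : ℝ) := by linarith only [hx, h3]
      exact (mul_le_mul_of_nonneg_right h4 h2.le).trans h1
    · intro b hbL hdeg
      obtain ⟨L', rfl⟩ := Multiset.exists_cons_of_mem hbL
      rw [Multiset.erase_cons_head, mu_cons]
      have hcard : V.card + L'.card ≤ N := by
        rw [Multiset.card_cons] at hN; omega
      have hb' : ∀ c ∈ L', (c ∩ V).card ≤ d := fun c hc => hb c (Multiset.mem_cons_of_mem hc)
      have hv' : ∀ w ∈ V, (L'.filter (w ∈ ·)).card ≤ d := fun w hw =>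
        (Multiset.card_le_card (Multiset.filter_le_filter _ (Multiset.le_cons_self _ _))).trans
          (hv w hw)
      obtain ⟨i1, i2, _⟩ := ih V L' hcard hb' hv'
      have h1 : ∀ v ∈ b ∩ V, mu x L' (V.erase v) ≤ mu x L' V / (2 * ((d : ℝ) - 1)) := by
        intro v hvm
        rw [mem_inter] at hvm
        have h2 := hv v hvm.2
        rw [Multiset.filter_cons_of_pos (p := fun c => v ∈ c) _ hvm.1, Multiset.card_cons] at h2
        have h3 := i2 v hvm.2 (by omega)
        rw [le_div_iff₀ (by linarith only [hd'])]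
        linarith only [h3]
      have h2 := sum_le_card_nsmul _ _ _ h1
      rw [nsmul_eq_mul] at h2
      have h3 : ((b ∩ V).card : ℝ) ≤ (d : ℝ) - 1 := by
        rw [← hd1]; exact_mod_cast hdeg
      have h4 : ((b ∩ V).card : ℝ) * (mu x L' V / (2 * ((d : ℝ) - 1))) ≤
          ((d : ℝ) - 1) * (mu x L' V / (2 * ((d : ℝ) - 1))) := by
        apply mul_le_mul_of_nonneg_right h3
        apply div_nonneg i1.le; linarith only [hd']
      have h5 : ((d : ℝ) - 1) * (mu x L' V / (2 * ((d : ℝ) - 1))) = mu x L' V / 2 := by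
        have : (d : ℝ) - 1 ≠ 0 := by linarith only [hd']
        (clear * - this i1; field_simp)
      linarith only [h2, h4, h5]

/-- Positivity of the matching sum. -/
theorem mu_pos {d : ℕ} (hd : 3 ≤ d) {x : ℝ} (hx : 4 * ((d : ℝ) - 1) ≤ x)
    (L : Multiset (Finset α)) (V : Finset α) (hb : ∀ b ∈ L, b.card ≤ d)
    (hv : ∀ v ∈ V, (L.filter (v ∈ ·)).card ≤ d) : 0 < mu x L V :=
  (mu_bounds hd hx _ V L le_rfl (fun b hbL => (card_le_card inter_subset_left).trans (hb b hbL))
    hv).1

end Pos

end Vale.Agent.P049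
end
end
end

section

section

section

/-! Lemmas on the block operators `opb`. -/

namespace Vale.Agent.P049

open Finset

variable {α : Type*} [DecidableEq α] {R : Type*} [CommRing R]

theorem foldr_opb_cons (b : Finset α) (M : Multiset (Finset α)) (F : Finset α → R)
    (V : Finset α) : (b ::ₘ M).foldr opb F V =
      M.foldr opb F V - ∑ v ∈ b ∩ V, M.foldr opb F (V.erase v) := by
  rw [Multiset.foldr_cons]; rfl

theorem foldr_opb_add (M : Multiset (Finset α)) (F G : Finset α → R) : ∀ V,
    M.foldr opb (fun V => F V + G V) V = M.foldr opb F V + M.foldr opb G V := by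
  induction M using Multiset.induction_on with
  | empty => intro V; rfl
  | cons b M ih =>
    intro V
    simp only [foldr_opb_cons, ih, sum_add_distrib]
    ring

theorem foldr_opb_zero (M : Multiset (Finset α)) : ∀ V : Finset α,
    M.foldr opb (fun _ => (0 : R)) V = 0 := by
  induction M using Multiset.induction_on with
  | empty => intro V; rfl
  | cons b M ih => intro V; simp [foldr_opb_cons, ih]

theorem foldr_opb_sum {ι : Type*} (M : Multiset (Finset α)) (s : Finset ι)
    (F : ι → Finset α → R) (V : Finset α) :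
    M.foldr opb (fun V => ∑ j ∈ s, F j V) V = ∑ j ∈ s, M.foldr opb (F j) V := by
  classical
  induction s using Finset.induction_on with
  | empty => simp [foldr_opb_zero]
  | insert j s hj ih =>
    simp only [sum_insert hj]
    rw [foldr_opb_add, ih]

/-- Only the values on a domain closed under removal matter. -/
theorem foldr_opb_congr {M : Multiset (Finset α)} {dom : Finset α → Prop} {F G : Finset α → R}
    (hdom : ∀ V, dom V → ∀ b ∈ M, ∀ v ∈ b ∩ V, dom (V.erase v)) (h : ∀ V, dom V → F V = G V) :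
    ∀ V, dom V → M.foldr opb F V = M.foldr opb G V := by
  induction M using Multiset.induction_on with
  | empty => exact h
  | cons b M ih =>
    intro V hV
    have ih' := ih (fun V hV b hb v hv => hdom V hV b (Multiset.mem_cons_of_mem hb) v hv)
    simp only [foldr_opb_cons]
    rw [ih' V hV]
    congr 1
    apply sum_congr rfl
    intro v hv
    exact ih' _ (hdom V hV b (Multiset.mem_cons_self _ _) v hv)

/-- Removal of a vertex outside the blocks. -/
theorem foldr_opb_erase {M : Multiset (Finset α)} {u : α} (hu : ∀ b ∈ M, u ∉ b)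
    (F : Finset α → R) : ∀ V, M.foldr opb (fun V => F (V.erase u)) V = M.foldr opb F (V.erase u) := by
  induction M using Multiset.induction_on with
  | empty => intro V; rfl
  | cons b M ih =>
    intro V
    have ih' := ih (fun b hb => hu b (Multiset.mem_cons_of_mem hb))
    have hub : u ∉ b := hu b (Multiset.mem_cons_self _ _)
    simp only [foldr_opb_cons, ih']
    congr 1
    have h : b ∩ V.erase u = b ∩ V := by
      ext z; simp only [mem_inter, mem_erase]
      exact ⟨fun h => ⟨h.1, h.2.2⟩, fun h => ⟨h.1, fun h' => hub (h' ▸ h.1), h.2⟩⟩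
    rw [h]
    apply sum_congr rfl
    intro v _
    rw [erase_right_comm]

/-- Removal of a vertex chosen in `V`. -/
theorem foldr_opb_choose (M : Multiset (Finset α)) (X : Finset α) (c : α → R)
    (H : α → Finset α → R) : ∀ V,
    M.foldr opb (fun V => ∑ i ∈ X ∩ V, c i * H i (V.erase i)) V =
      ∑ i ∈ X ∩ V, c i * M.foldr opb (H i) (V.erase i) := by
  induction M using Multiset.induction_on with
  | empty => intro V; rfl
  | cons b M ih =>
    intro V
    simp only [foldr_opb_cons, ih]
    simp only [mul_sub, sum_sub_distrib, mul_sum]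
    congr 1
    rw [sum_comm' (s' := fun i => b ∩ V.erase i) (t' := X ∩ V)]
    · apply sum_congr rfl; intro i _
      apply sum_congr rfl; intro v _
      rw [erase_right_comm]
    · intro v i
      simp only [mem_inter, mem_erase]
      (clear * -; tauto)

/-- The labels of `σ`. -/
def lab (blk : α → ℕ) (σ : Equiv.Perm α) (x : α) : ℕ := blk (σ.symm x)

/-- A set of vertices is transversal with labels in `K`. -/
def Trv (lb : α → ℕ) (K : Finset ℕ) (I : Finset α) : Prop :=
  (∀ x ∈ I, lb x ∈ K) ∧ ∀ x ∈ I, ∀ y ∈ I, lb x = lb y → x = y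

instance (lb : α → ℕ) (K : Finset ℕ) (I : Finset α) : Decidable (Trv lb K I) := by
  unfold Trv; infer_instance

/-- The block with label `κ`. -/
def blkOf (X : Finset α) (lb : α → ℕ) (κ : ℕ) : Finset α := X.filter fun x => lb x = κ

theorem foldr_opb_trv (X : Finset α) (lb : α → ℕ) (K : Finset ℕ) (F : Finset α → R) : ∀ V,
    (K.val.map (blkOf X lb)).foldr opb F V =
      ∑ I ∈ (X ∩ V).powerset.filter (Trv lb K), (-1) ^ I.card * F (V \ I) := by
  induction K using Finset.induction_on with
  | empty =>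
    intro V
    have h : (X ∩ V).powerset.filter (Trv lb ∅) = {∅} := by
      ext I
      simp only [mem_filter, mem_powerset, mem_singleton, Trv]
      constructor
      · rintro ⟨_, h, _⟩
        exact eq_empty_iff_forall_notMem.2 fun x hx => by simpa using h x hx
      · rintro rfl
        simp
    rw [h]
    simp only [empty_val, Multiset.map_zero, Multiset.foldr_zero, sum_singleton, card_empty, pow_zero, sdiff_empty, one_mul]
  | insert κ K hκ ih =>
    intro V
    rw [insert_val_of_notMem hκ, Multiset.map_cons, foldr_opb_cons, ih]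
    simp only [ih]
    -- split the right side
    rw [← sum_filter_add_sum_filter_not ((X ∩ V).powerset.filter (Trv lb (insert κ K)))
      (fun I => ∀ x ∈ I, lb x ≠ κ), sub_eq_add_neg]
    congr 1
    · apply sum_congr _ (fun _ _ => rfl)
      ext I
      simp only [mem_filter, Trv, mem_insert]
      constructor
      · rintro ⟨h1, h2, h3⟩
        exact ⟨⟨h1, fun x hx => Or.inr (h2 x hx), h3⟩, fun x hx h => hκ (h ▸ h2 x hx)⟩
      · rintro ⟨⟨h1, h2, h3⟩, h4⟩
        exact ⟨h1, fun x hx => (h2 x hx).resolve_left (h4 x hx), h3⟩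
    · rw [← sum_neg_distrib]
      simp only [← sum_neg_distrib]
      rw [sum_sigma']
      refine sum_bij (fun (p : (_ : α) × Finset α) _ => insert p.1 p.2) ?_ ?_ ?_ ?_
      · rintro ⟨v, I⟩ h
        simp only [mem_sigma, mem_inter, mem_filter, mem_powerset, blkOf, Trv] at h
        obtain ⟨⟨⟨hvX, hvκ⟩, hvV⟩, hI, h2, h3⟩ := h
        simp only [mem_filter, mem_powerset, Trv, mem_insert]
        refine ⟨⟨?_, ?_, ?_⟩, ?_⟩
        · intro z hz
          rw [mem_insert] at hz
          rcases hz with rfl | hz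
          · exact mem_inter.2 ⟨hvX, hvV⟩
          · have := hI hz
            simp only [mem_inter, mem_erase] at this
            exact mem_inter.2 ⟨this.1, this.2.2⟩
        · rintro x (rfl | hx)
          · exact Or.inl hvκ
          · exact Or.inr (h2 x hx)
        · rintro x (rfl | hx) y (rfl | hy) hxy
          · rfl
          · exact absurd (h2 y hy) (by rw [← hxy, hvκ]; exact hκ)
          · exact absurd (h2 x hx) (by rw [hxy, hvκ]; exact hκ)
          · exact h3 x hx y hy hxy
        · intro h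
          exact h v (Or.inl rfl) hvκ
      · rintro ⟨v, I⟩ h ⟨v', I'⟩ h' heq
        simp only [mem_sigma, mem_inter, mem_filter, mem_powerset, blkOf, Trv] at h h'
        obtain ⟨⟨⟨hvX, hvκ⟩, hvV⟩, hI, h2, h3⟩ := h
        obtain ⟨⟨⟨hvX', hvκ'⟩, hvV'⟩, hI', h2', h3'⟩ := h'
        have hv : v = v' := by
          have : v ∈ insert v' I' := by rw [← heq]; exact mem_insert_self _ _
          rw [mem_insert] at this
          rcases this with h | h
          · exact h
          · exact absurd (h2' v h) (by rw [hvκ]; exact hκ)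
        subst hv
        have hvI : v ∉ I := fun h => by
          have := hI h; simp at this
        have hvI' : v ∉ I' := fun h => by
          have := hI' h; simp at this
        have : I = I' := by
          rw [← erase_insert hvI, ← erase_insert hvI']
          exact congrArg (·.erase v) heq
        rw [this]
      · intro I hI
        simp only [mem_filter, mem_powerset, Trv, mem_insert] at hI
        obtain ⟨⟨hI, h2, h3⟩, h4⟩ := hI
        push Not at h4
        obtain ⟨v, hv, hvκ⟩ := h4
        have hvXV := mem_inter.1 (hI hv)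
        refine ⟨⟨v, I.erase v⟩, ?_, insert_erase hv⟩
        simp only [mem_sigma, mem_inter, mem_filter, mem_powerset, blkOf, Trv]
        refine ⟨⟨⟨hvXV.1, hvκ⟩, hvXV.2⟩, ?_, ?_, ?_⟩
        · intro z hz
          rw [mem_erase] at hz
          have := mem_inter.1 (hI hz.2)
          exact mem_inter.2 ⟨this.1, mem_erase.2 ⟨hz.1, this.2⟩⟩
        · intro x hx
          rw [mem_erase] at hx
          refine (h2 x hx.2).resolve_left fun h => hx.1 (h3 x hx.2 v hv (by rw [h, hvκ]))
        · intro x hx y hy hxy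
          exact h3 x (mem_of_mem_erase hx) y (mem_of_mem_erase hy) hxy
      · rintro ⟨v, I⟩ h
        simp only [mem_sigma, mem_inter, mem_filter, mem_powerset, blkOf, Trv] at h
        obtain ⟨_, hI, _⟩ := h
        have hvI : v ∉ I := fun h => by
          have := hI h; simp at this
        have hset : V.erase v \ I = V \ insert v I := by
          ext z; simp only [mem_sdiff, mem_erase, mem_insert]; (clear F hκ ih hI hvI; tauto)
        simp only
        rw [card_insert_of_notMem hvI, hset]
        ring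

end Vale.Agent.P049
end
end
end

section

section

section

/-! The two sums `Dq` (no jump) and `Eq'` (one jump), and the positivity induction. -/

namespace Vale.Agent.P049

open Finset Equiv Function

variable {α : Type*} [Fintype α] [DecidableEq α]

section Steps

variable {R : Type*} [CommRing R] {V : Type*} [AddCommGroup V] [Module R V]

/-- Rows: `A₀ i` for `i ∈ W`, `c` for `i = l`, `e i` otherwise. -/
def rw0 (e : α → V) (c : V) (l : α) (A₀ : α → V) (W : Finset α) : α → V :=
  fun i => if i ∈ W then A₀ i else if i = l then c else e i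

/-- The sum without jump. -/
def Dq (Φ : V [⋀^α]→ₗ[R] R) (X : Finset α) (blk : α → ℕ) (e : α → V) (c : V) (l : α)
    (A₀ : α → V) (q : ℕ) (W : Finset α) : R :=
  TS Φ X blk e q (univ \ W) (rw0 e c l A₀ W)

/-- The sum with row `i` replaced by `w`. -/
def Eq' (Φ : V [⋀^α]→ₗ[R] R) (X : Finset α) (blk : α → ℕ) (e : α → V) (c w : V) (l : α)
    (A₀ : α → V) (q : ℕ) (i : α) (W : Finset α) : R :=
  TS Φ X blk e q (univ \ W) (update (rw0 e c l A₀ W) i w)

/-- The blocks of `σ` not containing `l`. -/
def Lsig (s : ℕ) (X : Finset α) (blk : α → ℕ) (l : α) (σ : Perm α) : Multiset (Finset α) :=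
  ((range s).erase (lab blk σ l)).val.map (blkOf X (lab blk σ))

theorem TT_eq_filter {d s : ℕ} {X : Finset α} {blk : α → ℕ} (hb : IsPartition d s X blk) {l : α}
    (hl : l ∈ X) {I : Finset α} (hI : I ⊆ X) (hlI : l ∉ I) :
    TT X blk (insert l I) = (permsOfFinset X).filter fun σ =>
      Trv (lab blk σ) ((range s).erase (lab blk σ l)) I := by
  ext σ
  rw [mem_TT, mem_filter]
  apply and_congr_right
  intro hσ
  simp only [Trv, mem_insert, mem_erase, mem_range, lab]
  constructor
  · intro h
    refine ⟨fun x hx => ⟨fun h' => ?_, hb.1 _ (perms_symm_mem hσ (hI hx))⟩, fun x hx y hy hxy =>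
      h x (Or.inr hx) y (Or.inr hy) hxy⟩
    have := h x (Or.inr hx) l (Or.inl rfl) h'
    exact hlI (this ▸ hx)
  · rintro ⟨h1, h2⟩ x (rfl | hx) y (rfl | hy) hxy
    · rfl
    · exact absurd hxy.symm (h1 y hy).1
    · exact absurd hxy (h1 x hx).1
    · exact h2 x hx y hy hxy

theorem sum_TT_eq {d s : ℕ} {X : Finset α} {blk : α → ℕ} (hb : IsPartition d s X blk) {l : α}
    (hl : l ∈ X) {P : Finset α} (hP : P ⊆ X) (hlP : l ∉ P) (f : Finset α → Perm α → R) :
    ∑ I ∈ P.powerset, (-1) ^ I.card * ∑ σ ∈ TT X blk (insert l I), f I σ =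
      ∑ σ ∈ permsOfFinset X,
        ∑ I ∈ P.powerset.filter (Trv (lab blk σ) ((range s).erase (lab blk σ l))),
          (-1) ^ I.card * f I σ := by
  have h1 : ∀ I ∈ P.powerset, (-1 : R) ^ I.card * ∑ σ ∈ TT X blk (insert l I), f I σ =
      ∑ σ ∈ permsOfFinset X, if Trv (lab blk σ) ((range s).erase (lab blk σ l)) I then
        (-1) ^ I.card * f I σ else 0 := by
    intro I hI
    rw [mem_powerset] at hI
    rw [TT_eq_filter hb hl (hI.trans hP) (fun h => hlP (hI h)), sum_filter, mul_sum]
    apply sum_congr rfl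
    intro σ _
    rw [mul_ite, mul_zero]
  rw [sum_congr rfl h1, sum_comm]
  apply sum_congr rfl
  intro σ _
  rw [sum_filter]

theorem D_step {d s : ℕ} (hd : 1 ≤ d) {X : Finset α} {blk : α → ℕ}
    (hb : IsPartition d s X blk) (hX : X.card = d * s) (Φ : V [⋀^α]→ₗ[R] R) (e : α → V) {c w : V}
    (hw : ∑ k ∈ X, e k = -w) {l : α} (hl : l ∈ X) (A₀ : α → V) (q : ℕ) {W : Finset α}
    (hW : l ∉ W) :
    Dq Φ X blk e c l A₀ (q + 1) W = ∑ σ ∈ permsOfFinset X,
      ((Lsig s X blk l σ).foldr opb (Dq Φ X blk e c l A₀ q) W +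
        ∑ i ∈ X ∩ W, (if lab blk σ i = lab blk σ l then 1 else 0) *
          (Lsig s X blk l σ).foldr opb (Eq' Φ X blk e c w l A₀ q i) (W.erase i)) := by
  have hXS : X \ (univ \ W) = X ∩ W := by
    ext z; simp only [mem_sdiff, mem_univ, true_and, Decidable.not_not, mem_inter]
  unfold Dq
  rw [TS_step hd hb hX Φ e hw hl q (by simpa only [mem_sdiff, mem_univ, true_and] using hW), hXS]
  rw [sum_TT_eq hb hl inter_subset_left (fun h => hW (mem_inter.1 h).2)]
  apply sum_congr rfl
  intro σ _
  simp only [mul_add, sum_add_distrib]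
  unfold Lsig
  simp only [foldr_opb_trv]
  congr 1
  · apply sum_congr rfl
    intro I hI
    simp only [mem_filter, mem_powerset] at hI
    congr 2
    · ext z
      simp only [mem_union, mem_sdiff, mem_univ, true_and]
      (clear * - hI; tauto)
    · ext z
      by_cases hz : z ∈ I
      · have : z ≠ l := fun h => hW (h ▸ (mem_inter.1 (hI.1 hz)).2)
        simp [rw0, hz, this]
      · simp [rw0, hz]
  · simp only [mul_sum]
    rw [sum_comm' (s' := fun i => (X ∩ W.erase i).powerset.filter
      (Trv (lab blk σ) ((range s).erase (lab blk σ l)))) (t' := X ∩ W)]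
    · apply sum_congr rfl
      intro i hi
      apply sum_congr rfl
      intro I hI
      simp only [mem_filter, mem_powerset] at hI
      have hiI : i ∉ I := fun h => by simpa using hI.1 h
      unfold lab
      by_cases h : blk (σ.symm i) = blk (σ.symm l)
      · simp only [h, if_true, one_mul]
        congr 1
        unfold Eq'
        congr 1
        · ext z
          have hiW : i ∈ W := (mem_inter.1 hi).2
          simp only [mem_insert, mem_union, mem_sdiff, mem_univ, true_and, mem_erase]
          by_cases hz : z = i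
          · subst hz; simp
          · simp only [hz, false_or]; (clear * - hI hz; tauto)
        · ext z
          by_cases hz : z = i
          · subst hz; simp
          · by_cases hzI : z ∈ I
            · have h1 : z ≠ l := fun h => hW (h ▸ (mem_erase.1 (mem_inter.1 (hI.1 hzI)).2).2)
              simp [rw0, hz, hzI, h1]
            · simp [rw0, hz, hzI]
      · simp only [h, ↓reduceIte, mul_zero, zero_mul]
    · intro I i
      simp only [mem_filter, mem_powerset, mem_sdiff, mem_inter]
      constructor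
      · rintro ⟨⟨h1, h2⟩, ⟨h3, h4⟩, h5⟩
        refine ⟨⟨fun z hz => ?_, h2⟩, h3, h4⟩
        have := mem_inter.1 (h1 hz)
        exact mem_inter.2 ⟨this.1, mem_erase.2 ⟨fun h => h5 (h ▸ hz), this.2⟩⟩
      · rintro ⟨⟨h1, h2⟩, h3, h4⟩
        refine ⟨⟨fun z hz => ?_, h2⟩, ⟨h3, h4⟩, fun h => ?_⟩
        · have := mem_inter.1 (h1 hz)
          exact mem_inter.2 ⟨this.1, mem_of_mem_erase this.2⟩
        · have := h1 h
          simp at this

theorem E_step {d s : ℕ} (hd : 1 ≤ d) {X : Finset α} {blk : α → ℕ}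
    (hb : IsPartition d s X blk) (hX : X.card = d * s) (Φ : V [⋀^α]→ₗ[R] R) (e : α → V) {c w : V}
    (hw : ∑ k ∈ X, e k = -w) {l : α} (hl : l ∈ X) (A₀ : α → V) (q : ℕ) {i : α} {W : Finset α}
    (hW : l ∉ W) (hi : i ∉ W) :
    Eq' Φ X blk e c w l A₀ (q + 1) i W = ∑ σ ∈ permsOfFinset X,
      (Lsig s X blk l σ).foldr opb (Eq' Φ X blk e c w l A₀ q i) W := by
  have hXS : X \ (univ \ W) = X ∩ W := by
    ext z; simp only [mem_sdiff, mem_univ, true_and, Decidable.not_not, mem_inter]
  unfold Eq'
  rw [TS_step hd hb hX Φ e hw hl q (by simpa only [mem_sdiff, mem_univ, true_and] using hW), hXS]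
  have hvanish : ∀ I ∈ (X ∩ W).powerset, (-1 : R) ^ I.card * ∑ σ ∈ TT X blk (insert l I),
      (TS Φ X blk e q (univ \ W ∪ I) (I.piecewise e (update (rw0 e c l A₀ W) i w)) +
      ∑ i_1 ∈ (X ∩ W) \ I, if blk (σ.symm i_1) = blk (σ.symm l) then
        TS Φ X blk e q (insert i_1 (univ \ W ∪ I))
          (update (I.piecewise e (update (rw0 e c l A₀ W) i w)) i_1 w) else 0) =
      (-1 : R) ^ I.card * ∑ σ ∈ TT X blk (insert l I),
        TS Φ X blk e q (univ \ (W \ I)) (update (rw0 e c l A₀ (W \ I)) i w) := by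
    intro I hI
    rw [mem_powerset] at hI
    congr 1
    apply sum_congr rfl
    intro σ _
    have hiI : i ∉ I := fun h => hi (mem_inter.1 (hI h)).2
    have h0 : ∑ i_1 ∈ (X ∩ W) \ I, (if blk (σ.symm i_1) = blk (σ.symm l) then
        TS Φ X blk e q (insert i_1 (univ \ W ∪ I))
          (update (I.piecewise e (update (rw0 e c l A₀ W) i w)) i_1 w) else 0) = 0 := by
      apply sum_eq_zero
      intro j hj
      rw [mem_sdiff, mem_inter] at hj
      have hji : i ≠ j := fun h => hi (h ▸ hj.1.2)
      split_ifs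
      · apply TS_eq_zero Φ X blk e q _ _ (i := j) (j := i)
        · simp only [mem_insert, mem_union, mem_sdiff, mem_univ, true_and, true_or]
        · simp only [mem_insert, mem_union, mem_sdiff, mem_univ, hi, not_false_eq_true, and_self, true_or, or_true]
        · exact hji.symm
        · simp [hji, hiI]
      · rfl
    rw [h0, add_zero]
    congr 1
    · ext z
      simp only [mem_union, mem_sdiff, mem_univ, true_and]
      (clear * -; tauto)
    · ext z
      by_cases hz : z ∈ I
      · have h1 : z ≠ l := fun h => hW (h ▸ (mem_inter.1 (hI hz)).2)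
        have h2 : z ≠ i := fun h => hiI (h ▸ hz)
        simp [rw0, hz, h1, h2]
      · by_cases hzi : z = i
        · subst hzi; simp [hz]
        · simp [rw0, hz, hzi]
  rw [sum_congr rfl hvanish, sum_TT_eq hb hl inter_subset_left (fun h => hW (mem_inter.1 h).2)
    (fun I _ => TS Φ X blk e q (univ \ (W \ I)) (update (rw0 e c l A₀ (W \ I)) i w))]
  apply sum_congr rfl
  intro σ _
  unfold Lsig
  rw [foldr_opb_trv]

end Steps

end Vale.Agent.P049
end
end
end

section

section

section

/-! Positivity induction over the number of random pieces. -/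

namespace Vale.Agent.P049

open Finset Equiv Function

variable {α : Type*} [Fintype α] [DecidableEq α]

/-- Blocks inside `X`, of size at most `d`, at most `k` through every vertex. -/
structure Adm (d k : ℕ) (X : Finset α) (M : Multiset (Finset α)) : Prop where
  card : ∀ b ∈ M, b.card ≤ d
  sub : ∀ b ∈ M, b ⊆ X
  deg : ∀ v, (M.filter (v ∈ ·)).card ≤ k

theorem Adm.mono {d k k' : ℕ} {X : Finset α} {M : Multiset (Finset α)} (h : Adm d k X M)
    (hk : k ≤ k') : Adm d k' X M := ⟨h.card, h.sub, fun v => (h.deg v).trans hk⟩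

theorem card_blkOf {d s : ℕ} {X : Finset α} {blk : α → ℕ} (hb : IsPartition d s X blk)
    {σ : Perm α} (hσ : σ ∈ permsOfFinset X) {κ : ℕ} (hκ : κ < s) :
    (blkOf X (lab blk σ) κ).card = d := by
  rw [← hb.2 κ hκ]
  apply card_bij (fun k _ => σ.symm k)
  · intro k hk
    have hk' := mem_filter.1 hk
    exact mem_filter.2 ⟨perms_symm_mem hσ hk'.1, hk'.2⟩
  · intro k _ k' _ h
    exact σ.symm.injective h
  · intro k hk
    have hk' := mem_filter.1 hk
    refine ⟨σ k, ?_, by simp⟩
    refine mem_filter.2 ⟨perms_apply_mem hσ hk'.1, ?_⟩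
    rw [lab, Equiv.symm_apply_apply]
    exact hk'.2

theorem deg_map_blkOf (X : Finset α) (lb : α → ℕ) (K : Finset ℕ) (v : α) :
    ((K.val.map (blkOf X lb)).filter (v ∈ ·)).card ≤ 1 := by
  rw [Multiset.filter_map, Multiset.card_map]
  have h : (K.filter fun κ => v ∈ blkOf X lb κ).card ≤ 1 := by
    rw [Finset.card_le_one]
    intro a ha b hb
    simp only [blkOf, mem_filter] at ha hb
    rw [← ha.2.2, ← hb.2.2]
  exact h

theorem Adm.add_Lsig {d s k : ℕ} {X : Finset α} {blk : α → ℕ} (hb : IsPartition d s X blk)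
    {M : Multiset (Finset α)} (h : Adm d k X M) {σ : Perm α} (hσ : σ ∈ permsOfFinset X) (l : α) :
    Adm d (k + 1) X (M + Lsig s X blk l σ) := by
  refine ⟨?_, ?_, ?_⟩
  · intro b hbm
    rw [Multiset.mem_add] at hbm
    rcases hbm with hbm | hbm
    · exact h.card b hbm
    · obtain ⟨κ, hκ, rfl⟩ := Multiset.mem_map.1 hbm
      have hκ' := mem_range.1 (mem_of_mem_erase (show κ ∈ (range s).erase (lab blk σ l) from hκ))
      exact (card_blkOf hb hσ hκ').le
  · intro b hbm
    rw [Multiset.mem_add] at hbm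
    rcases hbm with hbm | hbm
    · exact h.sub b hbm
    · obtain ⟨κ, hκ, rfl⟩ := Multiset.mem_map.1 hbm
      exact filter_subset _ _
  · intro v
    rw [Multiset.filter_add, Multiset.card_add]
    exact add_le_add (h.deg v) (deg_map_blkOf _ _ _ _)

variable {V : Type*} [AddCommGroup V] [Module ℝ V]

theorem E_pos {d s : ℕ} (hd : 1 ≤ d) {X : Finset α} {blk : α → ℕ}
    (hb : IsPartition d s X blk) (hX : X.card = d * s) (Φ : V [⋀^α]→ₗ[ℝ] ℝ) (e : α → V) {c w : V}
    (hw : ∑ k ∈ X, e k = -w) {l : α} (hl : l ∈ X) (A₀ : α → V) {i : α} {k₀ : ℕ}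
    (h0 : ∀ M, Adm d k₀ X M → ∀ W, l ∉ W → i ∉ W → (∀ u, u ∉ X → u ∈ W) →
      0 ≤ M.foldr opb (Eq' Φ X blk e c w l A₀ 0 i) W) (q : ℕ) :
    ∀ (k : ℕ) (M : Multiset (Finset α)), k + q ≤ k₀ → Adm d k X M →
      ∀ W, l ∉ W → i ∉ W → (∀ u, u ∉ X → u ∈ W) →
      0 ≤ M.foldr opb (Eq' Φ X blk e c w l A₀ q i) W := by
  induction q with
  | zero => exact fun k M hk hM => h0 M (hM.mono hk)
  | succ q ih =>
    intro k M hk hM W h1 h2 h3
    rw [foldr_opb_congr (dom := fun W => l ∉ W ∧ i ∉ W ∧ ∀ u, u ∉ X → u ∈ W)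
      (G := fun W => ∑ σ ∈ permsOfFinset X,
        (Lsig s X blk l σ).foldr opb (Eq' Φ X blk e c w l A₀ q i) W) ?_ ?_ W ⟨h1, h2, h3⟩]
    · rw [foldr_opb_sum]
      apply sum_nonneg
      intro σ hσ
      rw [← Multiset.foldr_add]
      exact ih (k + 1) _ (by omega) (hM.add_Lsig hb hσ l) W h1 h2 h3
    · rintro W ⟨h1, h2, h3⟩ b hbM v hv
      rw [mem_inter] at hv
      refine ⟨fun h => h1 (mem_of_mem_erase h), fun h => h2 (mem_of_mem_erase h), fun u hu => ?_⟩
      exact mem_erase.2 ⟨fun h => hu (h ▸ hM.sub b hbM hv.1), h3 u hu⟩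
    · rintro W ⟨h1, h2, h3⟩
      exact E_step hd hb hX Φ e hw hl A₀ q h1 h2

theorem D_pos {d s : ℕ} (hd : 1 ≤ d) {X : Finset α} {blk : α → ℕ}
    (hb : IsPartition d s X blk) (hX : X.card = d * s) (Φ : V [⋀^α]→ₗ[ℝ] ℝ) (e : α → V) {c w : V}
    (hw : ∑ k ∈ X, e k = -w) {l : α} (hl : l ∈ X) (A₀ : α → V) {k₀ : ℕ}
    (h0 : ∀ M, Adm d k₀ X M → ∀ i ∈ X, ∀ W, l ∉ W → i ∉ W → (∀ u, u ∉ X → u ∈ W) →
      0 ≤ M.foldr opb (Eq' Φ X blk e c w l A₀ 0 i) W)
    (h0' : ∀ M, Adm d k₀ X M → ∀ W, l ∉ W → (∀ u, u ∉ X → u ∈ W) →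
      0 < M.foldr opb (Dq Φ X blk e c l A₀ 0) W) (q : ℕ) :
    ∀ (k : ℕ) (M : Multiset (Finset α)), k + q ≤ k₀ → Adm d k X M →
      ∀ W, l ∉ W → (∀ u, u ∉ X → u ∈ W) →
      0 < M.foldr opb (Dq Φ X blk e c l A₀ q) W := by
  induction q with
  | zero => exact fun k M hk hM => h0' M (hM.mono hk)
  | succ q ih =>
    intro k M hk hM W h1 h3
    rw [foldr_opb_congr (dom := fun W => l ∉ W ∧ ∀ u, u ∉ X → u ∈ W)
      (G := fun W => ∑ σ ∈ permsOfFinset X,
        ((Lsig s X blk l σ).foldr opb (Dq Φ X blk e c l A₀ q) W +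
        ∑ i ∈ X ∩ W, (if lab blk σ i = lab blk σ l then 1 else 0) *
          (Lsig s X blk l σ).foldr opb (Eq' Φ X blk e c w l A₀ q i) (W.erase i))) ?_ ?_ W
        ⟨h1, h3⟩]
    · rw [foldr_opb_sum]
      apply sum_pos _ ⟨1, perms_one⟩
      intro σ hσ
      rw [foldr_opb_add, foldr_opb_choose]
      simp only [← Multiset.foldr_add]
      apply add_pos_of_pos_of_nonneg
      · exact ih (k + 1) _ (by omega) (hM.add_Lsig hb hσ l) W h1 h3
      · apply sum_nonneg
        intro i hi
        apply mul_nonneg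
        · split_ifs <;> norm_num
        · rw [mem_inter] at hi
          refine E_pos hd hb hX Φ e hw hl A₀ (fun M hM W h1 h2 h3 => h0 M hM i hi.1 W h1 h2 h3) q
            (k + 1) _ (by omega) (hM.add_Lsig hb hσ l) _ (fun h => h1 (mem_of_mem_erase h))
            (by simp) (fun u hu => mem_erase.2 ⟨fun h => hu (h ▸ hi.1), h3 u hu⟩)
    · rintro W ⟨h1, h3⟩ b hbM v hv
      rw [mem_inter] at hv
      refine ⟨fun h => h1 (mem_of_mem_erase h), fun u hu => ?_⟩
      exact mem_erase.2 ⟨fun h => hu (h ▸ hM.sub b hbM hv.1), h3 u hu⟩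
    · rintro W ⟨h1, h3⟩
      exact D_step hd hb hX Φ e hw hl A₀ q h1

end Vale.Agent.P049
end
end
end

section

section

section

/-! Base cases for the positivity of the root: fixed blocks. -/

namespace Vale.Agent.P049

open Finset Equiv Function

variable {α : Type*} [Fintype α] [DecidableEq α] {R : Type*} [CommRing R]

/-- The determinant as an alternating map of the rows. -/
def DA (R : Type*) [CommRing R] (α : Type*) [Fintype α] [DecidableEq α] :
    (α → R) [⋀^α]→ₗ[R] R := Matrix.detRowAlternating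

theorem DA_zero_col (A : α → α → R) (f : α) (h : ∀ i, A i f = 0) : DA R α A = 0 :=
  Matrix.det_eq_zero_of_column_eq_zero (A := Matrix.of A) f h

theorem DA_smul_row (A : α → α → R) {i k : α} (hik : i ≠ k) (c : R) (h : A k = c • A i) :
    DA R α A = 0 := by
  have h1 : A = update A k (c • A i) := by rw [← h, update_eq_self]
  rw [h1, (DA R α).map_update_smul]
  rw [(DA R α).map_eq_zero_of_eq (update A k (A i)) (by simp [hik]) hik, smul_zero]

/-- unit vector -/
abbrev uv (R : Type*) [CommRing R] (k : α) : α → R := Pi.single k 1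

theorem uv_apply (k j : α) : uv R k j = if j = k then 1 else 0 := by
  simp [Pi.single_apply]

/-- Subtracting the same vector from the rows in `Y`. -/
theorem const_expand (A : α → α → R) (Y : Finset α) (v : α → R) :
    DA R α (fun i => A i - if i ∈ Y then v else 0) =
      DA R α A - ∑ i ∈ Y, DA R α (update A i v) := by
  rw [phi_sub (DA R α) A _ Y (fun i hi => by simp [hi]), sum_powerset_small]
  · simp only [card_empty, pow_zero, one_mul, card_singleton, pow_one, piecewise_empty, neg_mul,
      sum_neg_distrib, sub_eq_add_neg]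
    congr 2
    apply sum_congr rfl
    intro i hi
    congr 1
    ext z : 1
    by_cases hz : z = i
    · subst hz; simp [hi]
    · simp [hz]
  · intro O hO hc
    obtain ⟨i, hi, j, hj, hij⟩ := one_lt_card.1 hc
    rw [(DA R α).map_eq_zero_of_eq _ _ hij, mul_zero]
    simp [hi, hj, hO hi, hO hj]

/-- `1_b` -/
def vb (R : Type*) [CommRing R] (b : Finset α) : α → R := fun k => if k ∈ b then 1 else 0

theorem vb_eq_sum (b : Finset α) : vb R b = ∑ k ∈ b, uv R k := by
  ext j
  simp only [vb, Finset.sum_apply, Pi.single_apply, sum_ite_eq]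

/-- Rows `x e_i - Σ_{b ∈ L, i ∈ b} 1_b` for `i ∈ W`, `D i` otherwise. -/
def rowB (x : R) (L : Multiset (Finset α)) (D : α → α → R) (W : Finset α) : α → α → R :=
  fun i => if i ∈ W then x • uv R i - (L.map fun b => if i ∈ b then vb R b else 0).sum else D i

theorem rowB_cons (x : R) (b : Finset α) (L : Multiset (Finset α)) (D : α → α → R)
    (W : Finset α) : rowB x (b ::ₘ L) D W =
      fun i => rowB x L D W i - if i ∈ b ∩ W then vb R b else 0 := by
  ext i : 1
  by_cases hW : i ∈ W
  · simp only [rowB, hW, Multiset.map_cons, Multiset.sum_cons, if_true, mem_inter, and_true]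
    abel
  · simp [rowB, hW]

theorem update_rowB (x : R) (L : Multiset (Finset α)) (D : α → α → R) (W : Finset α) (i : α)
    (v : α → R) : update (rowB x L D W) i v = rowB x L (update D i v) (W.erase i) := by
  ext z : 1
  by_cases hz : z = i
  · subst hz; simp [rowB]
  · simp only [ne_eq, hz, not_false_eq_true, update_of_ne, rowB, mem_erase, true_and]

/-- A vertex in no block of `L` sees only its own row. -/
theorem rowB_col (x : R) (L : Multiset (Finset α)) (D : α → α → R) (W : Finset α) {f i : α}
    (hf : ∀ b ∈ L, f ∉ b) (hfi : f ≠ i) (hD : i ∉ W → D i f = 0) : rowB x L D W i f = 0 := by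
  unfold rowB
  split_ifs with h
  · have h1 : (L.map fun b => if i ∈ b then vb R b else 0).sum f = 0 := by
      clear h
      induction L using Multiset.induction_on with
      | empty => simp
      | cons b L ih =>
        rw [Multiset.map_cons, Multiset.sum_cons, Pi.add_apply,
          ih (fun b hb => hf b (Multiset.mem_cons_of_mem hb)), add_zero]
        have := hf b (Multiset.mem_cons_self _ _)
        split_ifs <;> simp [vb, this]
    simp [h1, hfi]
  · exact hD h

theorem rowB_row (x : R) (L : Multiset (Finset α)) (D : α → α → R) (W : Finset α) {f : α}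
    (hf : ∀ b ∈ L, f ∉ b) (hD : f ∉ W → ∃ c : R, D f = c • uv R f) :
    ∃ c : R, rowB x L D W f = c • uv R f := by
  unfold rowB
  split_ifs with h
  · refine ⟨x, ?_⟩
    have h1 : (L.map fun b => if f ∈ b then vb R b else 0).sum = 0 := by
      apply Multiset.sum_eq_zero
      intro v hv
      obtain ⟨b, hb, rfl⟩ := Multiset.mem_map.1 hv
      simp [hf b hb]
    rw [h1, sub_zero]
  · exact hD h

theorem not_mem_of_one {b : Finset α} {L : Multiset (Finset α)} {v : α}
    (h : ((b ::ₘ L).filter (v ∈ ·)).card ≤ 1) (hv : v ∈ b) : ∀ b' ∈ L, v ∉ b' := by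
  intro b' hb' hvb'
  rw [Multiset.filter_cons_of_pos (p := fun c => v ∈ c) _ hv, Multiset.card_cons] at h
  have h1 : (L.filter (v ∈ ·)).card = 0 := by omega
  rw [Multiset.card_eq_zero] at h1
  have : b' ∈ L.filter (v ∈ ·) := Multiset.mem_filter.2 ⟨hb', hvb'⟩
  rw [h1] at this
  exact absurd this (Multiset.notMem_zero _)

theorem one_of_cons {b : Finset α} {L : Multiset (Finset α)} {v : α}
    (h : ((b ::ₘ L).filter (v ∈ ·)).card ≤ 1) : (L.filter (v ∈ ·)).card ≤ 1 :=
  (Multiset.card_le_card (Multiset.filter_le_filter _ (Multiset.le_cons_self _ _))).trans h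

/-- Expansion of the fixed blocks: only diagonal terms. -/
theorem rowB_fresh (x : R) (X : Finset α) (D : α → α → R) (L : Multiset (Finset α))
    (hout : ∀ b ∈ L, (b \ X).card ≤ 1) (hone : ∀ v ∈ X, (L.filter (v ∈ ·)).card ≤ 1)
    (D1 : ∀ i f, f ∈ X → f ≠ i → D i f = 0)
    (D2 : ∀ b ∈ L, ∀ k ∈ b, k ∈ X → ∃ c : R, D k = c • uv R k) :
    ∀ W : Finset α, (∀ i ∈ W, D i = uv R i) →
      DA R α (rowB x L D W) = L.foldr opb (fun W => DA R α (rowB x 0 D W)) W := by
  induction L using Multiset.induction_on with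
  | empty => intro W _; rfl
  | cons b L ih =>
    intro W hW
    have ih' := ih (fun b' hb' => hout b' (Multiset.mem_cons_of_mem hb'))
      (fun v hv => one_of_cons (hone v hv))
      (fun b' hb' => D2 b' (Multiset.mem_cons_of_mem hb'))
    rw [rowB_cons, const_expand, foldr_opb_cons, ih' W hW]
    congr 1
    apply sum_congr rfl
    intro i hi
    rw [mem_inter] at hi
    rw [← ih' (W.erase i) (fun j hj => hW j (mem_of_mem_erase hj))]
    have h1 := MultilinearMap.map_update_sum (DA R α).toMultilinearMap (t := b) i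
      (fun k => uv R k) (rowB x L D W)
    simp only [AlternatingMap.coe_multilinearMap] at h1
    rw [vb_eq_sum, h1, sum_eq_single_of_mem i hi.1]
    · rw [update_rowB]
      congr 2
      rw [← hW i hi.2, update_eq_self]
    · intro k hk hki
      by_cases hiX : i ∈ X
      · apply DA_zero_col _ i
        intro j
        by_cases hj : j = i
        · subst hj; simp [Pi.single_apply, hki.symm]
        · rw [update_of_ne hj]
          exact rowB_col x L D W (not_mem_of_one (hone i hiX) hi.1) (Ne.symm hj)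
            (fun _ => D1 j i hiX (Ne.symm hj))
      · have hkX : k ∈ X := by
          by_contra hkX
          have h2 := hout b (Multiset.mem_cons_self _ _)
          rw [card_le_one] at h2
          exact hki (h2 k (mem_sdiff.2 ⟨hk, hkX⟩) i (mem_sdiff.2 ⟨hi.1, hiX⟩))
        obtain ⟨c, hc⟩ := rowB_row x L D W (not_mem_of_one (hone k hkX) hk)
          (fun _ => D2 b (Multiset.mem_cons_self _ _) k hk hkX)
        apply DA_smul_row _ (Ne.symm hki) c
        rw [update_of_ne hki, update_self, hc]

theorem rowB_zero_uv (x : R) (W : Finset α) :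
    DA R α (rowB x 0 (fun i => uv R i) W) = x ^ W.card := by
  have h1 : rowB x 0 (fun i => uv R i) W = fun i => (if i ∈ W then x else 1) • uv R i := by
    ext i : 1
    by_cases h : i ∈ W <;> simp [rowB, h]
  rw [h1]
  have h2 := MultilinearMap.map_smul_univ (DA R α).toMultilinearMap
    (fun i => if i ∈ W then x else 1) (fun i => uv R i)
  simp only [AlternatingMap.coe_multilinearMap] at h2
  rw [h2]
  have h3 : DA R α (fun i => uv R i) = 1 := by
    have : (Matrix.of fun i => uv R i) = (1 : Matrix α α R) := by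
      ext i j
      simp [Matrix.one_apply, Pi.single_apply, eq_comm]
    change Matrix.det (Matrix.of fun i => uv R i) = 1
    rw [this, Matrix.det_one]
  rw [h3, smul_eq_mul, mul_one, prod_ite_mem, univ_inter, prod_const]

end Vale.Agent.P049
end
end
end

section

section

section

/-! Positivity of the root. -/

namespace Vale.Agent.P049

open Finset Equiv Function

variable {α : Type*} [Fintype α] [DecidableEq α] {R : Type*} [CommRing R]

/-- reduced vector -/
def redv (l : α) (v : α → R) : α → R := fun k => v k - v l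

theorem redv_of_zero {l : α} {v : α → R} (h : v l = 0) : redv l v = v := by
  ext k; simp [redv, h]

theorem redv_sub (l : α) (v w : α → R) : redv l (v - w) = redv l v - redv l w := by
  ext k; simp only [redv, Pi.sub_apply]; ring

theorem redv_sum {ι : Type*} (l : α) (s : Finset ι) (f : ι → α → R) :
    redv l (∑ i ∈ s, f i) = ∑ i ∈ s, redv l (f i) := by
  ext k; simp only [redv, Finset.sum_apply, sum_sub_distrib]

/-- The fixed blocks: at most one vertex outside `X`, disjoint inside `X`; `b₀` is inside `X` and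
contains `l`. -/
structure FixedBlocks (d : ℕ) (X : Finset α) (l : α) (b₀ : Finset α)
    (Fb : Multiset (Finset α)) : Prop where
  card : ∀ b ∈ Fb, b.card ≤ d
  out : ∀ b ∈ Fb, (b \ X).card ≤ 1
  one : ∀ v ∈ X, ((b₀ ::ₘ Fb).filter (v ∈ ·)).card ≤ 1
  deg : ∀ u, u ∉ X → (Fb.filter (u ∈ ·)).card ≤ d
  mem : l ∈ b₀
  sub : b₀ ⊆ X

/-- reduced basis -/
def eR (R : Type*) [CommRing R] (l k : α) : α → R := redv l (uv R k)

/-- initial rows -/
def A₀ (x : R) (l : α) (b₀ : Finset α) (Fb : Multiset (Finset α)) : α → α → R := fun i =>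
  redv l (x • uv R i - ((b₀ ::ₘ Fb).map fun b => if i ∈ b then vb R b else 0).sum)

theorem eR_ne {l k : α} (h : k ≠ l) : eR R l k = uv R k :=
  redv_of_zero (by simp [Pi.single_apply, h.symm])

theorem sum_eR {X : Finset α} {l : α} (hl : l ∈ X) : ∑ k ∈ X, eR R l k = -vb R (univ \ X) := by
  unfold eR
  rw [← redv_sum, ← vb_eq_sum]
  ext k
  by_cases hk : k ∈ X <;> simp [redv, vb, hl, hk]

variable {d : ℕ} {X : Finset α} {l : α} {b₀ : Finset α} {Fb : Multiset (Finset α)}

theorem FixedBlocks.l_notMem (h : FixedBlocks d X l b₀ Fb) : ∀ b ∈ Fb, l ∉ b :=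
  not_mem_of_one (h.one l (h.sub h.mem)) h.mem

theorem sum_vb_apply {L : Multiset (Finset α)} {f : α} (hf : ∀ b ∈ L, f ∉ b) (i : α) :
    (L.map fun b => if i ∈ b then vb R b else 0).sum f = 0 := by
  induction L using Multiset.induction_on with
  | empty => simp
  | cons b L ih =>
    rw [Multiset.map_cons, Multiset.sum_cons, Pi.add_apply,
      ih (fun b hb => hf b (Multiset.mem_cons_of_mem hb)), add_zero]
    have := hf b (Multiset.mem_cons_self _ _)
    split_ifs <;> simp [vb, this]

theorem A₀_eq (h : FixedBlocks d X l b₀ Fb) (x : R) {i : α} (hi : i ≠ l) :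
    A₀ x l b₀ Fb i = (x • uv R i - (Fb.map fun b => if i ∈ b then vb R b else 0).sum) -
      if i ∈ b₀ then redv l (vb R b₀) else 0 := by
  unfold A₀
  rw [Multiset.map_cons, Multiset.sum_cons, add_comm, ← sub_sub, redv_sub]
  congr 1
  · apply redv_of_zero
    rw [Pi.sub_apply, sum_vb_apply h.l_notMem]
    simp [Pi.single_apply, hi.symm]
  · split_ifs
    · rfl
    · ext k; simp [redv]

theorem rw0_eq (h : FixedBlocks d X l b₀ Fb) (x : R) {W : Finset α} (hW : l ∉ W) :
    rw0 (eR R l) (uv R l) l (A₀ x l b₀ Fb) W =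
      fun i => rowB x Fb (fun i => uv R i) W i - if i ∈ b₀ ∩ W then redv l (vb R b₀) else 0 := by
  ext i : 1
  by_cases hi : i ∈ W
  · have hil : i ≠ l := fun h => hW (h ▸ hi)
    simp only [rw0, hi, if_true, rowB, mem_inter, and_true]
    rw [A₀_eq h x hil]
  · simp only [rw0, hi, if_false, rowB, mem_inter, and_false, sub_zero]
    split_ifs with hil
    · rw [hil]
    · exact eR_ne hil

theorem update_rw0_eq (h : FixedBlocks d X l b₀ Fb) (x : R) {W : Finset α} (hW : l ∉ W) {j : α}
    (hj : j ∉ W) (w : α → R) :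
    update (rw0 (eR R l) (uv R l) l (A₀ x l b₀ Fb) W) j w =
      fun i => rowB x Fb (update (fun i => uv R i) j w) W i -
        if i ∈ b₀ ∩ W then redv l (vb R b₀) else 0 := by
  rw [rw0_eq h x hW]
  ext i : 1
  by_cases hi : i = j
  · subst hi
    simp only [rowB, mem_inter, update_self, hj, ↓reduceIte, and_false, sub_zero]
  · by_cases hiW : i ∈ W <;> simp [rowB, hi, hiW]

/-- The block `b₀` does not contribute. -/
theorem drop_b₀ (h : FixedBlocks d X l b₀ Fb) (x : R) {W : Finset α}
    (D : α → α → R) (hD : ∀ i, i ∉ W → ∀ f ∈ X, f ≠ i → D i f = 0) :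
    DA R α (fun i => rowB x Fb D W i - if i ∈ b₀ ∩ W then redv l (vb R b₀) else 0) =
      DA R α (rowB x Fb D W) := by
  rw [const_expand, sum_eq_zero, sub_zero]
  intro i hi
  rw [mem_inter] at hi
  apply DA_zero_col _ i
  intro j
  by_cases hj : j = i
  · subst hj
    rw [update_self]
    simp [redv, vb, hi.1, h.mem]
  · rw [update_of_ne hj]
    exact rowB_col x Fb D W (not_mem_of_one (h.one i (h.sub hi.1)) hi.1) (Ne.symm hj)
      (fun hjW => hD j hjW i (h.sub hi.1) (Ne.symm hj))

theorem D_base (h : FixedBlocks d X l b₀ Fb) (x : R) (blk : α → ℕ) {W : Finset α}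
    (hW : l ∉ W) :
    Dq (DA R α) X blk (eR R l) (uv R l) l (A₀ x l b₀ Fb) 0 W = mu x Fb W := by
  unfold Dq TS
  rw [rw0_eq h x hW, drop_b₀ h x _ (fun i _ f _ hf => by simp [Pi.single_apply, hf])]
  rw [rowB_fresh x X _ Fb h.out (fun v hv => one_of_cons (h.one v hv))
    (fun i f _ hf => by simp [Pi.single_apply, hf]) (fun b _ k _ _ => ⟨1, by simp⟩) W
    (fun i _ => rfl)]
  have hG : (fun W => DA R α (rowB x 0 (fun i => uv R i) W)) = fun V => x ^ V.card :=
    funext fun W => rowB_zero_uv x W
  rw [hG]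
  rfl

theorem E_eq (h : FixedBlocks d X l b₀ Fb) (x : R) (blk : α → ℕ) {W : Finset α}
    (hW : l ∉ W) {j : α} (hj : j ∉ W) :
    Eq' (DA R α) X blk (eR R l) (uv R l) (vb R (univ \ X)) l (A₀ x l b₀ Fb) 0 j W =
      DA R α (rowB x Fb (update (fun i => uv R i) j (vb R (univ \ X))) W) := by
  unfold Eq' TS
  rw [update_rw0_eq h x hW hj, drop_b₀ h x]
  intro i _ f hf hfi
  by_cases hi : i = j
  · subst hi; simp only [update_self, vb, mem_sdiff, mem_univ, hf, not_true_eq_false, and_false, ↓reduceIte]
  · simp only [ne_eq, hi, not_false_eq_true, update_of_ne, hfi, Pi.single_eq_of_ne]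

/-- No block through `j`: zero. -/
theorem E_base_none (h : FixedBlocks d X l b₀ Fb) (x : R) (blk : α → ℕ) {W : Finset α}
    (hW : l ∉ W) {j : α} (hj : j ∉ W) (hjX : j ∈ X) (hjF : ∀ b ∈ Fb, j ∉ b) :
    Eq' (DA R α) X blk (eR R l) (uv R l) (vb R (univ \ X)) l (A₀ x l b₀ Fb) 0 j W = 0 := by
  rw [E_eq h x blk hW hj]
  apply DA_zero_col _ j
  intro i
  by_cases hi : i = j
  · subst hi; simp only [rowB, hj, ↓reduceIte, update_self, vb, mem_sdiff, mem_univ, hjX, not_true_eq_false, and_false]
  · exact rowB_col x Fb _ W hjF (Ne.symm hi) (fun _ => by simp only [ne_eq, hi, not_false_eq_true, update_of_ne, Ne.symm hi, Pi.single_eq_of_ne])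

/-- The rows with a unit vector at `j` and `1_U` at `k`. -/
theorem E_swap (x : R) (L : Multiset (Finset α)) {b : Finset α} {j : α} (hjX : j ∈ X)
    (hjL : ∀ b ∈ L, j ∉ b) (hjb : j ∈ b) {W : Finset α} (hj : j ∉ W) :
    DA R α (rowB x (b ::ₘ L) (update (fun i => uv R i) j (vb R (univ \ X))) W) =
      ∑ k ∈ b ∩ W, DA R α (rowB x L (update (fun i => uv R i) k (vb R (univ \ X)))
        (W.erase k)) := by
  set w := vb R (univ \ X) with hw
  have hwj : w j = 0 := by simp only [hw, vb, mem_sdiff, mem_univ, hjX, not_true_eq_false, and_false, ↓reduceIte]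
  -- column `j`
  have hcol : ∀ i, rowB x L (update (fun i => uv R i) j w) W i j = 0 := by
    intro i
    by_cases hi : i = j
    · subst hi; simp [rowB, hj, hwj]
    · exact rowB_col x L _ W hjL (Ne.symm hi) (fun _ => by simp [hi, Pi.single_apply, Ne.symm hi])
  rw [rowB_cons, const_expand, DA_zero_col _ j hcol, zero_sub, ← sum_neg_distrib]
  apply sum_congr rfl
  intro k hk
  rw [mem_inter] at hk
  have hkj : k ≠ j := fun h => hj (h ▸ hk.2)
  have h1 := MultilinearMap.map_update_sum (DA R α).toMultilinearMap (t := b) k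
    (fun k => uv R k) (rowB x L (update (fun i => uv R i) j w) W)
  simp only [AlternatingMap.coe_multilinearMap] at h1
  rw [vb_eq_sum, h1, sum_eq_single_of_mem j hjb]
  · -- swap rows `k` and `j`
    have h2 : update (rowB x L (update (fun i => uv R i) j w) W) k (uv R j) =
        update (update (rowB x L (fun i => uv R i) W) j w) k (uv R j) := by
      congr 1
      rw [update_rowB, erase_eq_of_notMem hj]
    rw [h2, update_update_swap (DA R α) _ hkj.symm, neg_neg, update_rowB, update_rowB]
    have h3 : update (fun i => uv R i) j (uv R j) = fun i => uv R i :=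
      update_eq_self j (fun i => uv R i)
    rw [h3, erase_eq_of_notMem hj]
  · intro k' _ hk'
    apply DA_zero_col _ j
    intro i
    by_cases hi : i = k
    · subst hi; simp [Pi.single_apply, hk'.symm]
    · rw [update_of_ne hi]; exact hcol i

/-- The block through `j` lies inside `X`: zero. -/
theorem E_term_in (x : R) (L : Multiset (Finset α)) {k : α} (hkX : k ∈ X)
    (hkL : ∀ b ∈ L, k ∉ b) (W : Finset α) :
    DA R α (rowB x L (update (fun i => uv R i) k (vb R (univ \ X))) (W.erase k)) = 0 := by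
  apply DA_zero_col _ k
  intro i
  by_cases hi : i = k
  · subst hi; simp only [rowB, mem_erase, ne_eq, not_true_eq_false, false_and, ↓reduceIte, update_self, vb, mem_sdiff, mem_univ, hkX, and_false]
  · exact rowB_col x L _ _ hkL (Ne.symm hi) (fun _ => by simp only [ne_eq, hi, not_false_eq_true, update_of_ne, Ne.symm hi, Pi.single_eq_of_ne])

theorem E_term_out (x : R) (L : Multiset (Finset α)) (hout : ∀ b ∈ L, (b \ X).card ≤ 1)
    (hone : ∀ v ∈ X, (L.filter (v ∈ ·)).card ≤ 1) {u : α} (hu : u ∉ X) (W : Finset α) :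
    DA R α (rowB x L (update (fun i => uv R i) u (vb R (univ \ X))) (W.erase u)) =
      mu x L (W.erase u) := by
  have h1 : ∀ W' : Finset α, u ∉ W' →
      DA R α (rowB x 0 (update (fun i => uv R i) u (vb R (univ \ X))) W') = x ^ W'.card := by
    intro W' hW'
    have h2 : rowB x 0 (update (fun i => uv R i) u (vb R (univ \ X))) W' =
        update (rowB x 0 (fun i => uv R i) W') u (vb R (univ \ X)) := by
      rw [update_rowB, erase_eq_of_notMem hW']
    have h3 := MultilinearMap.map_update_sum (DA R α).toMultilinearMap (t := univ \ X) u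
      (fun k => uv R k) (rowB x 0 (fun i => uv R i) W')
    simp only [AlternatingMap.coe_multilinearMap] at h3
    rw [h2, vb_eq_sum, h3, sum_eq_single_of_mem u (by simp only [mem_sdiff, mem_univ, hu, not_false_eq_true, and_self])]
    · rw [update_rowB, erase_eq_of_notMem hW', update_eq_self u (fun i => uv R i), rowB_zero_uv]
    · intro k _ hku
      obtain ⟨c, hc⟩ := rowB_row x (0 : Multiset (Finset α)) (fun i => uv R i) W' (f := k)
        (by simp) (fun _ => ⟨1, by simp⟩)
      apply DA_smul_row _ (Ne.symm hku) c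
      rw [update_of_ne hku, update_self, hc]
  rw [rowB_fresh x X _ L hout hone ?_ ?_ (W.erase u) ?_]
  · unfold mu
    apply foldr_opb_congr (dom := fun W => u ∉ W)
    · intro W hW b _ v _ h
      exact hW (mem_of_mem_erase h)
    · exact h1
    · simp
  · intro i f hf hfi
    by_cases hi : i = u
    · subst hi; simp only [update_self, vb, mem_sdiff, mem_univ, hf, not_true_eq_false, and_false, ↓reduceIte]
    · simp only [ne_eq, hi, not_false_eq_true, update_of_ne, hfi, Pi.single_eq_of_ne]
  · intro b _ k _ hk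
    have : k ≠ u := fun h => hu (h ▸ hk)
    exact ⟨1, by simp only [ne_eq, this, not_false_eq_true, update_of_ne, one_smul]⟩
  · intro i hi
    have : i ≠ u := ne_of_mem_erase hi
    simp [this]

variable {x : ℝ}

theorem mu_adm (hd : 3 ≤ d) (hx : 4 * ((d : ℝ) - 1) ≤ x) {k : ℕ} (hk : k + 1 ≤ d)
    {M L : Multiset (Finset α)} (hM : Adm d k X M) (hcard : ∀ b ∈ L, b.card ≤ d)
    (hone : ∀ v ∈ X, (L.filter (v ∈ ·)).card ≤ 1) (hdeg : ∀ u, u ∉ X → (L.filter (u ∈ ·)).card ≤ d)
    (W : Finset α) : 0 < mu x (M + L) W := by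
  apply mu_pos hd hx
  · intro b hb
    rw [Multiset.mem_add] at hb
    rcases hb with hb | hb
    · exact hM.card b hb
    · exact hcard b hb
  · intro v _
    rw [Multiset.filter_add, Multiset.card_add]
    by_cases hv : v ∈ X
    · have := hM.deg v
      have := hone v hv
      omega
    · have h1 : M.filter (v ∈ ·) = 0 := by
        rw [Multiset.filter_eq_nil]
        intro b hb hvb
        exact hv (hM.sub b hb hvb)
      rw [h1, Multiset.card_zero, zero_add]
      exact hdeg v hv

theorem root_E (hd : 3 ≤ d) (hx : 4 * ((d : ℝ) - 1) ≤ x) {k : ℕ} (hk : k + 1 ≤ d)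
    (h : FixedBlocks d X l b₀ Fb) (blk : α → ℕ) {M : Multiset (Finset α)} (hM : Adm d k X M)
    {j : α} (hjX : j ∈ X) {W : Finset α} (hlW : l ∉ W) (hjW : j ∉ W) (hU : ∀ u, u ∉ X → u ∈ W) :
    0 ≤ M.foldr opb (Eq' (DA ℝ α) X blk (eR ℝ l) (uv ℝ l) (vb ℝ (univ \ X)) l
      (A₀ x l b₀ Fb) 0 j) W := by
  have hdom : ∀ V : Finset α, (l ∉ V ∧ j ∉ V ∧ ∀ u, u ∉ X → u ∈ V) → ∀ b ∈ M, ∀ v ∈ b ∩ V,
      (l ∉ V.erase v ∧ j ∉ V.erase v ∧ ∀ u, u ∉ X → u ∈ V.erase v) := by
    rintro V ⟨h1, h2, h3⟩ b hbM v hv
    rw [mem_inter] at hv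
    refine ⟨fun h => h1 (mem_of_mem_erase h), fun h => h2 (mem_of_mem_erase h), fun u hu => ?_⟩
    exact mem_erase.2 ⟨fun h => hu (h ▸ hM.sub b hbM hv.1), h3 u hu⟩
  by_cases hjF : ∀ b ∈ Fb, j ∉ b
  · rw [foldr_opb_congr (dom := fun W => l ∉ W ∧ j ∉ W ∧ ∀ u, u ∉ X → u ∈ W) (G := fun _ => 0)
      hdom ?_ W ⟨hlW, hjW, hU⟩, foldr_opb_zero]
    rintro V ⟨h1, h2, _⟩
    exact E_base_none h x blk h1 h2 hjX hjF
  · push Not at hjF
    obtain ⟨b, hb, hjb⟩ := hjF
    obtain ⟨L, hL⟩ := Multiset.exists_cons_of_mem hb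
    have honeF : ∀ v ∈ X, (Fb.filter (v ∈ ·)).card ≤ 1 := fun v hv => one_of_cons (h.one v hv)
    have hone : ∀ v ∈ X, (L.filter (v ∈ ·)).card ≤ 1 := fun v hv => by
      have := honeF v hv
      rw [hL] at this
      exact one_of_cons this
    have hnot : ∀ v ∈ X, v ∈ b → ∀ b' ∈ L, v ∉ b' := fun v hv hvb => by
      have := honeF v hv
      rw [hL] at this
      exact not_mem_of_one this hvb
    have hout : ∀ b ∈ L, (b \ X).card ≤ 1 := fun b hb => h.out b (by
      rw [hL]; exact Multiset.mem_cons_of_mem hb)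
    have hcard : ∀ b ∈ L, b.card ≤ d := fun b hb => h.card b (by
      rw [hL]; exact Multiset.mem_cons_of_mem hb)
    have hdeg : ∀ u, u ∉ X → (L.filter (u ∈ ·)).card ≤ d := fun u hu =>
      (Multiset.card_le_card (Multiset.filter_le_filter _ (by
        rw [hL]; exact Multiset.le_cons_self _ _))).trans (h.deg u hu)
    by_cases hbX : ∃ u ∈ b, u ∉ X
    · obtain ⟨u, hub, huX⟩ := hbX
      rw [foldr_opb_congr (dom := fun W => l ∉ W ∧ j ∉ W ∧ ∀ u, u ∉ X → u ∈ W)
        (G := fun W => mu x L (W.erase u)) hdom ?_ W ⟨hlW, hjW, hU⟩]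
      · rw [foldr_opb_erase (fun b hb hub => huX (hM.sub b hb hub)), ← mu_add]
        exact (mu_adm hd hx hk hM hcard hone hdeg _).le
      · rintro V ⟨h1, h2, h3⟩
        rw [E_eq h x blk h1 h2, hL, E_swap x L hjX (hnot j hjX hjb) hjb h2,
          sum_eq_single_of_mem u (mem_inter.2 ⟨hub, h3 u huX⟩)]
        · exact E_term_out x L hout hone huX V
        · intro k hk hku
          rw [mem_inter] at hk
          have hkX : k ∈ X := by
            by_contra hkX
            have h2 := h.out b hb
            rw [card_le_one] at h2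
            exact hku (h2 k (mem_sdiff.2 ⟨hk.1, hkX⟩) u (mem_sdiff.2 ⟨hub, huX⟩))
          exact E_term_in x L hkX (hnot k hkX hk.1) V
    · push Not at hbX
      rw [foldr_opb_congr (dom := fun W => l ∉ W ∧ j ∉ W ∧ ∀ u, u ∉ X → u ∈ W) (G := fun _ => 0)
        hdom ?_ W ⟨hlW, hjW, hU⟩, foldr_opb_zero]
      rintro V ⟨h1, h2, _⟩
      rw [E_eq h x blk h1 h2, hL, E_swap x L hjX (hnot j hjX hjb) hjb h2]
      apply sum_eq_zero
      intro k hk
      rw [mem_inter] at hk
      exact E_term_in x L (hbX k hk.1) (hnot k (hbX k hk.1) hk.1) V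

/-- Positivity for the reduced rows. -/
theorem root_TS (hd : 3 ≤ d) (hx : 4 * ((d : ℝ) - 1) ≤ x) {q s : ℕ} (hq : q + 1 ≤ d)
    (h : FixedBlocks d X l b₀ Fb) {blk : α → ℕ} (hb : IsPartition d s X blk)
    (hX : X.card = d * s) :
    0 < TS (DA ℝ α) X blk (eR ℝ l) q {l} (update (A₀ x l b₀ Fb) l (uv ℝ l)) := by
  have hl : l ∈ X := h.sub h.mem
  have h1 := D_pos (by omega) hb hX (DA ℝ α) (eR ℝ l) (c := uv ℝ l) (sum_eR hl) hl
    (A₀ x l b₀ Fb) (k₀ := q)
    (fun M hM j hj W h1 h2 h3 => root_E hd hx hq h blk hM hj h1 h2 h3)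
    (fun M hM W h1 h2 => ?_) q 0 0 (by omega) ⟨by simp, by simp, by simp⟩ (univ.erase l) (by simp only [mem_erase, ne_eq, not_true_eq_false, mem_univ, and_true, not_false_eq_true])
    (fun u hu => mem_erase.2 ⟨fun h => hu (h ▸ hl), mem_univ _⟩)
  · have e1 : Dq (DA ℝ α) X blk (eR ℝ l) (uv ℝ l) l (A₀ x l b₀ Fb) q (univ.erase l) =
        TS (DA ℝ α) X blk (eR ℝ l) q {l} (update (A₀ x l b₀ Fb) l (uv ℝ l)) := by
      unfold Dq
      congr 1
      · ext z; simp only [mem_sdiff, mem_univ, mem_erase, ne_eq, and_true, Decidable.not_not, true_and, mem_singleton]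
      · ext i : 1
        by_cases hi : i = l
        · subst hi; simp only [rw0, mem_erase, ne_eq, not_true_eq_false, mem_univ, and_true, ↓reduceIte, update_self]
        · simp only [rw0, mem_erase, ne_eq, hi, not_false_eq_true, mem_univ, and_self, ↓reduceIte, update_of_ne]
    rw [← e1]
    exact h1
  · rw [foldr_opb_congr (dom := fun W => l ∉ W) (G := mu x Fb)
      (fun V hV b _ v _ h => hV (mem_of_mem_erase h)) (fun V hV => D_base h x blk hV) W h1,
      ← mu_add]
    exact mu_adm hd hx hq hM h.card (fun v hv => one_of_cons (h.one v hv)) h.deg W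

end Vale.Agent.P049
end
end
end

section

section

section

/-! Positivity of the root in matrix form, and deflation. -/

namespace Vale.Agent.P049

open Finset Equiv Function Matrix

variable {α : Type*} [Fintype α] [DecidableEq α] {R : Type*} [CommRing R]

/-- The determinant with row `l` replaced by ones. -/
def hdet (l : α) (A : Matrix α α R) : R := (A.updateRow l fun _ => 1).det

/-- `q` random pieces on `X₀`, subtracted one after the other. -/
def restH (g : Matrix α α R → R) (X₀ : Finset α) (blk : α → ℕ) : ℕ → Matrix α α R → R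
  | 0 => g
  | q + 1 => fun A => ∑ σ ∈ permsOfFinset X₀,
      restH g X₀ blk q (A - pact σ (blockMat R X₀ blk))

theorem det_deflate (l : α) (A : Matrix α α R) (c : R) (h : ∀ k, ∑ i, A i k = c) :
    A.det = c * hdet l A := by
  have h1 := Matrix.det_updateRow_sum A l (fun _ => 1)
  rw [one_smul] at h1
  rw [← h1]
  have h2 : (∑ k, (fun _ => (1 : R)) k • A k) = c • fun _ => (1 : R) := by
    ext j
    simp only [one_smul, Pi.smul_apply, smul_eq_mul, mul_one]
    exact (Finset.sum_apply j univ (fun x => A x)).trans (h j)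
  rw [h2, Matrix.det_updateRow_smul]
  rfl

theorem colSum_pact {d s : ℕ} {X : Finset α} {blk : α → ℕ} (hb : IsPartition d s X blk)
    {σ : Perm α} (hσ : σ ∈ permsOfFinset X) (k : α) :
    ∑ i, (pact σ (blockMat R X blk)) i k = if k ∈ X then (d : R) else 0 := by
  have hsymm : ∀ x, σ.symm x ∈ X ↔ x ∈ X := fun x =>
    ⟨fun h => by simpa using perms_apply_mem hσ h, perms_symm_mem hσ⟩
  simp only [pact, blockMat, submatrix_apply, of_apply, hsymm]
  split_ifs with hk
  · rw [← card_bl hb hσ hk, bl, card_filter, Nat.cast_sum, ← sum_filter_add_sum_filter_not univ (· ∈ X)]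
    rw [sum_eq_zero (s := univ.filter fun x => x ∉ X) (fun i hi => by simp only [mem_filter, mem_univ, true_and] at hi; simp [hi]),
      add_zero, filter_mem_eq_inter, univ_inter]
    apply sum_congr rfl
    intro i hi
    simp only [hi, hk, true_and, Nat.cast_ite, Nat.cast_one, Nat.cast_zero]
  · apply sum_eq_zero
    intro i _
    simp [hk]

theorem restH_deflate {d s : ℕ} {X₀ : Finset α} {blk : α → ℕ} (hb : IsPartition d s X₀ blk) (l : α)
    (q : ℕ) : ∀ (A : Matrix α α R) (c : R),
    (∀ k, ∑ i, A i k = c + d * q * (if k ∈ X₀ then 1 else 0)) →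
    restH Matrix.det X₀ blk q A = c * restH (hdet l) X₀ blk q A := by
  induction q with
  | zero =>
    intro A c h
    exact det_deflate l A c (fun k => by rw [h k]; simp only [Nat.cast_zero, mul_zero, mul_ite, mul_one, ite_self, add_zero])
  | succ q ih =>
    intro A c h
    rw [restH, restH, mul_sum]
    apply sum_congr rfl
    intro σ hσ
    apply ih
    intro k
    simp only [Matrix.sub_apply, sum_sub_distrib, h k, colSum_pact hb hσ]
    split_ifs
    · push_cast; ring
    · push_cast; ring

theorem hdet_eq (l : α) (A : Matrix α α R) :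
    hdet l A = DA R α (update (fun i => redv l (A i)) l (uv R l)) := by
  set B : Matrix α α R := A.updateRow l fun _ => 1 with hB
  -- column operations
  set B' : Matrix α α R := Matrix.of fun i j => if j = l then B i l else B i j - B i l with hB'
  have h1 : B'ᵀ.det = Bᵀ.det := by
    apply Matrix.det_eq_of_forall_row_eq_smul_add_const (fun j => if j = l then 0 else -1) l
      (by simp)
    intro i j
    simp only [transpose_apply, hB', of_apply]
    split_ifs with h
    · rw [h]; ring
    · ring
  rw [det_transpose, det_transpose] at h1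
  -- row operations
  set B'' : Matrix α α R := Matrix.of (update (fun i => redv l (A i)) l (uv R l)) with hB''
  have h2 : B'.det = B''.det := by
    apply Matrix.det_eq_of_forall_row_eq_smul_add_const (fun i => if i = l then 0 else A i l) l
      (by simp)
    intro i j
    simp only [hB', hB'', of_apply, update_self]
    by_cases hi : i = l
    · subst hi
      simp only [update_self, if_true, zero_mul, add_zero, Pi.single_apply, hB,
        updateRow_self, sub_self]
    · rw [update_of_ne hi, hB]
      simp only [updateRow_ne hi, redv, hi, if_false, Pi.single_apply]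
      split_ifs with hj
      · subst hj; ring
      · ring
  change B.det = B''.det
  rw [← h2, h1]

theorem restH_hdet_eq {X₀ : Finset α} (blk : α → ℕ) {l : α} (q : ℕ) : ∀ (A : Matrix α α R),
    restH (hdet l) X₀ blk q A =
      TS (DA R α) X₀ blk (eR R l) q {l} (update (fun i => redv l (A i)) l (uv R l)) := by
  induction q with
  | zero => intro A; exact hdet_eq l A
  | succ q ih =>
    intro A
    rw [restH, TS]
    apply sum_congr rfl
    intro σ hσ
    rw [ih]
    congr 1
    ext i : 1
    by_cases hi : i = l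
    · subst hi; simp [subR]
    · rw [update_of_ne hi]
      simp only [subR, update_of_ne hi, mem_sdiff, mem_singleton, hi, not_false_eq_true, and_true]
      have h1 : (A - pact σ (blockMat R X₀ blk)) i = A i - rowS X₀ blk id (ev R) σ i := by
        ext k
        rw [Matrix.sub_apply, pact_block_row hσ, Pi.sub_apply]
      rw [h1, redv_sub]
      congr 1
      simp only [rowS, id]
      split_ifs
      · rw [redv_sum]; rfl
      · ext k; simp [redv]

/-- The matrix of the fixed blocks. -/
def sumOuter (R : Type*) [CommRing R] (L : Multiset (Finset α)) : Matrix α α R :=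
  (L.map fun b => outer R b).sum

theorem sumOuter_row (L : Multiset (Finset α)) (i : α) :
    (sumOuter R L) i = (L.map fun b => if i ∈ b then vb R b else 0).sum := by
  unfold sumOuter
  induction L using Multiset.induction_on with
  | empty => rfl
  | cons b L ih =>
    rw [Multiset.map_cons, Multiset.sum_cons, Multiset.map_cons, Multiset.sum_cons, ← ih]
    ext k
    by_cases hi : i ∈ b <;> simp [outer, vb, hi]

theorem root_pos {d q s : ℕ} {X : Finset α} {l : α} {b₀ : Finset α} {Fb : Multiset (Finset α)}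
    {x : ℝ} (hd : 3 ≤ d) (hx : 4 * ((d : ℝ) - 1) ≤ x) (hq : q + 1 ≤ d)
    (h : FixedBlocks d X l b₀ Fb) {blk : α → ℕ} (hb : IsPartition d s X blk)
    (hX : X.card = d * s) :
    0 < restH (hdet l) X blk q (x • (1 : Matrix α α ℝ) - sumOuter ℝ (b₀ ::ₘ Fb)) := by
  rw [restH_hdet_eq]
  have h1 : update (fun i => redv l ((x • (1 : Matrix α α ℝ) - sumOuter ℝ (b₀ ::ₘ Fb)) i)) l
      (uv ℝ l) = update (A₀ x l b₀ Fb) l (uv ℝ l) := by
    congr 1
    ext i : 1
    unfold A₀
    congr 1
    rw [← sumOuter_row]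
    ext k
    simp only [Matrix.sub_apply, Matrix.smul_apply, Matrix.one_apply, smul_eq_mul, mul_ite, mul_one, mul_zero, Pi.sub_apply, Pi.smul_apply, Pi.single_apply, eq_comm]
  rw [h1]
  exact root_TS hd hx hq h hb hX

end Vale.Agent.P049
end
end
end

section

section

section

open Polynomial

namespace Vale.Agent.P049

/-- A real polynomial without zeros in the open upper half plane. -/
def RR (f : ℝ[X]) : Prop := ∀ z : ℂ, 0 < z.im → aeval z f ≠ 0

/-- `g = 0`, or `g / f` maps the open upper half plane into itself. -/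
def Below (f g : ℝ[X]) : Prop :=
  g = 0 ∨ ∀ z : ℂ, 0 < z.im → 0 < (aeval z g / aeval z f).im

theorem Below.im_nonneg {f g : ℝ[X]} (h : Below f g) (z : ℂ) (hz : 0 < z.im) :
    0 ≤ (aeval z g / aeval z f).im := by
  rcases h with h | h
  · simp only [h, map_zero, zero_div, Complex.zero_im, Std.le_refl]
  · exact (h z hz).le

theorem aeval_coe (x : ℝ) (f : ℝ[X]) : aeval (x : ℂ) f = ((f.eval x : ℝ) : ℂ) := by
  have := Polynomial.aeval_algebraMap_apply_eq_algebraMap_eval (A := ℂ) x f
  simpa only [Complex.coe_algebraMap] using this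

theorem hasDerivAt_aeval_div (f g : ℝ[X]) (z : ℂ) (hz : aeval z f ≠ 0) :
    ∃ D, HasDerivAt (fun z : ℂ => aeval z g / aeval z f) D z := by
  have hd : DifferentiableAt ℂ (fun z : ℂ => aeval z g / aeval z f) z :=
    DifferentiableAt.div (Polynomial.differentiable_aeval g z)
      (Polynomial.differentiable_aeval f z) hz
  exact ⟨_, hd.hasDerivAt⟩

theorem div_monotoneOn {f g : ℝ[X]} {c : ℝ} (hf : ∀ x, c < x → f.eval x ≠ 0)
    (h : ∀ z : ℂ, 0 < z.im → 0 ≤ (aeval z g / aeval z f).im) :
    MonotoneOn (fun x : ℝ => g.eval x / f.eval x) (Set.Ioi c) := by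
  have key : ∀ x, c < x → ∃ D : ℝ, 0 ≤ D ∧
      HasDerivAt (fun x : ℝ => g.eval x / f.eval x) D x := by
    intro x hx
    have hfx : aeval (x : ℂ) f ≠ 0 := by
      rw [aeval_coe]
      exact_mod_cast hf x hx
    obtain ⟨D, hD⟩ := hasDerivAt_aeval_div f g x hfx
    refine ⟨D.re, ?_, ?_⟩
    · -- vertical derivative
      have h1 : HasDerivAt (fun t : ℝ => (x : ℂ) + t * Complex.I) Complex.I 0 := by
        have := ((Complex.ofRealCLM.hasDerivAt (x := (0:ℝ))).mul_const Complex.I).const_add (x : ℂ)
        simpa using this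
      have h2 : HasDerivAt (fun t : ℝ => aeval ((x : ℂ) + t * Complex.I) g /
          aeval ((x : ℂ) + t * Complex.I) f) (D * Complex.I) 0 := by
        have hD' : HasDerivAt (fun z : ℂ => aeval z g / aeval z f) D
            ((x : ℂ) + ((0:ℝ):ℂ) * Complex.I) := by simpa using hD
        exact hD'.comp (0:ℝ) h1
      have h3 : HasDerivAt (fun t : ℝ => (aeval ((x : ℂ) + t * Complex.I) g /
          aeval ((x : ℂ) + t * Complex.I) f).im) D.re 0 := by
        have := (Complex.imCLM.hasFDerivAt.comp_hasDerivAt (0:ℝ) h2)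
        have e : Complex.imCLM (D * Complex.I) = D.re := by simp
        rw [e] at this
        exact this
      have h4 := h3.hasDerivWithinAt (s := Set.Ioi 0)
      rw [hasDerivWithinAt_iff_tendsto_slope' (by simp)] at h4
      refine ge_of_tendsto h4 ?_
      filter_upwards [self_mem_nhdsWithin] with t ht
      have ht' : (0:ℝ) < t := ht
      rw [slope_def_field]
      have e0 : (aeval ((x : ℂ) + ((0:ℝ):ℂ) * Complex.I) g /
          aeval ((x : ℂ) + ((0:ℝ):ℂ) * Complex.I) f).im = 0 := by
        have : (x : ℂ) + ((0:ℝ):ℂ) * Complex.I = (x : ℂ) := by simp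
        rw [this, aeval_coe, aeval_coe]
        norm_cast
      rw [e0]
      have e1 := h ((x : ℂ) + t * Complex.I) (by simpa only [Complex.add_im, Complex.ofReal_im, Complex.mul_im, Complex.ofReal_re, Complex.I_im, mul_one,     Complex.I_re, mul_zero, add_zero, zero_add] using ht')
      simp only [sub_zero]
      (clear * - e1 ht'; positivity)
    · have h5 := hD.real_of_complex
      refine h5.congr_of_eventuallyEq ?_
      filter_upwards with y
      rw [aeval_coe, aeval_coe]
      norm_cast
  refine monotoneOn_of_deriv_nonneg (convex_Ioi c) ?_ ?_ ?_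
  · intro x hx
    obtain ⟨D, _, hD⟩ := key x hx
    exact hD.continuousAt.continuousWithinAt
  · intro x hx
    rw [interior_Ioi] at hx
    obtain ⟨D, _, hD⟩ := key x hx
    exact hD.differentiableAt.differentiableWithinAt
  · intro x hx
    rw [interior_Ioi] at hx
    obtain ⟨D, hD0, hD⟩ := key x hx
    rw [hD.deriv]; exact hD0

theorem eventually_pos_of_lead {f : ℝ[X]} (hf : 0 < f.leadingCoeff) :
    ∀ᶠ x in Filter.atTop, 0 < f.eval x := by
  rcases lt_or_ge 0 f.degree with hd | hd
  · exact (Polynomial.tendsto_atTop_of_leadingCoeff_nonneg f hd hf.le).eventually_gt_atTop 0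
  · have h1 := Polynomial.eq_C_of_degree_le_zero hd
    have h3 : f.leadingCoeff = f.coeff 0 := by
      rw [h1]; simp
    rw [h3] at hf
    filter_upwards with x
    rw [h1]; simp only [eval_C]
    exact hf

theorem eventually_neg_of_lead {g : ℝ[X]} (hg : g ≠ 0) (hl : g.leadingCoeff ≤ 0) :
    ∀ᶠ x in Filter.atTop, g.eval x < 0 := by
  rcases lt_or_ge 0 g.degree with hd | hd
  · exact (Polynomial.tendsto_atBot_of_leadingCoeff_nonpos g hd hl).eventually_lt_atBot 0
  · have h1 := Polynomial.eq_C_of_degree_le_zero hd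
    have h2 : g.coeff 0 ≠ 0 := by
      intro h0; rw [h0] at h1; simp at h1; exact hg h1
    have h3 : g.leadingCoeff = g.coeff 0 := by
      rw [h1]; simp
    rw [h3] at hl
    filter_upwards with x
    rw [h1]; simp
    exact lt_of_le_of_ne hl h2

/-- If all members of the real line `f + t g` are real rooted and `g` has smaller degree and
nonpositive leading coefficient then `g / f` maps the upper half plane to itself. -/
theorem below_of_line {f g : ℝ[X]} (hfm : 0 < f.leadingCoeff) (hline : ∀ t : ℝ, RR (f + C t * g))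
    (hdeg : g.degree < f.degree) (hl : g.leadingCoeff ≤ 0) : Below f g := by
  by_cases hg : g = 0
  · exact Or.inl hg
  right
  have hf : RR f := by simpa using hline 0
  have hfd : 0 < f.degree := lt_of_le_of_lt (Polynomial.zero_le_degree_iff.mpr hg) hdeg
  -- nonvanishing imaginary part
  have hne : ∀ z : ℂ, 0 < z.im → (aeval z g / aeval z f).im ≠ 0 := by
    have hreal : ∀ z : ℂ, 0 < z.im → ∀ r : ℝ, r ≠ 0 → aeval z g / aeval z f ≠ (r : ℂ) := by
      intro z hz r hr heq
      have hfz := hf z hz
      have h1 : aeval z g = (r : ℂ) * aeval z f := by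
        rw [div_eq_iff hfz] at heq; exact heq
      have h2 := hline (-1 / r) z hz
      apply h2
      have hr' : (r : ℂ) ≠ 0 := by exact_mod_cast hr
      simp only [map_add, map_mul, Polynomial.aeval_C, h1]
      simp only [Complex.coe_algebraMap]
      push_cast
      field_simp
      ring
    intro z hz him
    by_cases hz0 : aeval z g / aeval z f = 0
    · -- open mapping
      have hfz := hf z hz
      have hana : AnalyticAt ℂ (fun z : ℂ => aeval z g / aeval z f) z := by
        have hg' : AnalyticAt ℂ (fun z : ℂ => aeval z g) z :=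
          (Polynomial.differentiable_aeval g).analyticAt z
        have hf' : AnalyticAt ℂ (fun z : ℂ => aeval z f) z :=
          (Polynomial.differentiable_aeval f).analyticAt z
        exact hg'.div hf' hfz
      have hU : {w : ℂ | 0 < w.im} ∈ nhds z :=
        (isOpen_lt continuous_const Complex.continuous_im).mem_nhds hz
      rcases hana.eventually_constant_or_nhds_le_map_nhds with hc | ho
      · -- constant zero near z: g has infinitely many roots
        have h1 : ∀ᶠ w in nhds z, aeval w g = 0 := by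
          filter_upwards [hc, hU] with w hw hw'
          rw [hz0] at hw
          have hfw := hf w hw'
          rcases div_eq_zero_iff.mp hw with h | h
          · exact h
          · exact absurd h hfw
        have h2 : g.map (algebraMap ℝ ℂ) = 0 := by
          apply Polynomial.eq_zero_of_infinite_isRoot
          have h3 : {w : ℂ | aeval w g = 0} ∈ nhds z := h1
          have h4 : ({w : ℂ | aeval w g = 0}).Infinite := infinite_of_mem_nhds z h3
          refine h4.mono ?_
          intro w hw
          simp only [Set.mem_ofPred_eq, Polynomial.IsRoot.def, Polynomial.eval_map]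
          simpa [Polynomial.aeval_def] using hw
        exact hg ((Polynomial.map_eq_zero_iff (algebraMap ℝ ℂ).injective).mp h2)
      · have ho' : nhds (0:ℂ) ≤ Filter.map (fun z : ℂ => aeval z g / aeval z f) (nhds z) := by
          have : aeval z g / aeval z f = 0 := hz0
          rw [← this]; exact ho
        have h1 : (fun z : ℂ => aeval z g / aeval z f) '' {w : ℂ | 0 < w.im} ∈ nhds (0:ℂ) :=
          ho' (Filter.image_mem_map hU)
        have h2 : Filter.Tendsto (fun t : ℝ => (t : ℂ)) (nhdsWithin 0 (Set.Ioi 0)) (nhds (0:ℂ)) := by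
          have : Filter.Tendsto (fun t : ℝ => (t : ℂ)) (nhds 0) (nhds ((0:ℝ):ℂ)) :=
            Complex.continuous_ofReal.tendsto 0
          simpa using this.mono_left nhdsWithin_le_nhds
        have h3 := (h2.eventually h1).and self_mem_nhdsWithin
        obtain ⟨t, ⟨w, hw, hwt⟩, ht⟩ := h3.exists
        exact hreal w hw t (ne_of_gt ht) hwt
    · have h1 : aeval z g / aeval z f = (((aeval z g / aeval z f).re : ℝ) : ℂ) := by
        apply Complex.ext
        · simp
        · simp only [Complex.ofReal_im]; exact him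
      refine hreal z hz _ ?_ h1
      intro h0
      rw [h0] at h1
      exact hz0 (by simpa only [div_eq_zero_iff, Complex.ofReal_zero] using h1)
  have hpre : IsPreconnected {w : ℂ | 0 < w.im} := by
    have : Convex ℝ {w : ℂ | 0 < w.im} := convex_halfSpace_im_gt 0
    exact this.isPreconnected
  have hcont : ContinuousOn (fun z : ℂ => (aeval z g / aeval z f).im) {w : ℂ | 0 < w.im} := by
    intro w hw
    have hfw := hf w hw
    have : ContinuousAt (fun z : ℂ => aeval z g / aeval z f) w :=
      ContinuousAt.div (Polynomial.continuous_aeval g).continuousAt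
        (Polynomial.continuous_aeval f).continuousAt hfw
    exact (Complex.continuous_im.continuousAt.comp this).continuousWithinAt
  by_contra hcon
  push Not at hcon
  obtain ⟨z₀, hz₀, hle⟩ := hcon
  -- then all are negative
  have hneg : ∀ z : ℂ, 0 < z.im → (aeval z g / aeval z f).im < 0 := by
    intro z hz
    by_contra hge
    push Not at hge
    have hmem : (0:ℝ) ∈ Set.Icc ((aeval z₀ g / aeval z₀ f).im) ((aeval z g / aeval z f).im) :=
      ⟨hle, hge⟩
    obtain ⟨w, hw, hw0⟩ := hpre.intermediate_value hz₀ hz hcont hmem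
    exact hne w hw hw0
  have hpos := eventually_pos_of_lead hfm
  obtain ⟨c, hc⟩ := Filter.eventually_atTop.mp hpos
  have hmono := div_monotoneOn (f := f) (g := -g) (c := c)
    (fun x hx => (hc x hx.le).ne') (by
      intro z hz
      have := hneg z hz
      simp only [map_neg, neg_div, Complex.neg_im]
      linarith only [this])
  have hneg' := eventually_neg_of_lead hg hl
  have hlim : Filter.Tendsto (fun x => (-g).eval x / f.eval x) Filter.atTop (nhds 0) :=
    Polynomial.div_tendsto_atTop_zero_of_degree_lt _ _ (by rwa [Polynomial.degree_neg])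
  obtain ⟨x₀, hx₀⟩ := Filter.eventually_atTop.mp hneg'
  set x := max x₀ (c + 1) with hx
  have hxc : c < x := lt_of_lt_of_le (by linarith only []) (le_max_right _ _)
  have hgx : g.eval x < 0 := hx₀ x (le_max_left _ _)
  have hfx : 0 < f.eval x := hc x hxc.le
  have hval : 0 < (-g).eval x / f.eval x := by
    rw [Polynomial.eval_neg]
    apply div_pos <;> linarith only [hfx, hgx]
  have hle2 : (-g).eval x / f.eval x ≤ 0 := by
    refine ge_of_tendsto hlim ?_
    filter_upwards [Filter.eventually_ge_atTop x] with y hy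
    exact hmono (Set.mem_Ioi.mpr hxc) (Set.mem_Ioi.mpr (lt_of_lt_of_le hxc hy)) hy
  linarith only [hval, hle2]

theorem Below.combo {f g₁ g₂ : ℝ[X]} (h₁ : Below f g₁) (h₂ : Below f g₂)
    {θ : ℝ} (h0 : 0 ≤ θ) (h1 : θ ≤ 1) (hf : RR f) :
    RR (f + (C (1 - θ) * g₁ + C θ * g₂)) := by
  intro z hz heq
  have hfz := hf z hz
  have e : aeval z (f + (C (1 - θ) * g₁ + C θ * g₂)) =
      aeval z f * (1 + (((1 - θ : ℝ)) : ℂ) * (aeval z g₁ / aeval z f) +
        ((θ : ℝ) : ℂ) * (aeval z g₂ / aeval z f)) := by
    simp only [map_add, map_mul, Polynomial.aeval_C, Complex.coe_algebraMap]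
    field_simp
    ring
  rw [e] at heq
  have h2 : (1 + (((1 - θ : ℝ)) : ℂ) * (aeval z g₁ / aeval z f) +
        ((θ : ℝ) : ℂ) * (aeval z g₂ / aeval z f)) = 0 := by
    rcases mul_eq_zero.mp heq with h | h
    · exact absurd h hfz
    · exact h
  have him := congrArg Complex.im h2
  have hre := congrArg Complex.re h2
  simp only [Complex.add_im, Complex.one_im, Complex.re_ofReal_mul, Complex.im_ofReal_mul,
    Complex.zero_im, Complex.add_re, Complex.one_re, Complex.zero_re] at him hre
  have a1 := h₁.im_nonneg z hz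
  have a2 := h₂.im_nonneg z hz
  have b1 : (1 - θ) * (aeval z g₁ / aeval z f).im = 0 := by nlinarith only [h1, a1, him, h0, a2]
  have b2 : θ * (aeval z g₂ / aeval z f).im = 0 := by nlinarith only [him, b1]
  have c1 : (1 - θ) * (aeval z g₁ / aeval z f).re = 0 := by
    rcases h₁ with h | h
    · simp [h]
    · have := h z hz
      rcases mul_eq_zero.mp b1 with h' | h'
      · rw [h']; simp
      · exact absurd h' this.ne'
  have c2 : θ * (aeval z g₂ / aeval z f).re = 0 := by
    rcases h₂ with h | h
    · simp [h]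
    · have := h z hz
      rcases mul_eq_zero.mp b2 with h' | h'
      · rw [h']; simp
      · exact absurd h' this.ne'
  rw [c1, c2] at hre
  norm_num at hre

end Vale.Agent.P049
end
end
end

section

section

section

open Polynomial Matrix Equiv

namespace Vale.Agent.P049

section Det

variable {R V : Type*} [CommRing R] [Fintype V] [DecidableEq V]

theorem det_add_smul_rankOne (N : Matrix V V R) (u v : V → R) (t : R) :
    (N + t • vecMulVec u v).det = N.det + t * ((N + vecMulVec u v).det - N.det) := by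
  set B : Matrix (V ⊕ Unit) (V ⊕ Unit) R :=
    fromBlocks N 0 (replicateRow Unit v) 1 with hB
  have h1 : ∀ s : R, (N + s • vecMulVec u v).det =
      (B.updateCol (Sum.inr ()) (Sum.elim (fun i => -(s * u i)) (fun _ => 1))).det := by
    intro s
    have e1 : B.updateCol (Sum.inr ()) (Sum.elim (fun i => -(s * u i)) (fun _ => 1)) =
        fromBlocks N (replicateCol Unit (fun i => -(s * u i))) (replicateRow Unit v) 1 := by
      ext i j
      rcases i with i | i <;> rcases j with j | j <;>
        simp [hB]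
    rw [e1, Matrix.det_fromBlocks_one₂₂]
    congr 1
    ext i j
    simp only [Matrix.add_apply, Matrix.smul_apply, vecMulVec_apply, smul_eq_mul, Matrix.sub_apply, Matrix.mul_apply, Finset.univ_unique, PUnit.default_eq_unit, replicateCol_apply, replicateRow_apply, neg_mul, Finset.sum_neg_distrib, Finset.sum_const, Finset.card_singleton, one_smul, sub_neg_eq_add, add_right_inj]
    ring
  have h2 : (B.updateCol (Sum.inr ()) (Sum.elim (fun i => -(t * u i)) (fun _ => 1))).det =
      t * (B.updateCol (Sum.inr ()) (Sum.elim (fun i => -((1:R) * u i)) (fun _ => 1))).det +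
      (1 - t) * (B.updateCol (Sum.inr ()) (Sum.elim (fun i => -((0:R) * u i)) (fun _ => 1))).det := by
    rw [← Matrix.det_updateCol_smul, ← Matrix.det_updateCol_smul, ← Matrix.det_updateCol_add]
    congr 2
    ext i
    rcases i with i | i <;> simp
  have h3 := h1 t
  have h4 := h1 1
  have h5 := h1 0
  rw [h2, ← h4, ← h5] at h3
  simp only [one_smul, zero_smul, add_zero] at h3
  rw [h3]; ring

theorem charpoly_add_smul_rankOne (M : Matrix V V R) (u v : V → R) (t : R) :
    (M + t • vecMulVec u v).charpoly =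
      M.charpoly + C t * ((M + vecMulVec u v).charpoly - M.charpoly) := by
  have key : ∀ s : R, (M + s • vecMulVec u v).charpoly =
      (charmatrix M + (-C s) • vecMulVec (fun i => C (u i)) (fun i => C (v i))).det := by
    intro s
    unfold Matrix.charpoly
    congr 1
    refine Matrix.ext (fun i j => ?_)
    simp only [charmatrix_apply, Matrix.add_apply, Matrix.smul_apply, vecMulVec_apply, smul_eq_mul,
      map_add, map_mul]
    ring
  have h1 := key t
  have h2 := key 1
  rw [det_add_smul_rankOne] at h1 h2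
  rw [one_smul] at h2
  rw [h1, h2]
  simp only [map_one]
  unfold Matrix.charpoly
  ring

end Det

section Refl

variable {V : Type*} [Fintype V] [DecidableEq V]

/-- conjugation of `M` by `1 - w wᵀ` (a reflection when `w ⬝ᵥ w = 2`) -/
def conjRefl (w : V → ℝ) (M : Matrix V V ℝ) : Matrix V V ℝ :=
  (1 - vecMulVec w w) * M * (1 - vecMulVec w w)

omit [Fintype V] [DecidableEq V] in
theorem isSymm_vecMulVec (v : V → ℝ) : (vecMulVec v v).IsSymm := by
  unfold Matrix.IsSymm
  rw [transpose_vecMulVec]

/-- the auxiliary vector `b` with `M - s M s = w bᵀ + b wᵀ` -/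
noncomputable def bvec (w : V → ℝ) (M : Matrix V V ℝ) : V → ℝ := M *ᵥ w - ((w ⬝ᵥ M *ᵥ w) / 2) • w

theorem conjRefl_eq (w : V → ℝ) {M : Matrix V V ℝ} (hM : M.IsSymm) :
    conjRefl w M = M - (vecMulVec w (bvec w M) + vecMulVec (bvec w M) w) := by
  have h1 : w ᵥ* M = M *ᵥ w := by
    rw [← Matrix.mulVec_transpose, hM.eq]
  have e1 : vecMulVec w w * M = vecMulVec w (M *ᵥ w) := by rw [vecMulVec_mul, h1]
  have e2 : M * vecMulVec w w = vecMulVec (M *ᵥ w) w := by rw [mul_vecMulVec]
  have e3 : vecMulVec w w * M * vecMulVec w w = (w ⬝ᵥ M *ᵥ w) • vecMulVec w w := by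
    rw [e1, vecMulVec_mul_vecMulVec, dotProduct_comm, vecMulVec_smul]
  unfold conjRefl
  have : (1 - vecMulVec w w) * M * (1 - vecMulVec w w) =
      M - vecMulVec w w * M - M * vecMulVec w w + vecMulVec w w * M * vecMulVec w w := by
    noncomm_ring
  rw [this, e3, e1, e2]
  unfold bvec
  ext i j
  simp only [Matrix.add_apply, Matrix.sub_apply, vecMulVec_apply, Matrix.smul_apply, smul_eq_mul, Pi.sub_apply, Pi.smul_apply]
  ring

theorem conjRefl_decomp (w : V → ℝ) {M : Matrix V V ℝ} (hM : M.IsSymm) :
    M = (M - (1/2 : ℝ) • vecMulVec (w + bvec w M) (w + bvec w M)) +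
        (1/2 : ℝ) • vecMulVec (w + bvec w M) (w + bvec w M) ∧
    conjRefl w M = (M - (1/2 : ℝ) • vecMulVec (w + bvec w M) (w + bvec w M)) +
        (1/2 : ℝ) • vecMulVec (w - bvec w M) (w - bvec w M) := by
  constructor
  · simp
  · rw [conjRefl_eq w hM]
    ext i j
    simp only [Matrix.sub_apply, Matrix.add_apply, vecMulVec_apply, one_div, Matrix.smul_apply, Pi.add_apply, smul_eq_mul, Pi.sub_apply]
    ring

theorem stable_charpoly {M : Matrix V V ℝ} (hM : M.IsSymm) : RR M.charpoly := by
  have hH : M.IsHermitian := by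
    unfold Matrix.IsHermitian
    rw [Matrix.conjTranspose_eq_transpose_of_trivial]; exact hM
  intro z hz
  rw [hH.charpoly_eq, map_prod]
  apply Finset.prod_ne_zero_iff.mpr
  intro i _ h
  simp at h
  have := congrArg Complex.im h
  simp at this
  linarith only [hz, this]

omit [Fintype V] in
theorem mulVec_swap (a b : V) (hab : a ≠ b) :
    (1 - vecMulVec (Pi.single a 1 - Pi.single b 1) (Pi.single a 1 - Pi.single b 1) :
      Matrix V V ℝ) = (1 : Matrix V V ℝ).submatrix (swap a b) id := by
  ext x y
  simp only [Matrix.sub_apply, Matrix.one_apply, vecMulVec_apply, Pi.sub_apply, Pi.single_apply, submatrix_apply, id]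
  by_cases hxa : x = a
  · subst hxa
    rw [swap_apply_left]
    by_cases hy : y = x
    · subst hy; simp [hab, Ne.symm hab]
    · by_cases hy' : y = b
      · subst hy'; simp [hab, hy]
      · simp [hy, hy', Ne.symm hy, Ne.symm hy', hab]
  · by_cases hxb : x = b
    · subst hxb
      rw [swap_apply_right]
      by_cases hy : y = a
      · subst hy; simp [hab, Ne.symm hab]
      · by_cases hy' : y = x
        · subst hy'; simp [hxa, Ne.symm hxa]
        · simp [hy, hy', Ne.symm hy, Ne.symm hy', hxa]
    · rw [swap_apply_of_ne_of_ne hxa hxb]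
      simp [hxa, hxb]

theorem conjRefl_swap (a b : V) (hab : a ≠ b) (M : Matrix V V ℝ) :
    conjRefl (Pi.single a 1 - Pi.single b 1) M = M.submatrix (swap a b) (swap a b) := by
  unfold conjRefl
  rw [mulVec_swap a b hab]
  have h2 : (1 : Matrix V V ℝ).submatrix (swap a b) id =
      (1 : Matrix V V ℝ).submatrix id (swap a b) := by
    ext x y
    simp only [Matrix.submatrix_apply, id, Matrix.one_apply]
    congr 1
    rw [eq_iff_iff]
    constructor
    · intro h; rw [← h]; simp
    · intro h; rw [h]; simp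
  conv_lhs => rw [h2]
  nth_rewrite 1 [← h2]
  ext x y
  simp only [Matrix.mul_apply, submatrix_apply, Matrix.one_apply, id_eq, ite_mul, one_mul, zero_mul, Finset.sum_ite_eq, Finset.mem_univ, ↓reduceIte, mul_ite, mul_one, mul_zero, Finset.sum_ite_eq']

end Refl

end Vale.Agent.P049
end
end
end

section

section

section

/-! The class `Nice` of functionals of a symmetric matrix with real rooted values. -/

open Polynomial Matrix Finset

namespace Vale.Agent.P049

variable {α : Type*} [Fintype α]

structure Nice (N : ℕ) (G : Matrix α α ℝ → ℝ[X]) : Prop where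
  rr : ∀ B, B.IsSymm → RR (G B)
  deg : ∀ B, B.IsSymm → (G B).natDegree = N
  lead : ∃ c > 0, ∀ B, B.IsSymm → (G B).leadingCoeff = c
  tr : ∃ c > 0, ∃ κ, ∀ B, B.IsSymm → 0 < N → (G B).coeff (N - 1) = c * (κ - B.trace)
  aff : ∀ B, B.IsSymm → ∀ v : α → ℝ, ∃ H : ℝ[X], (H = 0 ∨ H.natDegree < N) ∧
    ∀ t : ℝ, G (B + t • vecMulVec v v) = G B + C t * H

theorem degree_C_mul_le' (a : ℝ) (p : ℝ[X]) : (C a * p).degree ≤ p.degree := by
  by_cases ha : a = 0
  · simp only [ha, map_zero, zero_mul, degree_zero, bot_le]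
  · rw [Polynomial.degree_C_mul ha]

theorem small_iff {H : ℝ[X]} {N : ℕ} : (H = 0 ∨ H.natDegree < N) ↔ H.degree < (N : WithBot ℕ) := by
  by_cases h : H = 0
  · simp only [h, natDegree_zero, true_or, degree_zero, WithBot.bot_lt_natCast]
  · rw [Polynomial.degree_eq_natDegree h]
    simp only [h, false_or, Nat.cast_lt]

theorem small_add {H K : ℝ[X]} {N : ℕ} (hH : H.degree < (N : WithBot ℕ))
    (hK : K.degree < (N : WithBot ℕ)) (a b : ℝ) : (C a * H + C b * K).degree < (N : WithBot ℕ) := by
  refine lt_of_le_of_lt (Polynomial.degree_add_le _ _) (max_lt ?_ ?_)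
  · exact lt_of_le_of_lt (degree_C_mul_le' _ _) hH
  · exact lt_of_le_of_lt (degree_C_mul_le' _ _) hK

theorem lead_of_coeff {p : ℝ[X]} {N : ℕ} {c : ℝ} (hc : 0 < c) (h1 : p.natDegree ≤ N)
    (h2 : p.coeff N = c) : p.natDegree = N ∧ p.leadingCoeff = c := by
  have h3 : N ≤ p.natDegree := Polynomial.le_natDegree_of_ne_zero (by rw [h2]; exact hc.ne')
  have h4 : p.natDegree = N := le_antisymm h1 h3
  exact ⟨h4, by rw [Polynomial.leadingCoeff, h4, h2]⟩

theorem Nice.mk' {N : ℕ} {G : Matrix α α ℝ → ℝ[X]} (rr : ∀ B, B.IsSymm → RR (G B))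
    (dle : ∀ B, B.IsSymm → (G B).natDegree ≤ N)
    (co : ∃ c > 0, ∀ B, B.IsSymm → (G B).coeff N = c)
    (tr : ∃ c > 0, ∃ κ, ∀ B, B.IsSymm → 0 < N → (G B).coeff (N - 1) = c * (κ - B.trace))
    (aff : ∀ B, B.IsSymm → ∀ v : α → ℝ, ∃ H : ℝ[X], H.degree < (N : WithBot ℕ) ∧
    ∀ t : ℝ, G (B + t • vecMulVec v v) = G B + C t * H) : Nice N G := by
  obtain ⟨c, hc, hco⟩ := co
  refine ⟨rr, fun B hB => (lead_of_coeff hc (dle B hB) (hco B hB)).1,
    ⟨c, hc, fun B hB => (lead_of_coeff hc (dle B hB) (hco B hB)).2⟩, tr, ?_⟩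
  intro B hB v
  obtain ⟨H, hH, h⟩ := aff B hB v
  exact ⟨H, small_iff.mpr hH, h⟩

namespace Nice

variable {N : ℕ} {G : Matrix α α ℝ → ℝ[X]}

theorem co (h : Nice N G) : ∃ c > 0, ∀ B, B.IsSymm → (G B).coeff N = c := by
  obtain ⟨c, hc, h1⟩ := h.lead
  refine ⟨c, hc, fun B hB => ?_⟩
  rw [← h1 B hB, Polynomial.leadingCoeff, h.deg B hB]

theorem aff' (h : Nice N G) {B : Matrix α α ℝ} (hB : B.IsSymm) (v : α → ℝ) :
    ∃ H : ℝ[X], H.degree < (N : WithBot ℕ) ∧
      ∀ t : ℝ, G (B + t • vecMulVec v v) = G B + C t * H := by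
  obtain ⟨H, hH, h⟩ := h.aff B hB v
  exact ⟨H, small_iff.mp hH, h⟩

theorem ne_zero (h : Nice N G) {B : Matrix α α ℝ} (hB : B.IsSymm) : G B ≠ 0 := by
  obtain ⟨c, hc, h1⟩ := h.lead
  intro h0
  have := h1 B hB
  rw [h0, Polynomial.leadingCoeff_zero] at this
  exact hc.ne this

theorem degree_eq (h : Nice N G) {B : Matrix α α ℝ} (hB : B.IsSymm) :
    (G B).degree = (N : WithBot ℕ) := by
  rw [Polynomial.degree_eq_natDegree (h.ne_zero hB), h.deg B hB]

theorem scale (h : Nice N G) {a : ℝ} (ha : 0 < a) : Nice N (fun B => C a * G B) := by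
  apply Nice.mk'
  · intro B hB z hz
    simp only [map_mul, Polynomial.aeval_C, Complex.coe_algebraMap]
    apply mul_ne_zero
    · exact_mod_cast ha.ne'
    · exact h.rr B hB z hz
  · intro B hB
    rw [Polynomial.natDegree_C_mul ha.ne', h.deg B hB]
  · obtain ⟨c, hc, h1⟩ := h.co
    exact ⟨a * c, mul_pos ha hc, fun B hB => by rw [Polynomial.coeff_C_mul, h1 B hB]⟩
  · obtain ⟨c, hc, κ, h1⟩ := h.tr
    refine ⟨a * c, mul_pos ha hc, κ, fun B hB hN => ?_⟩
    rw [Polynomial.coeff_C_mul, h1 B hB hN]; ring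
  · intro B hB v
    obtain ⟨H, hH, h1⟩ := h.aff' hB v
    refine ⟨C a * H, lt_of_le_of_lt (degree_C_mul_le' _ _) hH, fun t => ?_⟩
    rw [h1 t]; ring

theorem translate (h : Nice N G) {F : Matrix α α ℝ} (hF : F.IsSymm) :
    Nice N (fun B => G (F + B)) := by
  apply Nice.mk'
  · intro B hB; exact h.rr _ (hF.add hB)
  · intro B hB; exact (h.deg _ (hF.add hB)).le
  · obtain ⟨c, hc, h1⟩ := h.co
    exact ⟨c, hc, fun B hB => h1 _ (hF.add hB)⟩
  · obtain ⟨c, hc, κ, h1⟩ := h.tr
    refine ⟨c, hc, κ - F.trace, fun B hB hN => ?_⟩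
    rw [h1 _ (hF.add hB) hN, Matrix.trace_add]
    ring
  · intro B hB v
    obtain ⟨H, hH, h1⟩ := h.aff' (hF.add hB) v
    refine ⟨H, hH, fun t => ?_⟩
    rw [← add_assoc]
    exact h1 t

variable [DecidableEq α]

omit [DecidableEq α] in
theorem below_aux (hF : Nice N G) {B : Matrix α α ℝ} (hB : B.IsSymm) (u : α → ℝ)
    {H : ℝ[X]} (hH : H.degree < (N : WithBot ℕ))
    (h1 : ∀ t : ℝ, G (B + t • vecMulVec u u) = G B + C t * H)
    {c : ℝ} (hc : 0 < c) : Below (G B) (C c * H) := by
  have hsym : ∀ t : ℝ, (B + t • vecMulVec u u).IsSymm :=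
    fun t => hB.add ((isSymm_vecMulVec u).smul t)
  have hlead : 0 < (G B).leadingCoeff := by
    obtain ⟨c', hc', h2⟩ := hF.lead
    rw [h2 B hB]; exact hc'
  by_cases hH0 : H = 0
  · left; rw [hH0, mul_zero]
  have hN : 0 < N := by
    have := small_iff.mpr hH
    rcases this with h | h
    · exact absurd h hH0
    · omega
  apply below_of_line hlead _ _ _
  · intro t
    have h2 : G B + C t * (C c * H) = G (B + (t * c) • vecMulVec u u) := by
      rw [h1, map_mul]; ring
    rw [h2]
    exact hF.rr _ (hsym _)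
  · rw [Polynomial.degree_C_mul hc.ne', hF.degree_eq hB]
    exact hH
  · obtain ⟨c', hc', κ, h2⟩ := hF.tr
    have h3 := h2 _ (hsym 1) hN
    rw [h1 1, Polynomial.coeff_add, h2 B hB hN, Matrix.trace_add, one_smul,
      Matrix.trace_vecMulVec] at h3
    have hco : H.coeff (N - 1) = - (c' * (u ⬝ᵥ u)) := by
      have : (C 1 * H).coeff (N - 1) = H.coeff (N - 1) := by simp only [map_one, one_mul]
      rw [this] at h3
      linarith only [h3]
    have hupos : 0 ≤ u ⬝ᵥ u := Finset.sum_nonneg (fun i _ => mul_self_nonneg (u i))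
    rcases hupos.lt_or_eq with h | h
    · have hne : H.coeff (N - 1) ≠ 0 := by
        rw [hco]
        have := mul_pos hc' h
        linarith only [this]
      have hnat : H.natDegree = N - 1 := by
        apply le_antisymm
        · have := small_iff.mpr hH
          rcases this with h | h
          · exact absurd h hH0
          · omega
        · exact Polynomial.le_natDegree_of_ne_zero hne
      rw [Polynomial.leadingCoeff_mul, Polynomial.leadingCoeff_C, Polynomial.leadingCoeff, hnat,
        hco]
      have := mul_pos hc (mul_pos hc' h)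
      linarith only [this]
    · exfalso
      have hu : u = 0 := dotProduct_self_eq_zero.mp h.symm
      have h4 := h1 1
      rw [hu] at h4
      simp only [vecMulVec_zero, smul_zero, add_zero, map_one, one_mul, left_eq_add] at h4
      exact hH0 h4

/-- decomposition of the two values through a common lower interlacer -/
theorem decomp (hF : Nice N G) {A : Matrix α α ℝ} (hA : A.IsSymm) (w : α → ℝ) :
    ∃ f g₁ g₂ : ℝ[X], RR f ∧ Below f g₁ ∧ Below f g₂ ∧ G A = f + g₁ ∧
      G (conjRefl w A) = f + g₂ := by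
  obtain ⟨e1, e2⟩ := conjRefl_decomp w hA
  set u := w + bvec w A
  set v := w - bvec w A
  set B := A - (1/2 : ℝ) • vecMulVec u u with hBdef
  have hB : B.IsSymm := by
    rw [hBdef]; exact hA.sub ((isSymm_vecMulVec u).smul _)
  obtain ⟨H₁, d1, a1⟩ := hF.aff' hB u
  obtain ⟨H₂, d2, a2⟩ := hF.aff' hB v
  have b1 := hF.below_aux hB u d1 a1 (c := 1/2) (by norm_num)
  have b2 := hF.below_aux hB v d2 a2 (c := 1/2) (by norm_num)
  refine ⟨G B, _, _, hF.rr _ hB, b1, b2, ?_, ?_⟩
  · rw [← a1 (1/2), ← e1]
  · rw [← a2 (1/2), ← e2]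

theorem two (h : Nice N G) {a b : α} (hab : a ≠ b) {θ : ℝ} (h0 : 0 ≤ θ) (h1 : θ ≤ 1) :
    Nice N (fun B => C (1 - θ) * G B + C θ * G (pact (Equiv.swap a b) B)) := by
  apply Nice.mk'
  · intro B hB
    obtain ⟨f, g₁, g₂, hfs, b1, b2, e1, e2⟩ := h.decomp hB (Pi.single a 1 - Pi.single b 1)
    have e3 : pact (Equiv.swap a b) B = conjRefl (Pi.single a 1 - Pi.single b 1) B := by
      rw [conjRefl_swap a b hab]
      unfold pact
      rw [Equiv.symm_swap]
    have : C (1 - θ) * G B + C θ * G (pact (Equiv.swap a b) B) =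
        f + (C (1 - θ) * g₁ + C θ * g₂) := by
      rw [e3, e1, e2, map_sub, map_one]; ring
    rw [this]
    exact b1.combo b2 h0 h1 hfs
  · intro B hB
    refine (Polynomial.natDegree_add_le _ _).trans (max_le ?_ ?_)
    · refine (Polynomial.natDegree_C_mul_le _ _).trans ?_
      exact (h.deg B hB).le
    · refine (Polynomial.natDegree_C_mul_le _ _).trans ?_
      exact (h.deg _ (pact_isSymm _ hB)).le
  · obtain ⟨c, hc, h1⟩ := h.co
    refine ⟨c, hc, fun B hB => ?_⟩
    rw [Polynomial.coeff_add, Polynomial.coeff_C_mul, Polynomial.coeff_C_mul, h1 B hB,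
      h1 _ (pact_isSymm _ hB)]
    ring
  · obtain ⟨c, hc, κ, h1⟩ := h.tr
    refine ⟨c, hc, κ, fun B hB hN => ?_⟩
    rw [Polynomial.coeff_add, Polynomial.coeff_C_mul, Polynomial.coeff_C_mul, h1 B hB hN,
      h1 _ (pact_isSymm _ hB) hN, trace_pact]
    ring
  · intro B hB v
    obtain ⟨H, hH, h2⟩ := h.aff' hB v
    obtain ⟨K, hK, h3⟩ := h.aff' (pact_isSymm (Equiv.swap a b) hB) (v ∘ (Equiv.swap a b).symm)
    refine ⟨C (1 - θ) * H + C θ * K, small_add hH hK _ _, fun t => ?_⟩
    rw [pact_add_smul, h2 t, h3 t]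
    ring

/-- the star average, with an averaging assumption for the smaller set -/
theorem star_aux (X : Finset α) (x₀ : α) (hx : x₀ ∈ X)
    (havg : ∀ G : Matrix α α ℝ → ℝ[X], Nice N G →
      Nice N (fun B => ∑ ρ ∈ permsOfFinset (X.erase x₀), G (pact ρ B)))
    (S : Finset α) (hS : S ⊆ X.erase x₀) :
    ∀ (ν : α → ℝ), (∀ x ∈ insert x₀ S, 0 ≤ ν x) → 0 < ∑ x ∈ insert x₀ S, ν x →
    ∀ G : Matrix α α ℝ → ℝ[X], Nice N G →
    Nice N (fun B => ∑ a ∈ insert x₀ S, C (ν a) *
      ∑ ρ ∈ permsOfFinset (X.erase x₀), G (pact (Equiv.swap x₀ a * ρ) B)) := by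
  induction S using Finset.induction_on with
  | empty =>
    intro ν h0 h1 G h
    have e : (fun B => ∑ a ∈ insert x₀ (∅ : Finset α), C (ν a) *
      ∑ ρ ∈ permsOfFinset (X.erase x₀), G (pact (Equiv.swap x₀ a * ρ) B)) =
      fun B => C (ν x₀) * ∑ ρ ∈ permsOfFinset (X.erase x₀), G (pact ρ B) := by
      funext B
      have e5 : ∀ ρ : Equiv.Perm α, (Equiv.refl α : Equiv.Perm α) * ρ = ρ := fun ρ => rfl
      simp only [insert_empty_eq, sum_singleton, Equiv.swap_self, e5]
    rw [e]
    have h2 : 0 < ν x₀ := by simpa using h1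
    exact (havg G h).scale h2
  | insert b S hb ih =>
    intro ν h0 h1 G h
    have hbX : b ∈ X.erase x₀ := hS (Finset.mem_insert_self _ _)
    have hbx : b ≠ x₀ := (Finset.mem_erase.mp hbX).1
    have hbX' : b ∈ X := (Finset.mem_erase.mp hbX).2
    have hS' : S ⊆ X.erase x₀ := (Finset.subset_insert _ _).trans hS
    have hx₀S : x₀ ∉ S := fun h' => (Finset.mem_erase.mp (hS' h')).1 rfl
    have hbi : b ∉ insert x₀ S := by
      rw [Finset.mem_insert]; push Not; exact ⟨hbx, hb⟩
    -- new weights
    set ν' : α → ℝ := Function.update ν x₀ (ν x₀ + ν b) with hν'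
    set θ : ℝ := ν b / (ν x₀ + ν b) with hθ
    have hνb : 0 ≤ ν b := h0 b (by simp)
    have hνx : 0 ≤ ν x₀ := h0 x₀ (by simp)
    have t0 : 0 ≤ θ := div_nonneg hνb (add_nonneg hνx hνb)
    have t1 : θ ≤ 1 := by
      apply div_le_one_of_le₀ _ (add_nonneg hνx hνb)
      linarith
    have hθ1 : θ * (ν x₀ + ν b) = ν b := by
      rcases eq_or_ne (ν x₀ + ν b) 0 with h2 | h2
      · have : ν b = 0 := by linarith only [hνb, hνx, h2]
        rw [h2, this]; simp
      · rw [hθ]; (clear * - h2; field_simp)
    have hθ2 : (1 - θ) * (ν x₀ + ν b) = ν x₀ := by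
      rw [sub_mul, hθ1]; ring
    have hν'x : ν' x₀ = ν x₀ + ν b := by rw [hν']; simp
    have hν'o : ∀ a ∈ S, ν' a = ν a := by
      intro a ha
      rw [hν', Function.update_of_ne]
      rintro rfl; exact hx₀S ha
    have key := ih hS' ν' (by
        intro a ha
        rw [Finset.mem_insert] at ha
        rcases ha with rfl | ha
        · rw [hν'x]; linarith only [hνb, hνx]
        · rw [hν'o a ha]; exact h0 a (by simp [ha]))
      (by
        rw [Finset.sum_insert hx₀S, hν'x, Finset.sum_congr rfl hν'o]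
        rw [Finset.insert_comm, Finset.sum_insert hbi, Finset.sum_insert hx₀S] at h1
        linarith only [h1]) _ (h.two (Ne.symm hbx) t0 t1)
    refine cast (congrArg (Nice N) ?_) key
    funext B
    rw [Finset.sum_insert hx₀S]
    rw [Finset.insert_comm x₀ b S, Finset.sum_insert hbi, Finset.sum_insert hx₀S]
    have e1 : ∀ a ∈ S, C (ν' a) * ∑ ρ ∈ permsOfFinset (X.erase x₀),
        (C (1 - θ) * G (pact (Equiv.swap x₀ a * ρ) B) +
          C θ * G (pact (Equiv.swap x₀ b) (pact (Equiv.swap x₀ a * ρ) B))) =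
        C (ν a) * ∑ ρ ∈ permsOfFinset (X.erase x₀), G (pact (Equiv.swap x₀ a * ρ) B) := by
      intro a ha
      have haX : a ∈ X.erase x₀ := hS' ha
      have hax : a ≠ x₀ := (Finset.mem_erase.mp haX).1
      have haX' : a ∈ X := (Finset.mem_erase.mp haX).2
      have hab : a ≠ b := by rintro rfl; exact hb ha
      rw [hν'o a ha]
      congr 1
      rw [Finset.sum_add_distrib, ← Finset.mul_sum, ← Finset.mul_sum]
      have e2 := sum_coset (g := Equiv.swap x₀ b * Equiv.swap x₀ a) hx
        (perms_mul (perms_swap hx hbX') (perms_swap hx haX')) (fun σ => G (pact σ B))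
      have e3 : (Equiv.swap x₀ b * Equiv.swap x₀ a) x₀ = a := by
        rw [Equiv.Perm.mul_apply, Equiv.swap_apply_left, Equiv.swap_apply_of_ne_of_ne hax hab]
      rw [e3] at e2
      simp only [pact_mul]
      simp only [mul_assoc] at e2 ⊢
      rw [e2, map_sub, map_one]
      ring
    rw [Finset.sum_congr rfl e1, hν'x]
    have e4 := sum_coset (g := Equiv.swap x₀ b) hx (perms_swap hx hbX') (fun σ => G (pact σ B))
    rw [Equiv.swap_apply_left] at e4
    rw [Finset.sum_add_distrib, ← Finset.mul_sum, ← Finset.mul_sum]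
    simp only [pact_mul, Equiv.swap_self]
    have e5 : ∀ ρ : Equiv.Perm α, (Equiv.refl α : Equiv.Perm α) * ρ = ρ := fun ρ => rfl
    simp only [e5]
    have e6 : C (ν x₀ + ν b) * (C (1 - θ) * ∑ ρ ∈ permsOfFinset (X.erase x₀), G (pact ρ B) +
        C θ * ∑ ρ ∈ permsOfFinset (X.erase x₀), G (pact (Equiv.swap x₀ b * ρ) B)) =
        C ((1 - θ) * (ν x₀ + ν b)) * ∑ ρ ∈ permsOfFinset (X.erase x₀), G (pact ρ B) +
        C (θ * (ν x₀ + ν b)) *
          ∑ ρ ∈ permsOfFinset (X.erase x₀), G (pact (Equiv.swap x₀ b * ρ) B) := by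
      simp only [map_mul]; ring
    rw [e6, hθ1, hθ2]
    ring

theorem star_of_avg (X : Finset α) (x₀ : α) (hx : x₀ ∈ X)
    (havg : ∀ G : Matrix α α ℝ → ℝ[X], Nice N G →
      Nice N (fun B => ∑ ρ ∈ permsOfFinset (X.erase x₀), G (pact ρ B)))
    (ν : α → ℝ) (h0 : ∀ x ∈ X, 0 ≤ ν x) (h1 : 0 < ∑ x ∈ X, ν x) (h : Nice N G) :
    Nice N (fun B => ∑ a ∈ X, C (ν a) *
      ∑ ρ ∈ permsOfFinset (X.erase x₀), G (pact (Equiv.swap x₀ a * ρ) B)) := by
  have := star_aux X x₀ hx havg (X.erase x₀) (subset_refl _) ν
    (by rw [Finset.insert_erase hx]; exact h0) (by rw [Finset.insert_erase hx]; exact h1) G h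
  rw [Finset.insert_erase hx] at this
  exact this

theorem avg (X : Finset α) : ∀ G : Matrix α α ℝ → ℝ[X], Nice N G →
    Nice N (fun B => ∑ σ ∈ permsOfFinset X, G (pact σ B)) := by
  induction X using Finset.induction_on with
  | empty =>
    intro G h
    have e : (fun B => ∑ σ ∈ permsOfFinset (∅ : Finset α), G (pact σ B)) = G := by
      funext B
      rw [perms_empty, Finset.sum_singleton, pact_one]
    rw [e]
    exact h
  | insert a Y ha ih =>
    intro G h
    have ha' : a ∈ insert a Y := Finset.mem_insert_self _ _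
    have he : (insert a Y).erase a = Y := Finset.erase_insert ha
    have := star_of_avg (N := N) (G := G) (insert a Y) a ha' (by rw [he]; exact ih) (fun _ => 1)
      (fun _ _ => zero_le_one) (by
        rw [Finset.sum_const, nsmul_eq_mul, mul_one, Nat.cast_pos, Finset.card_pos]
        exact ⟨a, ha'⟩) h
    refine cast (congrArg (Nice N) ?_) this
    funext B
    rw [sum_perms ha' (fun σ => G (pact σ B))]
    simp only [map_one, erase_insert_eq_erase, one_mul]

/-- star average with arbitrary nonnegative weights -/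
theorem star (h : Nice N G) (X : Finset α) (x₀ : α)
    (hx : x₀ ∈ X) (ν : α → ℝ) (h0 : ∀ x ∈ X, 0 ≤ ν x) (h1 : 0 < ∑ x ∈ X, ν x) :
    Nice N (fun B => ∑ a ∈ X, C (ν a) *
      ∑ ρ ∈ permsOfFinset (X.erase x₀), G (pact (Equiv.swap x₀ a * ρ) B)) :=
  star_of_avg X x₀ hx (avg (X.erase x₀)) ν h0 h1 h

theorem sumPerms (h : Nice N G) (X : Finset α) {B₀ : Matrix α α ℝ} (hB : B₀.IsSymm) :
    Nice N (fun F => ∑ σ ∈ permsOfFinset X, G (F + pact σ B₀)) := by
  have hne : 0 < (permsOfFinset X).card := Finset.card_pos.mpr ⟨1, perms_one⟩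
  have hs : ∀ (σ : Equiv.Perm α) (F : Matrix α α ℝ), F.IsSymm → (F + pact σ B₀).IsSymm :=
    fun σ F hF => hF.add (pact_isSymm σ hB)
  apply Nice.mk'
  · intro F hF
    exact (avg X _ (h.translate hF)).rr B₀ hB
  · intro F hF
    apply Polynomial.natDegree_sum_le_of_forall_le
    intro σ _
    exact (h.deg _ (hs σ F hF)).le
  · obtain ⟨c, hc, h1⟩ := h.co
    refine ⟨(permsOfFinset X).card * c, by (clear * - hne hc; positivity), fun F hF => ?_⟩
    rw [Polynomial.finsetSum_coeff, Finset.sum_congr rfl (fun σ _ => h1 _ (hs σ F hF)),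
      Finset.sum_const, nsmul_eq_mul]
  · obtain ⟨c, hc, κ, h1⟩ := h.tr
    refine ⟨(permsOfFinset X).card * c, by positivity, κ - B₀.trace, fun F hF hN => ?_⟩
    rw [Polynomial.finsetSum_coeff, Finset.sum_congr rfl (fun σ _ => h1 _ (hs σ F hF) hN)]
    simp only [Matrix.trace_add, trace_pact]
    rw [Finset.sum_const, nsmul_eq_mul]
    ring
  · intro F hF v
    choose H hH h1 using fun σ => h.aff' (hs σ F hF) v
    refine ⟨∑ σ ∈ permsOfFinset X, H σ, ?_, fun t => ?_⟩
    · rw [Polynomial.degree_lt_iff_coeff_zero]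
      intro m hm
      rw [Polynomial.finsetSum_coeff]
      apply Finset.sum_eq_zero
      intro σ _
      exact (Polynomial.degree_lt_iff_coeff_zero _ _).mp (hH σ) m hm
    · rw [Finset.mul_sum, ← Finset.sum_add_distrib]
      apply Finset.sum_congr rfl
      intro σ _
      rw [← h1 σ t]
      congr 1
      abel

end Nice

theorem nice_charpoly [DecidableEq α] :
    Nice (Fintype.card α) (fun B : Matrix α α ℝ => B.charpoly) := by
  apply Nice.mk'
  · intro B hB; exact stable_charpoly hB
  · intro B _; exact (Matrix.charpoly_natDegree_eq_dim B).le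
  · refine ⟨1, one_pos, fun B _ => ?_⟩
    have h1 := Matrix.charpoly_monic B
    rw [← h1.leadingCoeff, Polynomial.leadingCoeff, Matrix.charpoly_natDegree_eq_dim B]
  · refine ⟨1, one_pos, 0, fun B _ hN => ?_⟩
    have : Nonempty α := Fintype.card_pos_iff.mp hN
    rw [Matrix.trace_eq_neg_charpoly_coeff B]; ring
  · intro B _ v
    refine ⟨(B + vecMulVec v v).charpoly - B.charpoly, ?_, fun t => charpoly_add_smul_rankOne B v v t⟩
    have h1 := Matrix.charpoly_monic (B + vecMulVec v v)
    have h2 := Matrix.charpoly_monic B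
    have hd : (B + vecMulVec v v).charpoly.degree = B.charpoly.degree := by
      rw [Polynomial.degree_eq_natDegree h1.ne_zero, Polynomial.degree_eq_natDegree h2.ne_zero,
        Matrix.charpoly_natDegree_eq_dim, Matrix.charpoly_natDegree_eq_dim]
    have h3 := Polynomial.degree_sub_lt_left hd h1.ne_zero (by rw [h1.leadingCoeff, h2.leadingCoeff])
    rw [Polynomial.degree_eq_natDegree h1.ne_zero, Matrix.charpoly_natDegree_eq_dim] at h3
    exact h3

/-! ### The continuity lemma -/

theorem RR.of_mul {p q : ℝ[X]} (h : RR (p * q)) : RR q := by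
  intro z hz h0
  apply h z hz
  rw [map_mul, h0, mul_zero]

theorem RR.root_real {p : ℝ[X]} (h : RR p) {z : ℂ} (hz : aeval z p = 0) : z.im = 0 := by
  rcases lt_trichotomy z.im 0 with h1 | h1 | h1
  · exfalso
    have h2 : aeval (starRingEnd ℂ z) p = 0 := by
      rw [Polynomial.aeval_conj, hz, map_zero]
    exact h (starRingEnd ℂ z) (by rw [Complex.conj_im]; linarith only [h1]) h2
  · exact h1
  · exact absurd hz (h z h1)

theorem RR.exists_root {p : ℝ[X]} (h : RR p) (hd : p.natDegree ≠ 0) : ∃ x : ℝ, p.eval x = 0 := by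
  have h1 : (p.map (algebraMap ℝ ℂ)).degree ≠ 0 := by
    rw [Polynomial.degree_map]
    intro h0
    exact hd (Polynomial.natDegree_eq_of_degree_eq_some h0)
  obtain ⟨z, hz⟩ := IsAlgClosed.exists_root _ h1
  have h2 : aeval z p = 0 := by
    rw [Polynomial.IsRoot.def, Polynomial.eval_map_algebraMap] at hz
    exact hz
  have h3 := h.root_real h2
  refine ⟨z.re, ?_⟩
  have h4 : z = ((z.re : ℝ) : ℂ) := by
    apply Complex.ext
    · simp
    · simp [h3]
  rw [h4, aeval_coe] at h2
  exact_mod_cast h2

/-- a real rooted polynomial which is positive on `[0, ∞)` has positive coefficients -/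
theorem RR.coeff_pos : ∀ (n : ℕ) {p : ℝ[X]}, p.natDegree = n → RR p → 0 < p.leadingCoeff →
    (∀ x, 0 ≤ x → 0 < p.eval x) → ∀ k ≤ n, 0 < p.coeff k := by
  intro n
  induction n with
  | zero =>
    intro p hn _ hl _ k hk
    have : k = 0 := by omega
    subst this
    rw [Polynomial.leadingCoeff, hn] at hl
    exact hl
  | succ n ih =>
    intro p hn hp hl hpos k hk
    obtain ⟨x, hx⟩ := hp.exists_root (by omega)
    have hx0 : x < 0 := by
      by_contra hcon
      push Not at hcon
      have := hpos x hcon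
      (clear * - hx this; linarith)
    obtain ⟨q, hq⟩ := Polynomial.dvd_iff_isRoot.mpr hx
    have hq0 : q ≠ 0 := by
      rintro rfl
      rw [mul_zero] at hq
      rw [hq] at hl
      simp at hl
    have hqn : q.natDegree = n := by
      have h1 := Polynomial.natDegree_mul (Polynomial.X_sub_C_ne_zero x) hq0
      rw [← hq, hn, Polynomial.natDegree_X_sub_C] at h1
      omega
    have hql : 0 < q.leadingCoeff := by
      have h1 : p.leadingCoeff = q.leadingCoeff := by
        rw [hq, Polynomial.leadingCoeff_mul, Polynomial.leadingCoeff_X_sub_C, one_mul]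
      rwa [h1] at hl
    have hqp : ∀ y, 0 ≤ y → 0 < q.eval y := by
      intro y hy
      have h1 := hpos y hy
      rw [hq, Polynomial.eval_mul, Polynomial.eval_sub, Polynomial.eval_X, Polynomial.eval_C] at h1
      exact pos_of_mul_pos_right h1 (by linarith only [hx0, hy])
    have hqr : RR q := by rw [hq] at hp; exact hp.of_mul
    have hq' := ih hqn hqr hql hqp
    have hcoe : ∀ j, q.coeff j = 0 ∨ 0 < q.coeff j := by
      intro j
      rcases le_or_gt j n with h1 | h1
      · exact Or.inr (hq' j h1)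
      · exact Or.inl (Polynomial.coeff_eq_zero_of_natDegree_lt (by omega))
    rw [hq, sub_mul]
    rcases k with _ | k
    · rw [Polynomial.coeff_sub, Polynomial.coeff_C_mul]
      have h1 := hq' 0 (Nat.zero_le _)
      simp only [Polynomial.mul_coeff_zero, Polynomial.coeff_X_zero, zero_mul, zero_sub]
      nlinarith only [hx0, h1]
    · rw [Polynomial.coeff_sub, Polynomial.coeff_C_mul, Polynomial.coeff_X_mul]
      have h1 := hq' k (by omega)
      have h2 : 0 ≤ -x * q.coeff (k + 1) := by
        rcases hcoe (k + 1) with h3 | h3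
        · rw [h3]; simp
        · exact mul_nonneg (by linarith only [hx0]) h3.le
      linarith only [h1, h2]

theorem eval_pos_of_coeff {p : ℝ[X]} (h : ∀ k, 0 ≤ p.coeff k) (h0 : 0 < p.coeff 0) {x : ℝ}
    (hx : 0 ≤ x) : 0 < p.eval x := by
  rw [Polynomial.eval_eq_sum_range, Finset.sum_range_succ']
  have h1 : 0 ≤ ∑ k ∈ Finset.range p.natDegree, p.coeff (k + 1) * x ^ (k + 1) :=
    Finset.sum_nonneg (fun k _ => mul_nonneg (h _) (pow_nonneg hx _))
  simp only [pow_zero, mul_one]
  linarith

theorem continuity_aux {N : ℕ} {p q : ℝ[X]} (hp : p.natDegree = N) (hq : q.natDegree = N)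
    (hpl : 0 < p.leadingCoeff) (hql : 0 < q.leadingCoeff)
    (hrr : ∀ s ∈ Set.Icc (0 : ℝ) 1, RR (C (1 - s) * p + C s * q))
    (hpc : ∀ x, 0 ≤ x → 0 < p.eval x) (hqc : 0 < q.eval 0) : ∀ x, 0 ≤ x → 0 < q.eval x := by
  have hp0 : RR p := by simpa only [sub_zero, map_one, one_mul, map_zero, zero_mul, add_zero] using hrr 0 (by simp)
  have hpk := RR.coeff_pos N hp hp0 hpl hpc
  have hq0 : 0 < q.coeff 0 := by rwa [Polynomial.coeff_zero_eq_eval_zero]
  have hqN : 0 < q.coeff N := by rw [← hq]; exact hql
  suffices hall : ∀ k, 0 ≤ q.coeff k from fun x hx => eval_pos_of_coeff hall hq0 hx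
  by_contra hcon
  push Not at hcon
  obtain ⟨k₀, hk₀⟩ := hcon
  -- the first time
  set T := (Finset.range (N + 1)).filter (fun k => q.coeff k < 0) with hT
  have hmem : ∀ k, q.coeff k < 0 → k ∈ T := by
    intro k hk
    rw [hT, Finset.mem_filter, Finset.mem_range]
    refine ⟨?_, hk⟩
    by_contra h1
    rw [Polynomial.coeff_eq_zero_of_natDegree_lt (by omega)] at hk
    exact lt_irrefl _ hk
  obtain ⟨k, hkT, hkmin⟩ := Finset.exists_min_image T
    (fun k => p.coeff k / (p.coeff k - q.coeff k)) ⟨k₀, hmem k₀ hk₀⟩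
  have hTk : ∀ j ∈ T, j ≤ N ∧ q.coeff j < 0 := by
    intro j hj
    rw [hT, Finset.mem_filter, Finset.mem_range] at hj
    exact ⟨by omega, hj.2⟩
  obtain ⟨hkN, hkneg⟩ := hTk k hkT
  have hpkk := hpk k hkN
  set s := p.coeff k / (p.coeff k - q.coeff k) with hs
  have hden : 0 < p.coeff k - q.coeff k := by linarith only [hkneg, hpkk]
  have hs0 : 0 < s := div_pos hpkk hden
  have hs1 : s < 1 := by rw [hs, div_lt_one hden]; linarith only [hkneg]
  set r := C (1 - s) * p + C s * q with hr
  have hrc : ∀ j, r.coeff j = (1 - s) * p.coeff j + s * q.coeff j := by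
    intro j
    rw [hr, Polynomial.coeff_add, Polynomial.coeff_C_mul, Polynomial.coeff_C_mul]
  have hrk : r.coeff k = 0 := by
    rw [hrc, hs]; field_simp; ring
  have hrnn : ∀ j, 0 ≤ r.coeff j := by
    intro j
    rw [hrc]
    rcases lt_or_ge (q.coeff j) 0 with h1 | h1
    · obtain ⟨hjN, _⟩ := hTk j (hmem j h1)
      have h2 := hkmin j (hmem j h1)
      have h3 := hpk j hjN
      have h4 : 0 < p.coeff j - q.coeff j := by linarith only [h1, h3]
      rw [le_div_iff₀ h4] at h2
      linarith only [h2]
    · rcases le_or_gt j N with h2 | h2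
      · have := hpk j h2
        have h3 : 0 ≤ (1 - s) * p.coeff j := mul_nonneg (by linarith only [hs1]) this.le
        have h4 : 0 ≤ s * q.coeff j := mul_nonneg hs0.le h1
        linarith only [h3, h4]
      · rw [Polynomial.coeff_eq_zero_of_natDegree_lt (by omega : p.natDegree < j),
          Polynomial.coeff_eq_zero_of_natDegree_lt (by omega : q.natDegree < j)]
        simp
  have hr0 : 0 < r.coeff 0 := by
    rw [hrc]
    have h1 := hpk 0 (Nat.zero_le _)
    have h3 : 0 ≤ (1 - s) * p.coeff 0 := mul_nonneg (by linarith only [hs1]) h1.le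
    have h4 : 0 < s * q.coeff 0 := mul_pos hs0 hq0
    linarith only [h3, h4]
  have hrN : 0 < r.coeff N := by
    rw [hrc]
    have h1 := hpk N le_rfl
    have h3 : 0 ≤ (1 - s) * p.coeff N := mul_nonneg (by linarith only [hs1]) h1.le
    have h4 : 0 < s * q.coeff N := mul_pos hs0 hqN
    linarith only [h3, h4]
  have hrd : r.natDegree ≤ N := by
    rw [hr]
    refine (Polynomial.natDegree_add_le _ _).trans (max_le ?_ ?_)
    · exact (Polynomial.natDegree_C_mul_le _ _).trans hp.le
    · exact (Polynomial.natDegree_C_mul_le _ _).trans hq.le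
  obtain ⟨hrn, hrl⟩ := lead_of_coeff hrN hrd rfl
  have := RR.coeff_pos N hrn (hrr s ⟨hs0.le, hs1.le⟩) (by rw [hrl]; exact hrN)
    (fun x hx => eval_pos_of_coeff hrnn hr0 hx) k hkN
  rw [hrk] at this
  exact lt_irrefl _ this

theorem continuity_lemma {N : ℕ} {p q : ℝ[X]} (hp : p.natDegree = N) (hq : q.natDegree = N)
    (hpl : 0 < p.leadingCoeff) (hql : 0 < q.leadingCoeff)
    (hrr : ∀ s ∈ Set.Icc (0 : ℝ) 1, RR (C (1 - s) * p + C s * q)) {c : ℝ}
    (hpc : ∀ x, c ≤ x → 0 < p.eval x) (hqc : 0 < q.eval c) : ∀ x, c ≤ x → 0 < q.eval x := by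
  have key := continuity_aux (N := N) (p := p.comp (X + C c)) (q := q.comp (X + C c))
    (by rw [Polynomial.natDegree_comp, Polynomial.natDegree_X_add_C, mul_one, hp])
    (by rw [Polynomial.natDegree_comp, Polynomial.natDegree_X_add_C, mul_one, hq])
    (by
      rw [Polynomial.leadingCoeff_comp (by rw [Polynomial.natDegree_X_add_C]; exact one_ne_zero),
        Polynomial.leadingCoeff_X_add_C, one_pow, mul_one]
      exact hpl)
    (by
      rw [Polynomial.leadingCoeff_comp (by rw [Polynomial.natDegree_X_add_C]; exact one_ne_zero),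
        Polynomial.leadingCoeff_X_add_C, one_pow, mul_one]
      exact hql)
    (by
      intro s hs z hz
      have h1 := hrr s hs (z + c) (by simpa using hz)
      have h2 : C (1 - s) * p.comp (X + C c) + C s * q.comp (X + C c) =
          (C (1 - s) * p + C s * q).comp (X + C c) := by
        simp
      rw [h2, Polynomial.aeval_comp]
      simpa only [map_add, aeval_X, aeval_C, Complex.coe_algebraMap, map_sub, map_one, map_mul, aeval_sub,     ne_eq] using h1)
    (by
      intro x hx
      rw [Polynomial.eval_comp]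
      simpa only [eval_add, eval_X, eval_C] using hpc (x + c) (by linarith))
    (by
      rw [Polynomial.eval_comp]
      simpa using hqc)
  intro x hx
  have := key (x - c) (by linarith only [hx])
  rw [Polynomial.eval_comp] at this
  simpa using this

end Vale.Agent.P049
end
end
end

section

section

section

/-! The greedy choice: existence of a good child and preservation of the invariant. -/

open Finset Matrix Polynomial

namespace Vale.Agent.P049

section zero

variable {α : Type*} [DecidableEq α] [Fintype α]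

theorem sum_outer (b : Finset α) (v : α) :
    ∑ i, outer ℝ b i v = if v ∈ b then (b.card : ℝ) else 0 := by
  unfold outer
  simp only [Matrix.of_apply]
  by_cases hv : v ∈ b
  · simp only [hv, and_true, sum_ite_mem, univ_inter, sum_const, nsmul_eq_mul, mul_one, ↓reduceIte]
  · simp only [hv, and_false, ↓reduceIte, sum_const_zero]

theorem ordSum_zero_of_col {d : ℕ} (g : Matrix α α ℝ → ℝ) (K : α → ℝ)
    (hg : ∀ A : Matrix α α ℝ, (∀ v, ∑ i, A i v = K v) → g A = 0) :
    ∀ (n : ℕ) (X γ : Finset α) (A : Matrix α α ℝ), X.card = n → Disjoint X γ → γ.card < d →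
      d ∣ n + γ.card → (∀ v, ∑ i, A i v = d * (if v ∈ X ∨ v ∈ γ then 1 else 0) + K v) →
      ordSum d g n X γ A = 0 := by
  intro n
  induction n with
  | zero =>
    intro X γ A hX _ hγ hdiv hcol
    rw [zero_add] at hdiv
    have hγ0 : γ = ∅ := Finset.card_eq_zero.mp (Nat.eq_zero_of_dvd_of_lt hdiv hγ)
    have hX0 : X = ∅ := Finset.card_eq_zero.mp hX
    subst hγ0 hX0
    rw [ordSum_zero]
    apply hg
    intro v
    rw [hcol v]; simp only [notMem_empty, or_self, ↓reduceIte, mul_zero, zero_add]
  | succ n ih =>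
    intro X γ A hX hdis hγ hdiv hcol
    rw [ordSum_succ]
    apply Finset.sum_eq_zero
    intro x hx
    have hc' : (X.erase x).card = n := by rw [Finset.card_erase_of_mem hx, hX]; rfl
    have hxγ : x ∉ γ := Finset.disjoint_left.mp hdis hx
    by_cases hc : γ.card + 1 = d
    · rw [child_pos hc]
      apply ih _ _ _ hc' (Finset.disjoint_empty_right _) (by simp; omega)
      · rw [Finset.card_empty, add_zero]
        have : n + 1 + γ.card = n + d := by omega
        rw [this] at hdiv
        exact (Nat.dvd_add_left (dvd_refl d)).mp hdiv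
      · intro v
        have h1 : ∑ i, (A - outer ℝ (insert x γ)) i v =
            ∑ i, A i v - ∑ i, outer ℝ (insert x γ) i v := by
          rw [← Finset.sum_sub_distrib]; rfl
        rw [h1, hcol v, sum_outer, Finset.card_insert_of_notMem hxγ, hc]
        by_cases h2 : v = x
        · subst h2; simp [hx]
        · by_cases h3 : v ∈ γ
          · have h4 : v ∉ X := fun h => Finset.disjoint_left.mp hdis h h3
            simp [h3, h4]
          · by_cases h4 : v ∈ X
            · simp [h2, h3, h4]
            · simp [h2, h3, h4]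
    · rw [child_neg hc]
      have h3 : Disjoint (X.erase x) (insert x γ) := by
        rw [Finset.disjoint_insert_right]
        exact ⟨Finset.notMem_erase _ _, hdis.mono_left (Finset.erase_subset _ _)⟩
      apply ih _ _ _ hc' h3
      · rw [Finset.card_insert_of_notMem hxγ]; omega
      · rw [Finset.card_insert_of_notMem hxγ]
        have : n + (γ.card + 1) = n + 1 + γ.card := by omega
        rw [this]; exact hdiv
      · intro v
        rw [hcol v]
        by_cases h2 : v = x
        · subst h2; simp [hx]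
        · simp [h2]

theorem restSum_zero_of_col [Nonempty α] {d : ℕ} (hd : 0 < d) {X₀ : Finset α}
    (hdiv : d ∣ X₀.card) : ∀ (q : ℕ) (A : Matrix α α ℝ),
    (∀ v, ∑ i, A i v = d * q * (if v ∈ X₀ then 1 else 0)) → restSum d X₀ q A = 0 := by
  intro q
  induction q with
  | zero =>
    intro A hA
    rw [restSum_zero, ← Matrix.exists_vecMul_eq_zero_iff]
    refine ⟨1, one_ne_zero, ?_⟩
    ext v
    have := hA v
    simpa only [vecMul, dotProduct, Pi.one_apply, one_mul, Pi.zero_apply, CharP.cast_eq_zero, mul_zero, mul_ite,     mul_one, ite_self] using this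
  | succ q ih =>
    intro A hA
    rw [restSum_succ]
    apply ordSum_zero_of_col _ _ ih _ _ _ _ rfl (Finset.disjoint_empty_right _)
    · simpa using hd
    · simpa using hdiv
    · intro v
      rw [hA v]
      simp only [Finset.notMem_empty, or_false]
      push_cast
      ring

end zero

section greedy

variable {α : Type*} [Fintype α] [DecidableEq α]

/-- node polynomial -/
noncomputable def nodeP (d : ℕ) (X₀ : Finset α) (q n : ℕ) (X γ : Finset α) (F : Matrix α α ℝ) : ℝ[X] :=
  ordSum d (restSum d X₀ q) n X γ ((Polynomial.X : ℝ[X]) • (1 : Matrix α α ℝ[X]) - F.map C)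

/-- invariant -/
structure GoodPoly (θ c : ℝ) (P : ℝ[X]) : Prop where
  rr : RR P
  pos : 0 < P.leadingCoeff
  fac : ∃ H : ℝ[X], P = (Polynomial.X - C θ) * H ∧ ∀ x, c ≤ x → 0 < H.eval x

/-- column sums of the fixed part match the degrees still to be filled -/
def ColOK (d : ℕ) (X₀ : Finset α) (q : ℕ) (X γ : Finset α) (F : Matrix α α ℝ) : Prop :=
  ∀ v, ∑ i, F i v + d * (if v ∈ X ∨ v ∈ γ then 1 else 0) + d * q * (if v ∈ X₀ then 1 else 0) =
    (d : ℝ) ^ 2

theorem det_xMat (F : Matrix α α ℝ) :
    ((Polynomial.X : ℝ[X]) • (1 : Matrix α α ℝ[X]) - F.map C).det = F.charpoly := by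
  unfold Matrix.charpoly
  congr 1
  refine Matrix.ext (fun i k => ?_)
  rw [charmatrix_apply]
  simp only [Matrix.sub_apply, Matrix.smul_apply, Matrix.map_apply, smul_eq_mul, Matrix.one_apply,
    Matrix.diagonal_apply]
  split_ifs <;> simp

omit [Fintype α] in
theorem xMat_sub (F B : Matrix α α ℝ) :
    (Polynomial.X : ℝ[X]) • (1 : Matrix α α ℝ[X]) - F.map C - B.map C =
      (Polynomial.X : ℝ[X]) • (1 : Matrix α α ℝ[X]) - (F + B).map C := by
  refine Matrix.ext (fun i k => ?_)
  simp only [Matrix.sub_apply, Matrix.map_apply, Matrix.add_apply, map_add]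
  ring

omit [Fintype α] [DecidableEq α] in
theorem map_int_C (B : Matrix α α ℤ) :
    B.map (Int.cast : ℤ → ℝ[X]) = (B.map (Int.cast : ℤ → ℝ)).map C := by
  refine Matrix.ext (fun i k => ?_)
  simp only [map_apply, map_intCast]

omit [Fintype α] [DecidableEq α] in
theorem isSymm_map_int {B : Matrix α α ℤ} (h : B.IsSymm) :
    (B.map (Int.cast : ℤ → ℝ)).IsSymm := h.map _

theorem nice_rest (d : ℕ) (X₀ : Finset α) (q : ℕ) :
    Nice (Fintype.card α) (fun F : Matrix α α ℝ =>
      restSum d X₀ q ((Polynomial.X : ℝ[X]) • (1 : Matrix α α ℝ[X]) - F.map C)) := by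
  induction q with
  | zero =>
    rw [restSum_zero]
    simp only [det_xMat]
    exact nice_charpoly
  | succ q ih =>
    obtain ⟨B, hB⟩ := exists_base ℤ d X₀.card X₀ ∅ rfl
    have hB' : IsBase d X₀.card X₀ ∅ (B.map (Int.cast : ℤ → ℝ[X])) :=
      hB.map (Int.castRingHom ℝ[X])
    refine cast (congrArg (Nice _) ?_) (ih.sumPerms X₀ (isSymm_map_int hB.isSymm))
    funext F
    rw [restSum_succ, ordSum_eq_perm _ hB' rfl (Finset.disjoint_empty_right _)]
    apply Finset.sum_congr rfl
    intro σ _
    rw [map_int_C, ← xMat_sub, pact_map]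

theorem star_child {d q n : ℕ} {X₀ X γ : Finset α} {F : Matrix α α ℝ} (hF : F.IsSymm)
    (hn : X.card = n + 1) (hdisj : Disjoint X γ) (ν : α → ℝ) (h0 : ∀ x ∈ X, 0 ≤ ν x)
    (h1 : 0 < ∑ x ∈ X, ν x) :
    RR (∑ a ∈ X, C (ν a) * child d (restSum d X₀ q) n X γ
      ((Polynomial.X : ℝ[X]) • (1 : Matrix α α ℝ[X]) - F.map C) a) ∧
    (∑ a ∈ X, C (ν a) * child d (restSum d X₀ q) n X γ
      ((Polynomial.X : ℝ[X]) • (1 : Matrix α α ℝ[X]) - F.map C) a).natDegree = Fintype.card α ∧
    0 < (∑ a ∈ X, C (ν a) * child d (restSum d X₀ q) n X γ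
      ((Polynomial.X : ℝ[X]) • (1 : Matrix α α ℝ[X]) - F.map C) a).leadingCoeff := by
  obtain ⟨x₀, hx₀, B, hBs, _, hB⟩ := child_eq_perm (d := d) hn hdisj
  have hnice := ((nice_rest d X₀ q).translate hF).star X x₀ hx₀ ν h0 h1
  have hBr := isSymm_map_int hBs
  have e : ∑ a ∈ X, C (ν a) * child d (restSum d X₀ q) n X γ
      ((Polynomial.X : ℝ[X]) • (1 : Matrix α α ℝ[X]) - F.map C) a =
      ∑ a ∈ X, C (ν a) * ∑ ρ ∈ permsOfFinset (X.erase x₀),
        restSum d X₀ q ((Polynomial.X : ℝ[X]) • (1 : Matrix α α ℝ[X]) -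
          (F + pact (Equiv.swap x₀ a * ρ) (B.map (Int.cast : ℤ → ℝ))).map C) := by
    apply Finset.sum_congr rfl
    intro a ha
    rw [hB ℝ[X] _ _ a ha]
    congr 1
    apply Finset.sum_congr rfl
    intro ρ _
    rw [map_int_C, ← pact_map, xMat_sub]
  rw [e]
  refine ⟨hnice.rr _ hBr, hnice.deg _ hBr, ?_⟩
  obtain ⟨c, hc, h2⟩ := hnice.lead
  have := h2 _ hBr
  rw [this]
  exact hc

theorem child_root {d q n : ℕ} (hd : 0 < d) {X₀ X γ : Finset α}
    {F : Matrix α α ℝ} (hn : X.card = n + 1) (hdisj : Disjoint X γ) (hγ : γ.card < d)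
    (hdiv : d ∣ X.card + γ.card) (hdiv0 : d ∣ X₀.card) (hcol : ColOK d X₀ q X γ F) {a : α}
    (ha : a ∈ X) :
    (child d (restSum d X₀ q) n X γ ((Polynomial.X : ℝ[X]) • (1 : Matrix α α ℝ[X]) - F.map C) a).eval
      ((d : ℝ) ^ 2) = 0 := by
  have hne : Nonempty α := ⟨a⟩
  have hA : ((Polynomial.X : ℝ[X]) • (1 : Matrix α α ℝ[X]) - F.map C).map
      (Polynomial.evalRingHom ((d : ℝ) ^ 2)) = ((d : ℝ) ^ 2) • (1 : Matrix α α ℝ) - F := by
    refine Matrix.ext (fun i k => ?_)
    simp only [Matrix.map_apply, Matrix.sub_apply, Matrix.smul_apply, smul_eq_mul,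
      Polynomial.coe_evalRingHom, Matrix.one_apply]
    split_ifs <;> simp
  have hsum : ∀ v, ∑ i, (((d : ℝ) ^ 2) • (1 : Matrix α α ℝ) - F) i v =
      d * (if v ∈ X ∨ v ∈ γ then 1 else 0) + d * q * (if v ∈ X₀ then 1 else 0) := by
    intro v
    have h1 : ∑ i, (((d : ℝ) ^ 2) • (1 : Matrix α α ℝ) - F) i v =
        (d : ℝ) ^ 2 - ∑ i, F i v := by
      simp only [Matrix.sub_apply, Matrix.smul_apply, Matrix.one_apply, smul_eq_mul, mul_ite, mul_one, mul_zero, sum_sub_distrib, sum_ite_eq', mem_univ, ↓reduceIte]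
    rw [h1, ← hcol v]; ring
  have hg := restSum_zero_of_col hd hdiv0 q
  have hc' : (X.erase a).card = n := by rw [Finset.card_erase_of_mem ha, hn]; rfl
  have haγ : a ∉ γ := Finset.disjoint_left.mp hdisj ha
  -- evaluate
  have hnat := fun (X' γ' : Finset α) (A : Matrix α α ℝ[X]) =>
    ordSum_map (Polynomial.evalRingHom ((d : ℝ) ^ 2)) d (restSum d X₀ q) (restSum d X₀ q)
      (restSum_map (Polynomial.evalRingHom ((d : ℝ) ^ 2)) d X₀ q) n X' γ' A
  rw [hn] at hdiv
  by_cases hc : γ.card + 1 = d
  · rw [child_pos hc]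
    have h1 := hnat (X.erase a) ∅
      ((Polynomial.X : ℝ[X]) • (1 : Matrix α α ℝ[X]) - F.map C - outer ℝ[X] (insert a γ))
    rw [Polynomial.coe_evalRingHom] at h1
    rw [h1]
    have h2 : ((Polynomial.X : ℝ[X]) • (1 : Matrix α α ℝ[X]) - F.map C -
        outer ℝ[X] (insert a γ)).map (Polynomial.eval ((d : ℝ) ^ 2)) =
        ((d : ℝ) ^ 2) • (1 : Matrix α α ℝ) - F - outer ℝ (insert a γ) := by
      rw [← hA, ← outer_map (Polynomial.evalRingHom ((d : ℝ) ^ 2))]
      refine Matrix.ext (fun i k => ?_)
      simp only [map_apply, Matrix.sub_apply, Matrix.smul_apply, smul_eq_mul, eval_sub, eval_mul, eval_X, eval_C, coe_evalRingHom]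
    rw [h2]
    apply ordSum_zero_of_col _ _ hg _ _ _ _ hc' (Finset.disjoint_empty_right _) (by simpa using hd)
    · rw [Finset.card_empty, add_zero]
      have : n + 1 + γ.card = n + d := by omega
      rw [this] at hdiv
      exact (Nat.dvd_add_left (dvd_refl d)).mp hdiv
    · intro v
      have h1 : ∑ i, (((d : ℝ) ^ 2) • (1 : Matrix α α ℝ) - F - outer ℝ (insert a γ)) i v =
          ∑ i, (((d : ℝ) ^ 2) • (1 : Matrix α α ℝ) - F) i v - ∑ i, outer ℝ (insert a γ) i v := by
        rw [← Finset.sum_sub_distrib]; rfl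
      rw [h1, hsum v, sum_outer, Finset.card_insert_of_notMem haγ, hc]
      by_cases h2 : v = a
      · subst h2; simp only [ha, true_or, ↓reduceIte, mul_one, mul_ite, mul_zero, mem_insert, add_sub_cancel_left, mem_erase, ne_eq, not_true_eq_false, and_true, notMem_empty, or_self, zero_add]
      · by_cases h3 : v ∈ γ
        · have h4 : v ∉ X := fun h => Finset.disjoint_left.mp hdisj h h3
          simp only [h4, h3, or_true, ↓reduceIte, mul_one, mul_ite, mul_zero, mem_insert, add_sub_cancel_left, mem_erase, ne_eq, and_false, notMem_empty, or_self, zero_add]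
        · by_cases h4 : v ∈ X
          · simp only [h4, h3, or_false, ↓reduceIte, mul_one, mul_ite, mul_zero, mem_insert, h2, or_self, sub_zero, mem_erase, ne_eq, not_false_eq_true, and_self, notMem_empty]
          · simp [h2, h3, h4]
  · rw [child_neg hc]
    have h1 := hnat (X.erase a) (insert a γ)
      ((Polynomial.X : ℝ[X]) • (1 : Matrix α α ℝ[X]) - F.map C)
    rw [hA, Polynomial.coe_evalRingHom] at h1
    rw [h1]
    have h3 : Disjoint (X.erase a) (insert a γ) := by
      rw [Finset.disjoint_insert_right]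
      exact ⟨Finset.notMem_erase _ _, hdisj.mono_left (Finset.erase_subset _ _)⟩
    apply ordSum_zero_of_col _ _ hg _ _ _ _ hc' h3
    · rw [Finset.card_insert_of_notMem haγ]; omega
    · rw [Finset.card_insert_of_notMem haγ]
      have : n + (γ.card + 1) = n + 1 + γ.card := by omega
      rw [this]; exact hdiv
    · intro v
      rw [hsum v]
      by_cases h2 : v = a
      · subst h2; simp only [ha, true_or, ↓reduceIte, mul_one, mul_ite, mul_zero, mem_erase, ne_eq, not_true_eq_false, and_true, mem_insert, or_true]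
      · simp [h2]

theorem node_exists_child {d q n : ℕ} {c : ℝ} (hc : c < (d : ℝ) ^ 2) {X₀ X γ : Finset α}
    {F : Matrix α α ℝ}
    (hgood : GoodPoly ((d : ℝ) ^ 2) c (nodeP d X₀ q (n + 1) X γ F)) :
    ∃ a ∈ X, (child d (restSum d X₀ q) n X γ
      ((Polynomial.X : ℝ[X]) • (1 : Matrix α α ℝ[X]) - F.map C) a).eval c < 0 := by
  obtain ⟨H, hH, hpos⟩ := hgood.fac
  have h1 : (nodeP d X₀ q (n + 1) X γ F).eval c < 0 := by
    rw [hH, Polynomial.eval_mul, Polynomial.eval_sub, Polynomial.eval_X, Polynomial.eval_C]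
    exact mul_neg_of_neg_of_pos (by linarith) (hpos c le_rfl)
  unfold nodeP at h1
  rw [ordSum_succ, Polynomial.eval_finsetSum] at h1
  by_contra hcon
  push Not at hcon
  have := Finset.sum_nonneg hcon
  linarith

theorem node_step {d q n : ℕ} {c : ℝ} (hd : 0 < d) (hc : c < (d : ℝ) ^ 2) {X₀ X γ : Finset α}
    {F : Matrix α α ℝ} (hF : F.IsSymm) (hn : X.card = n + 1) (hdisj : Disjoint X γ) (hγ : γ.card < d)
    (hdiv : d ∣ X.card + γ.card) (hdiv0 : d ∣ X₀.card) (hcol : ColOK d X₀ q X γ F)
    (hgood : GoodPoly ((d : ℝ) ^ 2) c (nodeP d X₀ q (n + 1) X γ F)) {a : α} (ha : a ∈ X)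
    (hneg : (child d (restSum d X₀ q) n X γ
      ((Polynomial.X : ℝ[X]) • (1 : Matrix α α ℝ[X]) - F.map C) a).eval c < 0) :
    GoodPoly ((d : ℝ) ^ 2) c
      (child d (restSum d X₀ q) n X γ
        ((Polynomial.X : ℝ[X]) • (1 : Matrix α α ℝ[X]) - F.map C) a) := by
  set Q : α → ℝ[X] := fun b => child d (restSum d X₀ q) n X γ
    ((Polynomial.X : ℝ[X]) • (1 : Matrix α α ℝ[X]) - F.map C) b with hQ
  have hstar : ∀ ν : α → ℝ, (∀ x ∈ X, 0 ≤ ν x) → 0 < ∑ x ∈ X, ν x →
      RR (∑ b ∈ X, C (ν b) * Q b) ∧ (∑ b ∈ X, C (ν b) * Q b).natDegree = Fintype.card α ∧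
      0 < (∑ b ∈ X, C (ν b) * Q b).leadingCoeff := fun ν h0 h1 =>
    star_child hF hn hdisj ν h0 h1
  set P := nodeP d X₀ q (n + 1) X γ F with hP
  have hPsum : P = ∑ b ∈ X, Q b := by rw [hP]; unfold nodeP; rw [ordSum_succ]
  -- the mixtures
  have hmix : ∀ s : ℝ, ∑ b ∈ X, C ((1 - s) + (if b = a then s else 0)) * Q b =
      C (1 - s) * P + C s * Q a := by
    intro s
    simp only [map_add, add_mul]
    rw [Finset.sum_add_distrib, ← Finset.mul_sum, ← hPsum]
    congr 1
    have : ∀ b ∈ X, C (if b = a then s else 0) * Q b = if b = a then C s * Q a else 0 := by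
      intro b _
      split_ifs with h
      · rw [h]
      · simp
    rw [Finset.sum_congr rfl this, Finset.sum_ite_eq' X a, if_pos ha]
  have hmix' : ∀ s ∈ Set.Icc (0 : ℝ) 1, RR (C (1 - s) * P + C s * Q a) ∧
      (C (1 - s) * P + C s * Q a).natDegree = Fintype.card α ∧
      0 < (C (1 - s) * P + C s * Q a).leadingCoeff := by
    intro s hs
    have h0 : ∀ x ∈ X, 0 ≤ (1 - s) + (if x = a then s else 0) := by
      intro x _
      have := hs.1
      have := hs.2
      split_ifs <;> linarith only [this]
    have h1 : 0 < ∑ x ∈ X, ((1 - s) + (if x = a then s else 0)) := by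
      have h2 : ((1 - s) + (if a = a then s else 0)) ≤
          ∑ x ∈ X, ((1 - s) + (if x = a then s else 0)) :=
        Finset.single_le_sum h0 ha
      simp only [if_true] at h2
      linarith only [h2]
    have := hstar _ h0 h1
    rwa [hmix s] at this
  have hP0 := hmix' 0 (by simp only [Set.mem_Icc, Std.le_refl, zero_le_one, and_self])
  have hQa := hmix' 1 (by simp only [Set.mem_Icc, zero_le_one, Std.le_refl, and_self])
  simp only [sub_zero, map_one, one_mul, map_zero, zero_mul, add_zero] at hP0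
  simp only [sub_self, map_zero, zero_mul, map_one, one_mul, zero_add] at hQa
  obtain ⟨hPr, hPd, hPl⟩ := hP0
  obtain ⟨hQr, hQd, hQl⟩ := hQa
  obtain ⟨H, hH, hHpos⟩ := hgood.fac
  have hroot : (Q a).eval ((d : ℝ) ^ 2) = 0 :=
    child_root hd hn hdisj hγ hdiv hdiv0 hcol ha
  obtain ⟨K, hK⟩ := Polynomial.dvd_iff_isRoot.mpr hroot
  have fact : ∀ (p k : ℝ[X]), p = (Polynomial.X - C ((d : ℝ) ^ 2)) * k →
      p.natDegree = Fintype.card α → 0 < p.leadingCoeff →
      k.natDegree = Fintype.card α - 1 ∧ 0 < k.leadingCoeff := by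
    intro p k hpk hpd hpl
    have hk0 : k ≠ 0 := by
      rintro rfl
      rw [hpk] at hpl
      simp at hpl
    have h1 := Polynomial.natDegree_mul (Polynomial.X_sub_C_ne_zero ((d : ℝ) ^ 2)) hk0
    rw [← hpk, hpd, Polynomial.natDegree_X_sub_C] at h1
    have h2 : p.leadingCoeff = k.leadingCoeff := by
      rw [hpk, Polynomial.leadingCoeff_mul, Polynomial.leadingCoeff_X_sub_C, one_mul]
    exact ⟨by omega, by rwa [h2] at hpl⟩
  obtain ⟨hHd, hHl⟩ := fact P H hH hPd hPl
  obtain ⟨hKd, hKl⟩ := fact (Q a) K hK hQd hQl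
  have hKc : 0 < K.eval c := by
    have h1 : (Q a).eval c < 0 := hneg
    rw [hK, Polynomial.eval_mul, Polynomial.eval_sub, Polynomial.eval_X, Polynomial.eval_C] at h1
    by_contra hcon
    push Not at hcon
    have : 0 ≤ (c - (d : ℝ) ^ 2) * K.eval c := mul_nonneg_of_nonpos_of_nonpos (by linarith only [hc]) hcon
    linarith only [h1, this]
  refine ⟨hQr, hQl, K, hK, ?_⟩
  apply continuity_lemma (N := Fintype.card α - 1) hHd hKd hHl hKl _ hHpos hKc
  intro s hs
  have h1 := (hmix' s hs).1
  have h2 : C (1 - s) * P + C s * Q a =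
      (Polynomial.X - C ((d : ℝ) ^ 2)) * (C (1 - s) * H + C s * K) := by
    rw [hH, hK]; ring
  rw [h2] at h1
  exact h1.of_mul

end greedy

end Vale.Agent.P049
end
end
end

section

section

section

/-! The root node satisfies the invariant. -/

namespace Vale.Agent.P049

open Finset Equiv Function Matrix Polynomial

section restH

variable {α : Type*} [Fintype α] [DecidableEq α] {R : Type*} [CommRing R]

theorem restSum_eq_restH {R : Type} [CommRing R] {d : ℕ} {X₀ : Finset α} {blk : α → ℕ}
    (hB : IsBase d X₀.card X₀ ∅ (blockMat R X₀ blk)) (q : ℕ) (A : Matrix α α R) :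
    restSum d X₀ q A = restH Matrix.det X₀ blk q A := by
  induction q generalizing A with
  | zero => rfl
  | succ q ih =>
    rw [restSum_succ, ordSum_eq_perm _ hB rfl (disjoint_empty_right _), restH]
    apply sum_congr rfl
    intro σ _
    exact ih _

theorem blockMat_map_root {S : Type*} [CommRing S] (φ : R →+* S) (X : Finset α) (blk : α → ℕ) :
    (blockMat R X blk).map φ = blockMat S X blk := by
  ext i k
  simp only [blockMat, Matrix.map_apply, Matrix.of_apply]
  split_ifs <;> simp

theorem hdet_map {S : Type*} [CommRing S] (φ : R →+* S) (l : α) (A : Matrix α α R) :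
    φ (hdet l A) = hdet l (A.map φ) := by
  unfold hdet
  rw [RingHom.map_det]
  congr 1
  ext i k
  simp only [RingHom.mapMatrix_apply, Matrix.map_apply, updateRow_apply]
  split_ifs <;> simp

theorem restH_hdet_map {S : Type*} [CommRing S] (φ : R →+* S) (l : α) (X₀ : Finset α)
    (blk : α → ℕ) (q : ℕ) (A : Matrix α α R) :
    φ (restH (hdet l) X₀ blk q A) = restH (hdet l) X₀ blk q (A.map φ) := by
  induction q generalizing A with
  | zero => exact hdet_map φ l A
  | succ q ih =>
    rw [restH, restH, map_sum]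
    apply sum_congr rfl
    intro σ _
    rw [ih]
    congr 1
    rw [← blockMat_map_root φ, ← pact_map]
    ext i k
    simp

end restH

variable {α : Type*} [Fintype α] [DecidableEq α]

/-- `X·1 - F` -/
noncomputable def xM (F : Matrix α α ℝ) : Matrix α α ℝ[X] :=
  (Polynomial.X : ℝ[X]) • (1 : Matrix α α ℝ[X]) - F.map C

theorem xM_eval (F : Matrix α α ℝ) (x : ℝ) :
    (xM F).map (Polynomial.evalRingHom x) = x • (1 : Matrix α α ℝ) - F := by
  ext i k
  simp only [xM, Matrix.map_apply, Matrix.sub_apply, Matrix.smul_apply, smul_eq_mul,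
    Polynomial.coe_evalRingHom, Matrix.one_apply]
  split_ifs <;> simp

theorem xM_colSum (F : Matrix α α ℝ) (k : α) :
    ∑ i, xM F i k = Polynomial.X - C (∑ i, F i k) := by
  simp only [xM, Matrix.sub_apply, sum_sub_distrib, Matrix.smul_apply, smul_eq_mul,
    Matrix.one_apply, Matrix.map_apply, map_sum]
  congr 1
  simp only [mul_ite, mul_one, mul_zero, sum_ite_eq', mem_univ, ↓reduceIte]

theorem sumOuter_isSymm {L : Multiset (Finset α)} : (sumOuter ℝ L).IsSymm := by
  unfold sumOuter
  induction L using Multiset.induction_on with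
  | empty => simp [Matrix.IsSymm]
  | cons b L ih =>
    rw [Multiset.map_cons, Multiset.sum_cons]
    exact (outer_isSymm b).add ih

theorem root_good {d q : ℕ} (hd : 3 ≤ d) (hq : q + 1 ≤ d) {X₀ : Finset α} (hdiv : d ∣ X₀.card)
    {l : α} {b₀ : Finset α} {Fb : Multiset (Finset α)} (h : FixedBlocks d X₀ l b₀ Fb)
    (hcol : ∀ v, ∑ i, sumOuter ℝ (b₀ ::ₘ Fb) i v + d * q * (if v ∈ X₀ then 1 else 0) =
      (d : ℝ) ^ 2) :
    GoodPoly ((d : ℝ) ^ 2) (4 * ((d : ℝ) - 1))
      (restSum d X₀ q (xM (sumOuter ℝ (b₀ ::ₘ Fb)))) := by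
  obtain ⟨s, hs⟩ := hdiv
  obtain ⟨blk, hb, hbase⟩ := exists_partition_base (by omega : 0 < d) hs
  set F := sumOuter ℝ (b₀ ::ₘ Fb) with hF
  have hsymm : F.IsSymm := sumOuter_isSymm
  have hnice := nice_rest d X₀ q
  refine ⟨hnice.rr F hsymm, ?_, restH (hdet l) X₀ blk q (xM F), ?_, ?_⟩
  · obtain ⟨c, hc, h2⟩ := hnice.lead
    have := h2 F hsymm
    unfold xM
    rw [this]
    exact hc
  · rw [restSum_eq_restH (hbase ℝ[X])]
    apply restH_deflate hb l q
    intro k
    rw [xM_colSum]
    have h1 := hcol k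
    have h2 : C (∑ i, F i k) + (d : ℝ[X]) * q * (if k ∈ X₀ then 1 else 0) = C ((d : ℝ) ^ 2) := by
      rw [← h1]
      split_ifs <;> simp
    rw [← h2]
    ring
  · intro x hx
    have h1 := restH_hdet_map (Polynomial.evalRingHom x) l X₀ blk q (xM F)
    rw [xM_eval, Polynomial.coe_evalRingHom] at h1
    rw [h1]
    exact root_pos hd hx hq h hb hs

end Vale.Agent.P049
end
end
end

section

section

section

/-! The greedy run, on lists, with an arbitrary admissible choice function. -/

namespace Vale.Agent.P049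

open Finset Equiv Function Matrix Polynomial

variable {m : ℕ}

/-- sum of the block matrices -/
def FM (R : Type*) [CommRing R] (m : ℕ) (blocks : List (List ℕ)) : Matrix (Fin m) (Fin m) R :=
  sumOuter R ((blocks.map (fs m) : List (Finset (Fin m))) : Multiset (Finset (Fin m)))

theorem FM_cons (R : Type*) [CommRing R] (b : List ℕ) (blocks : List (List ℕ)) :
    FM R m (b :: blocks) = outer R (fs m b) + FM R m blocks := by
  unfold FM sumOuter
  rw [List.map_cons, ← Multiset.cons_coe, Multiset.map_cons, Multiset.sum_cons]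

theorem FM_nil (R : Type*) [CommRing R] : FM R m [] = 0 := by
  unfold FM sumOuter; simp

/-- state: blocks, remaining elements of the piece, partial block -/
abbrev State := List (List ℕ) × List ℕ × List ℕ

/-- generic step -/
def stepG (d : ℕ) (pk : State → ℕ) (s : State) : State :=
  if s.2.2.length + 1 = d then ((pk s :: s.2.2) :: s.1, s.2.1.filter (· ≠ pk s), [])
  else (s.1, s.2.1.filter (· ≠ pk s), pk s :: s.2.2)

/-- invariant of a state; `q` = number of full pieces after the current one -/
structure Inv (m d q : ℕ) (X₀ : List ℕ) (s : State) : Prop where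
  bok : ∀ b ∈ s.1, b.length = d ∧ ListOK m b
  xok : ListOK m s.2.1
  gok : ListOK m s.2.2
  disj : ∀ x ∈ s.2.1, x ∉ s.2.2
  glt : s.2.2.length < d
  dvd : d ∣ s.2.1.length + s.2.2.length
  col : ColOK d (fs m X₀) q (fs m s.2.1) (fs m s.2.2) (FM ℝ m s.1)
  good : GoodPoly ((d : ℝ) ^ 2) (4 * ((d : ℝ) - 1))
    (nodeP d (fs m X₀) q s.2.1.length (fs m s.2.1) (fs m s.2.2) (FM ℝ m s.1))

/-- the value of the child `a` of a state, at `c` -/
noncomputable def childVal (m d q : ℕ) (X₀ : List ℕ) (s : State) (a : Fin m) : ℝ :=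
  (child d (restSum d (fs m X₀) q) (s.2.1.length - 1) (fs m s.2.1) (fs m s.2.2)
    (xM (FM ℝ m s.1)) a).eval (4 * ((d : ℝ) - 1))

/-- the choice function is admissible -/
def PickOK (m d q : ℕ) (X₀ : List ℕ) (pk : State → ℕ) : Prop :=
  ∀ s, Inv m d q X₀ s → s.2.1 ≠ [] → (∃ a : Fin m, (a : ℕ) ∈ s.2.1 ∧ childVal m d q X₀ s a < 0) →
    ∃ a : Fin m, pk s = a ∧ (a : ℕ) ∈ s.2.1 ∧ childVal m d q X₀ s a < 0

theorem disjoint_fs {X γ : List ℕ} (h : ∀ x ∈ X, x ∉ γ) : Disjoint (fs m X) (fs m γ) := by
  rw [disjoint_left]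
  intro i hi hi'
  rw [mem_fs] at hi hi'
  exact h _ hi hi'

theorem length_filter_ne {l : List ℕ} (h : l.Nodup) {a : ℕ} (ha : a ∈ l) :
    (l.filter (· ≠ a)).length + 1 = l.length := by
  have h1 : l.filter (· ≠ a) = l.erase a := by
    rw [h.erase_eq_filter]
    congr 1
    funext x
    simp [bne, decide_not, beq_eq_decide]
  rw [h1, List.length_erase_of_mem ha]
  have := List.length_pos_of_mem ha
  omega

theorem Inv.step {d q : ℕ} (hd : 3 ≤ d) {X₀ : List ℕ} (hX₀ : ListOK m X₀) (hdiv0 : d ∣ X₀.length)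
    {pk : State → ℕ} (hpk : PickOK m d q X₀ pk) {s : State} (h : Inv m d q X₀ s)
    (hne : s.2.1 ≠ []) :
    Inv m d q X₀ (stepG d pk s) ∧ (stepG d pk s).2.1.length + 1 = s.2.1.length := by
  obtain ⟨blocks, X, γ⟩ := s
  obtain ⟨hbok, hxok, hgok, hdisj, hglt, hdvd, hcol, hgood⟩ := h
  simp only at hbok hxok hgok hdisj hglt hdvd hcol hgood hne
  have hd3 : (3 : ℝ) ≤ d := by exact_mod_cast hd
  have hc : 4 * ((d : ℝ) - 1) < (d : ℝ) ^ 2 := by nlinarith only [hd3]
  obtain ⟨n, hn⟩ : ∃ n, X.length = n + 1 :=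
    ⟨X.length - 1, by have := List.length_pos_of_ne_nil hne; omega⟩
  have hcard : (fs m X).card = n + 1 := by rw [card_fs hxok, hn]
  have hcardγ : (fs m γ).card = γ.length := card_fs hgok
  rw [hn] at hgood
  have hex := node_exists_child hc hgood
  have hinv : Inv m d q X₀ (blocks, X, γ) :=
    ⟨hbok, hxok, hgok, hdisj, hglt, hdvd, hcol, by rw [hn]; exact hgood⟩
  obtain ⟨a, hpa, haX, hneg⟩ := hpk (blocks, X, γ) hinv hne (by
    obtain ⟨a, ha, hneg⟩ := hex
    refine ⟨a, mem_fs.1 ha, ?_⟩
    unfold childVal xM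
    simp only [hn, Nat.add_sub_cancel]
    exact hneg)
  simp only at haX
  unfold childVal at hneg
  simp only [hn, Nat.add_sub_cancel] at hneg
  have hdisjF : Disjoint (fs m X) (fs m γ) := disjoint_fs hdisj
  have hstep := node_step (by omega) hc sumOuter_isSymm hcard hdisjF (by rw [hcardγ]; exact hglt)
    (by rw [hcardγ, card_fs hxok]; exact hdvd) (by rw [card_fs hX₀]; exact hdiv0) hcol hgood
    (mem_fs.2 haX) hneg
  have haγ : (a : ℕ) ∉ γ := hdisj a haX
  have hlen := length_filter_ne hxok.1 haX
  have hokf : ListOK m (X.filter (· ≠ (a : ℕ))) := hxok.filter _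
  have hokγ : ListOK m ((a : ℕ) :: γ) := by
    refine ⟨List.nodup_cons.2 ⟨haγ, hgok.1⟩, ?_⟩
    intro x hx
    rw [List.mem_cons] at hx
    rcases hx with rfl | hx
    · exact a.2
    · exact hgok.2 x hx
  have hlenn : (X.filter (· ≠ (a : ℕ))).length = n := by omega
  unfold stepG
  simp only [hpa]
  by_cases hcase : γ.length + 1 = d
  · simp only [hcase, if_true]
    rw [child_pos (by rw [hcardγ]; exact hcase)] at hstep
    refine ⟨⟨?_, hokf, ⟨List.nodup_nil, by simp⟩, by simp, by simpa using (by omega : 0 < d), ?_,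
      ?_, ?_⟩, by simpa using hlen⟩
    · intro b hb
      simp only [List.mem_cons] at hb
      rcases hb with rfl | hb
      · exact ⟨by simpa using hcase, hokγ⟩
      · exact hbok b hb
    · simp only [List.length_nil, add_zero]
      have h1 : X.length + γ.length = (X.filter (· ≠ (a : ℕ))).length + d := by omega
      rw [h1] at hdvd
      exact (Nat.dvd_add_left (dvd_refl d)).1 hdvd
    · intro v
      have h1 := hcol v
      simp only [FM_cons, fs_nil, notMem_empty, or_false, fs_filter, Matrix.add_apply,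
        sum_add_distrib]
      have h2 := sum_outer (fs m ((a : ℕ) :: γ)) v
      rw [h2, card_fs hokγ, List.length_cons, hcase, fs_cons]
      have haF : a ∉ fs m γ := fun h => haγ (mem_fs.1 h)
      have hdj : v ∈ fs m X → v ∉ fs m γ := fun hv => disjoint_left.1 hdisjF hv
      by_cases hva : v = a
      · subst hva
        simp only [mem_insert_self, if_true, mem_erase, ne_eq, not_true_eq_false, false_and,
          if_false, mul_zero, add_zero]
        simp only [mem_fs.2 haX, true_or, if_true, mul_one] at h1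
        linarith only [h1]
      · by_cases hv : v ∈ fs m γ
        · have hv' : v ∉ fs m X := fun h => hdj h hv
          simp only [hv, or_true, if_true, mul_one] at h1
          simp only [mem_insert_of_mem hv, if_true, mem_erase, hv', and_false, if_false, mul_zero,
            add_zero]
          linarith only [h1]
        · simp only [hv, or_false] at h1
          simp only [mem_insert, hva, hv, or_self, if_false, zero_add, mem_erase, ne_eq,
            not_false_eq_true, true_and]
          linarith only [h1]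
    · simp only [hlenn, fs_filter, fs_nil, FM_cons]
      unfold nodeP
      rw [fs_cons, add_comm (outer ℝ _), ← xMat_sub, outer_map]
      exact hstep
  · simp only [hcase, if_false]
    rw [child_neg (by rw [hcardγ]; exact hcase)] at hstep
    refine ⟨⟨hbok, hokf, hokγ, ?_, ?_, ?_, ?_, ?_⟩, by simpa only [ne_eq, decide_not] using hlen⟩
    · intro x hx
      simp only [List.mem_filter, ne_eq, decide_not, Bool.not_eq_eq_eq_not, Bool.not_true,
        decide_eq_false_iff_not] at hx
      simp only [List.mem_cons, not_or]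
      exact ⟨hx.2, hdisj x hx.1⟩
    · simp only [List.length_cons]; omega
    · simp only [List.length_cons]
      have h1 : (X.filter (· ≠ (a : ℕ))).length + (γ.length + 1) = X.length + γ.length := by omega
      rw [h1]; exact hdvd
    · intro v
      have h1 := hcol v
      simp only [fs_filter, fs_cons]
      by_cases hva : v = a
      · subst hva
        simp only [mem_insert_self, or_true, if_true]
        simp only [mem_fs.2 haX, true_or, if_true] at h1
        exact h1
      · simp only [mem_insert, hva, false_or, mem_erase, ne_eq, not_false_eq_true, true_and]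
        exact h1
    · simp only [hlenn, fs_filter, fs_cons]
      unfold nodeP
      exact hstep

/-- The run of one piece. -/
theorem Inv.run {d q : ℕ} (hd : 3 ≤ d) {X₀ : List ℕ} (hX₀ : ListOK m X₀) (hdiv0 : d ∣ X₀.length)
    {pk : State → ℕ} (hpk : PickOK m d q X₀ pk) : ∀ (n : ℕ) (s : State), Inv m d q X₀ s →
    s.2.1.length = n → Inv m d q X₀ ((stepG d pk)^[n] s) ∧ ((stepG d pk)^[n] s).2.1 = [] := by
  intro n
  induction n with
  | zero =>
    intro s h hs
    exact ⟨h, List.length_eq_zero_iff.1 hs⟩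
  | succ n ih =>
    intro s h hs
    have hne : s.2.1 ≠ [] := by
      intro h'; rw [h'] at hs; simp at hs
    obtain ⟨h1, h2⟩ := h.step hd hX₀ hdiv0 hpk hne
    rw [iterate_succ_apply]
    exact ih _ h1 (by omega)

/-- invariant between pieces: `q` full pieces are missing -/
structure PInv (m d q : ℕ) (X₀ : List ℕ) (blocks : List (List ℕ)) : Prop where
  bok : ∀ b ∈ blocks, b.length = d ∧ ListOK m b
  col : ∀ v, ∑ i, FM ℝ m blocks i v + d * q * (if v ∈ fs m X₀ then 1 else 0) = (d : ℝ) ^ 2
  good : GoodPoly ((d : ℝ) ^ 2) (4 * ((d : ℝ) - 1))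
    (restSum d (fs m X₀) q (xM (FM ℝ m blocks)))

theorem PInv.step {d q : ℕ} (hd : 3 ≤ d) {X₀ : List ℕ} (hX₀ : ListOK m X₀)
    (hdiv0 : d ∣ X₀.length) {pk : State → ℕ} (hpk : PickOK m d q X₀ pk)
    {blocks : List (List ℕ)} (h : PInv m d (q + 1) X₀ blocks) :
    PInv m d q X₀ ((stepG d pk)^[X₀.length] (blocks, X₀, [])).1 := by
  have h0 : Inv m d q X₀ (blocks, X₀, []) := by
    refine ⟨h.bok, hX₀, ⟨List.nodup_nil, by simp⟩, by simp, by simpa only [List.length_nil] using (by omega : 0 < d),
      by simpa only [List.length_nil, add_zero] using hdiv0, ?_, ?_⟩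
    · intro v
      have := h.col v
      simp only [fs_nil, notMem_empty, or_false]
      rw [← this]
      push_cast
      ring
    · have := h.good
      rw [restSum_succ, card_fs hX₀] at this
      simp only [fs_nil]
      exact this
  obtain ⟨h1, h2⟩ := h0.run hd hX₀ hdiv0 hpk X₀.length _ rfl
  set s := (stepG d pk)^[X₀.length] (blocks, X₀, []) with hs
  have hγ : s.2.2 = [] := by
    have h3 := h1.dvd
    rw [h2, List.length_nil, zero_add] at h3
    exact List.length_eq_zero_iff.1 (Nat.eq_zero_of_dvd_of_lt h3 h1.glt)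
  refine ⟨h1.bok, ?_, ?_⟩
  · intro v
    have := h1.col v
    rw [h2, hγ, fs_nil] at this
    simpa only [mul_ite, mul_one, mul_zero, notMem_empty, or_self, ↓reduceIte, add_zero] using this
  · have := h1.good
    rw [h2, hγ, fs_nil] at this
    exact this

end Vale.Agent.P049
end
end
end

section

section

section

/-! Few negative exceptional eigenvalues for graphs which are bipartite up to few vertices. -/

namespace Vale.Agent.P049

open Finset Matrix

variable {V : Type*} [Fintype V] [DecidableEq V]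

/-- number of eigenvalues with a property, through the characteristic polynomial -/
theorem card_roots_filter {A : Matrix V V ℝ} (hA : A.IsHermitian) (p : ℝ → Prop)
    [DecidablePred p] :
    (A.charpoly.roots.filter p).card = (univ.filter fun j => p (hA.eigenvalues j)).card := by
  rw [hA.roots_charpoly_eq_eigenvalues, Multiset.filter_map, Multiset.card_map]
  rfl

theorem quad_eq {A : Matrix V V ℝ} (hA : A.IsHermitian) (v : V → ℝ) :
    v ⬝ᵥ (A *ᵥ v) = ∑ j, hA.eigenvalues j *
      ((star (hA.eigenvectorUnitary : Matrix V V ℝ)) *ᵥ v) j ^ 2 := by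
  set U : Matrix V V ℝ := (hA.eigenvectorUnitary : Matrix V V ℝ) with hU
  have h1 : A = U * diagonal hA.eigenvalues * star U := by
    have := hA.spectral_theorem
    simpa only [RCLike.ofReal_real_eq_id, CompTriple.comp_eq, Unitary.conjStarAlgAut_apply] using this
  conv_lhs => rw [h1]
  rw [← mulVec_mulVec, ← mulVec_mulVec, dotProduct_mulVec]
  have h2 : v ᵥ* U = star U *ᵥ v := by
    rw [star_eq_conjTranspose, conjTranspose_eq_transpose_of_trivial, mulVec_transpose]
  rw [h2]
  unfold dotProduct
  apply sum_congr rfl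
  intro j _
  rw [mulVec_diagonal]
  ring

theorem norm_eq {A : Matrix V V ℝ} (hA : A.IsHermitian) (v : V → ℝ) :
    v ⬝ᵥ v = ∑ j, ((star (hA.eigenvectorUnitary : Matrix V V ℝ)) *ᵥ v) j ^ 2 := by
  set U : Matrix V V ℝ := (hA.eigenvectorUnitary : Matrix V V ℝ) with hU
  have h1 : U * star U = 1 := mem_unitaryGroup_iff.1 (hA.eigenvectorUnitary).2
  have h3 : v ⬝ᵥ v = v ⬝ᵥ ((U * star U) *ᵥ v) := by rw [h1, one_mulVec]
  rw [h3, ← mulVec_mulVec, dotProduct_mulVec]
  have h2 : v ᵥ* U = star U *ᵥ v := by
    rw [star_eq_conjTranspose, conjTranspose_eq_transpose_of_trivial, mulVec_transpose]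
  rw [h2]
  unfold dotProduct
  apply sum_congr rfl
  intro j _
  ring

/-- If the graph of `A` is bipartite after deleting the vertices in `P`, then `A` has at most
`|P|` more eigenvalues below `-r` than above `r`. -/
theorem neg_count {A : Matrix V V ℝ} (hA : A.IsHermitian) (r : ℝ) (σ : V → ℝ)
    (hσ : ∀ v, σ v = 1 ∨ σ v = -1) (P : Finset V)
    (h : ∀ i j, i ∉ P → j ∉ P → A i j ≠ 0 → σ i * σ j = -1) :
    (A.charpoly.roots.filter fun μ => μ < -r).card ≤
      P.card + (A.charpoly.roots.filter fun μ => r < μ).card := by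
  rw [card_roots_filter hA, card_roots_filter hA]
  set I := univ.filter fun j => hA.eigenvalues j < -r with hI
  set J := univ.filter fun j => r < hA.eigenvalues j with hJ
  by_contra hcon
  push Not at hcon
  set U : Matrix V V ℝ := star (hA.eigenvectorUnitary : Matrix V V ℝ) with hU
  -- the linear constraints
  let T : (V → ℝ) →ₗ[ℝ] ((↥(Iᶜ) ⊕ (↥P ⊕ ↥J)) → ℝ) := LinearMap.pi
    (Sum.elim (fun j => (LinearMap.proj (j : V)) ∘ₗ U.mulVecLin)
      (Sum.elim (fun p => LinearMap.proj (p : V))
        (fun j => (LinearMap.proj (j : V)) ∘ₗ U.mulVecLin ∘ₗ (diagonal σ).mulVecLin)))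
  have hfr : Module.finrank ℝ ((↥(Iᶜ) ⊕ (↥P ⊕ ↥J)) → ℝ) < Module.finrank ℝ (V → ℝ) := by
    rw [Module.finrank_fintype_fun_eq_card, Module.finrank_fintype_fun_eq_card,
      Fintype.card_sum, Fintype.card_sum, Fintype.card_coe, Fintype.card_coe, Fintype.card_coe,
      card_compl]
    have h1 : I.card ≤ Fintype.card V := card_le_univ _
    omega
  have hker := LinearMap.ker_ne_bot_of_finrank_lt (f := T) hfr
  obtain ⟨v, hv, hv0⟩ := (Submodule.ne_bot_iff _).1 hker
  rw [LinearMap.mem_ker] at hv
  have c1 : ∀ j, j ∉ I → (U *ᵥ v) j = 0 := by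
    intro j hj
    have := congrFun hv (Sum.inl ⟨j, mem_compl.2 hj⟩)
    exact this
  have c2 : ∀ p ∈ P, v p = 0 := by
    intro p hp
    have := congrFun hv (Sum.inr (Sum.inl ⟨p, hp⟩))
    exact this
  have c3 : ∀ j ∈ J, (U *ᵥ (diagonal σ *ᵥ v)) j = 0 := by
    intro j hj
    have := congrFun hv (Sum.inr (Sum.inr ⟨j, hj⟩))
    exact this
  have hvv : 0 < v ⬝ᵥ v := by
    have h1 : 0 ≤ v ⬝ᵥ v := by
      unfold dotProduct
      exact sum_nonneg fun i _ => mul_self_nonneg _
    rcases h1.lt_or_eq with h2 | h2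
    · exact h2
    · exact absurd (dotProduct_self_eq_zero.1 h2.symm) hv0
  -- the quadratic form at v
  have q1 : v ⬝ᵥ (A *ᵥ v) < -r * (v ⬝ᵥ v) := by
    rw [quad_eq hA, norm_eq hA, mul_sum]
    apply sum_lt_sum
    · intro j _
      by_cases hj : j ∈ I
      · rw [hI, mem_filter] at hj
        exact mul_le_mul_of_nonneg_right hj.2.le (sq_nonneg _)
      · rw [c1 j hj]; simp
    · rw [norm_eq hA] at hvv
      obtain ⟨j, _, hj⟩ := exists_lt_of_sum_lt (s := univ) (f := fun _ : V => (0 : ℝ))
        (g := fun j => (U *ᵥ v) j ^ 2) (by simpa only [sum_const_zero] using hvv)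
      refine ⟨j, mem_univ _, ?_⟩
      by_cases hjI : j ∈ I
      · rw [hI, mem_filter] at hjI
        exact mul_lt_mul_of_pos_right hjI.2 hj
      · rw [c1 j hjI] at hj
        simp at hj
  -- the quadratic form at the twisted vector
  set w := diagonal σ *ᵥ v with hw
  have hwi : ∀ i, w i = σ i * v i := fun i => mulVec_diagonal _ _ _
  have hww : w ⬝ᵥ w = v ⬝ᵥ v := by
    unfold dotProduct
    apply sum_congr rfl
    intro i _
    rw [hwi]
    rcases hσ i with h1 | h1 <;> rw [h1] <;> ring
  have q2 : w ⬝ᵥ (A *ᵥ w) = -(v ⬝ᵥ (A *ᵥ v)) := by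
    unfold dotProduct mulVec dotProduct
    rw [← sum_neg_distrib]
    apply sum_congr rfl
    intro i _
    rw [mul_sum, mul_sum, ← sum_neg_distrib]
    apply sum_congr rfl
    intro j _
    rw [hwi, hwi]
    change σ i * v i * (A i j * (σ j * v j)) = -(v i * (A i j * v j))
    by_cases hi : i ∈ P
    · rw [c2 i hi]; ring
    · by_cases hj : j ∈ P
      · rw [c2 j hj]; ring
      · by_cases ha : A i j = 0
        · rw [ha]; ring
        · have h1 := h i j hi hj ha
          linear_combination (v i * A i j * v j) * h1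
  have q3 : w ⬝ᵥ (A *ᵥ w) ≤ r * (w ⬝ᵥ w) := by
    rw [quad_eq hA, norm_eq hA, mul_sum]
    apply sum_le_sum
    intro j _
    by_cases hj : j ∈ J
    · rw [c3 j hj]; simp
    · rw [hJ, mem_filter] at hj
      have h1 : hA.eigenvalues j ≤ r := by
        by_contra h2
        exact hj ⟨mem_univ _, not_le.1 h2⟩
      exact mul_le_mul_of_nonneg_right h1 (sq_nonneg _)
  rw [q2, hww] at q3
  linarith only [q1, q3]

end Vale.Agent.P049
end
end
end

section

section

section

/-! The upper half of the Ramanujan condition. -/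

namespace Vale.Agent.P049

/-- A (simple) `d`-regular graph is upper Ramanujan if the eigenvalues of its adjacency matrix,
listed with multiplicity (the roots of the characteristic polynomial), are `d` and further
eigenvalues `μ` with `μ ≤ 2 √(d-1)`. -/
def IsUpperRamanujan {V : Type*} [Fintype V] [DecidableEq V] (d : ℕ) (G : SimpleGraph V)
    [DecidableRel G.Adj] : Prop :=
  G.IsRegularOfDegree d ∧
    ∃ s : Multiset ℝ, (G.adjMatrix ℝ).charpoly.roots = (d : ℝ) ::ₘ s ∧
      ∀ μ ∈ s, μ ≤ 2 * √((d : ℝ) - 1)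

end Vale.Agent.P049
end
end
end

section

section

section

/-! Matching sums with additional paired vertices (edges inside the left side). -/

namespace Vale.Agent.P049

open Finset

section Defs

variable {α : Type*} [DecidableEq α] {R : Type*} [CommRing R]

/-- The base function of a pairing: the matching sum of the pairs. -/
structure PairBase (y : R) (pt : α → α) (F : Finset α → R) : Prop where
  empty : F ∅ = 1
  step : ∀ W, ∀ v ∈ W, F W = y * F (W.erase v) -
    if pt v ≠ v ∧ pt v ∈ W then y * F ((W.erase v).erase (pt v)) else 0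

theorem foldr_opb_empty (N : Multiset (Finset α)) (F : Finset α → R) :
    N.foldr opb F ∅ = F ∅ := by
  induction N using Multiset.induction_on with
  | empty => rfl
  | cons b N ih => rw [foldr_opb_cons, ih]; simp

/-- Expansion at a vertex. -/
theorem foldr_vertex {y : R} {pt : α → α} {F : Finset α → R} (hF : PairBase y pt F)
    (N : Multiset (Finset α)) {v : α} : ∀ {W : Finset α}, v ∈ W →
    N.foldr opb F W = y * N.foldr opb F (W.erase v) -
      ((N.filter (v ∈ ·)).map fun b => (N.erase b).foldr opb F (W.erase v)).sum -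
      if pt v ≠ v ∧ pt v ∈ W then y * N.foldr opb F ((W.erase v).erase (pt v)) else 0 := by
  induction N using Multiset.induction_on with
  | empty =>
    intro W hv
    simp only [Multiset.foldr_zero, Multiset.filter_zero, Multiset.map_zero, Multiset.sum_zero,
      sub_zero]
    exact hF.step W v hv
  | cons b N ih =>
    intro W hv
    have h1 : ∀ b' ∈ N.filter (v ∈ ·), ((b ::ₘ N).erase b').foldr opb F (W.erase v) =
        (N.erase b').foldr opb F (W.erase v) -
          ∑ v' ∈ b ∩ W.erase v, (N.erase b').foldr opb F ((W.erase v).erase v') := by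
      intro b' hb'
      rw [Multiset.erase_cons_tail_of_mem (Multiset.mem_filter.1 hb').1, foldr_opb_cons]
    have h2 : ((N.filter (v ∈ ·)).map fun b' =>
          ((b ::ₘ N).erase b').foldr opb F (W.erase v)).sum =
        ((N.filter (v ∈ ·)).map fun b' => (N.erase b').foldr opb F (W.erase v)).sum -
        ∑ v' ∈ b ∩ W.erase v,
          ((N.filter (v ∈ ·)).map fun b' =>
            (N.erase b').foldr opb F ((W.erase v).erase v')).sum := by
      rw [Multiset.map_congr rfl h1, Multiset.sum_map_sub, map_sum_finset_sum]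
    have h3 : ∀ v' ∈ b ∩ W.erase v, N.foldr opb F (W.erase v') =
        y * N.foldr opb F ((W.erase v).erase v') -
        ((N.filter (v ∈ ·)).map fun b' =>
          (N.erase b').foldr opb F ((W.erase v).erase v')).sum -
        if pt v ≠ v ∧ pt v ∈ W.erase v' then
          y * N.foldr opb F (((W.erase v).erase v').erase (pt v)) else 0 := by
      intro v' hv'
      simp only [mem_inter, mem_erase] at hv'
      have := ih (show v ∈ W.erase v' from mem_erase.2 ⟨fun h => hv'.2.1 h.symm, hv⟩)
      rw [erase_right_comm (a := v') (b := v)] at this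
      exact this
    -- the pair term for `b ::ₘ N`
    have h5 : (if pt v ≠ v ∧ pt v ∈ W then
          y * (b ::ₘ N).foldr opb F ((W.erase v).erase (pt v)) else 0) =
        (if pt v ≠ v ∧ pt v ∈ W then y * N.foldr opb F ((W.erase v).erase (pt v)) else 0) -
        ∑ v' ∈ b ∩ W.erase v, if pt v ≠ v ∧ pt v ∈ W.erase v' then
          y * N.foldr opb F (((W.erase v).erase v').erase (pt v)) else 0 := by
      by_cases hp : pt v ≠ v ∧ pt v ∈ W
      · rw [if_pos hp, if_pos hp, foldr_opb_cons, mul_sub, mul_sum]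
        congr 1
        have h6 : ∀ v' ∈ b ∩ W.erase v, (if pt v ≠ v ∧ pt v ∈ W.erase v' then
            y * N.foldr opb F (((W.erase v).erase v').erase (pt v)) else 0) =
            if v' ≠ pt v then y * N.foldr opb F (((W.erase v).erase (pt v)).erase v') else 0 := by
          intro v' _
          by_cases h7 : v' = pt v
          · subst h7; simp
          · rw [if_pos (show v' ≠ pt v from h7),
              if_pos ⟨hp.1, mem_erase.2 ⟨fun h => h7 h.symm, hp.2⟩⟩, erase_right_comm]
        rw [sum_congr rfl h6, ← sum_filter]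
        apply sum_congr _ (fun _ _ => rfl)
        ext z
        simp only [mem_inter, mem_erase, mem_filter, ne_eq]
        (clear * - hp; tauto)
      · rw [if_neg hp, if_neg hp, sum_eq_zero, sub_zero]
        intro v' _
        rw [if_neg]
        rintro ⟨h6, h7⟩
        exact hp ⟨h6, mem_of_mem_erase h7⟩
    rw [h5, foldr_opb_cons, foldr_opb_cons, ih hv]
    by_cases hb : v ∈ b
    · rw [Multiset.filter_cons_of_pos (p := fun c => v ∈ c) _ hb, Multiset.map_cons,
        Multiset.sum_cons, h2, Multiset.erase_cons_head]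
      have h4 : b ∩ W = insert v (b ∩ W.erase v) := by
        ext z; simp only [mem_inter, mem_insert, mem_erase]
        constructor
        · rintro ⟨h1, h2⟩
          by_cases h : z = v
          · exact Or.inl h
          · exact Or.inr ⟨h1, h, h2⟩
        · rintro (rfl | ⟨h1, _, h2⟩)
          · exact ⟨hb, hv⟩
          · exact ⟨h1, h2⟩
      rw [h4, sum_insert (by simp), sum_congr rfl h3]
      rw [sum_sub_distrib, sum_sub_distrib, ← mul_sum]
      ring
    · rw [Multiset.filter_cons_of_neg (p := fun c => v ∈ c) _ hb, h2]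
      have h4 : b ∩ W = b ∩ W.erase v := by
        ext z; simp only [mem_inter, mem_erase]
        constructor
        · rintro ⟨h1, h2⟩
          exact ⟨h1, fun h => hb (h ▸ h1), h2⟩
        · rintro ⟨h1, _, h2⟩
          exact ⟨h1, h2⟩
      rw [h4, sum_congr rfl h3]
      rw [sum_sub_distrib, sum_sub_distrib, ← mul_sum]
      ring

end Defs

section Pos

variable {α : Type*} [DecidableEq α]

/-- degree of `v` in the pairing restricted to `W` -/
def pdW (pt : α → α) (W : Finset α) (v : α) : ℕ := if pt v ≠ v ∧ pt v ∈ W then 1 else 0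

theorem pair_bounds {d : ℕ} (hd : 3 ≤ d) {y : ℝ} (hy : 4 * ((d : ℝ) - 1) ≤ y) {pt : α → α}
    (hpt : ∀ i, pt (pt i) = i) {F : Finset α → ℝ} (hF : PairBase y pt F) : ∀ (n : ℕ)
    (W : Finset α) (N : Multiset (Finset α)), W.card + N.card ≤ n →
    (∀ b ∈ N, (b ∩ W).card ≤ d) → (∀ v ∈ W, (N.filter (v ∈ ·)).card + pdW pt W v ≤ d) →
    (0 < N.foldr opb F W) ∧
    (∀ v ∈ W, (N.filter (v ∈ ·)).card + pdW pt W v ≤ d - 1 →
      y / 2 * N.foldr opb F (W.erase v) ≤ N.foldr opb F W) ∧
    (∀ b ∈ N, (b ∩ W).card ≤ d - 1 → (N.erase b).foldr opb F W ≤ 2 * N.foldr opb F W) := by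
  have hd' : (3 : ℝ) ≤ d := by exact_mod_cast hd
  have hd1 : ((d - 1 : ℕ) : ℝ) = (d : ℝ) - 1 := by
    rw [Nat.cast_sub (by omega)]; simp
  intro n
  induction n with
  | zero =>
    intro W N hN _ _
    have hW : W = ∅ := card_eq_zero.1 (by omega)
    have hN0 : N = 0 := Multiset.card_eq_zero.1 (by omega)
    subst hW
    subst hN0
    refine ⟨?_, ?_, ?_⟩
    · rw [foldr_opb_empty, hF.empty]; norm_num
    · simp only [notMem_empty, Multiset.filter_zero, Multiset.card_zero, zero_add, not_false_eq_true, erase_eq_of_notMem, Multiset.foldr_zero, IsEmpty.forall_iff, implies_true]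
    · simp only [Multiset.notMem_zero, inter_empty, card_empty, zero_le, not_false_eq_true, Multiset.erase_of_notMem, Multiset.foldr_zero, forall_const, IsEmpty.forall_iff, implies_true]
  | succ n ih =>
    intro W N hN hb hv
    have hmono : ∀ {W W' : Finset α} (b : Finset α), W ⊆ W' → (b ∩ W).card ≤ (b ∩ W').card :=
      fun b h => card_le_card (inter_subset_inter_left h)
    have hpd : ∀ {W W' : Finset α} (v : α), W ⊆ W' → pdW pt W v ≤ pdW pt W' v := by
      intro W W' v h
      unfold pdW
      by_cases h1 : pt v ≠ v ∧ pt v ∈ W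
      · rw [if_pos h1, if_pos ⟨h1.1, h h1.2⟩]
      · rw [if_neg h1]; exact Nat.zero_le _
    -- sums at a vertex
    have hvert : ∀ v ∈ W, N.foldr opb F W ≥
        (y - 2 * (((N.filter (v ∈ ·)).card + pdW pt W v : ℕ) : ℝ)) * N.foldr opb F (W.erase v) ∧
        0 < N.foldr opb F (W.erase v) := by
      intro v hvW
      have hcard : (W.erase v).card + N.card ≤ n := by
        have := card_erase_add_one hvW; omega
      have hb' : ∀ b ∈ N, (b ∩ W.erase v).card ≤ d := fun b hbL =>
        (hmono b (erase_subset _ _)).trans (hb b hbL)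
      have hv' : ∀ w ∈ W.erase v, (N.filter (w ∈ ·)).card + pdW pt (W.erase v) w ≤ d :=
        fun w hw => (Nat.add_le_add_left (hpd w (erase_subset _ _)) _).trans
          (hv w (mem_of_mem_erase hw))
      obtain ⟨i1, i2, i3⟩ := ih (W.erase v) N hcard hb' hv'
      refine ⟨?_, i1⟩
      rw [foldr_vertex hF N hvW]
      have h1 : ((N.filter (v ∈ ·)).map fun b => (N.erase b).foldr opb F (W.erase v)).sum ≤
          (N.filter (v ∈ ·)).card * (2 * N.foldr opb F (W.erase v)) := by
        apply multiset_sum_le_card_mul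
        intro b hbm
        rw [Multiset.mem_filter] at hbm
        apply i3 b hbm.1
        have h2 : (b ∩ W.erase v).card + 1 = (b ∩ W).card := by
          rw [← card_erase_add_one (show v ∈ b ∩ W from mem_inter.2 ⟨hbm.2, hvW⟩)]
          congr 2
          ext z; simp only [mem_inter, mem_erase]; (clear * - hbm; tauto)
        have := hb b hbm.1
        omega
      have h2 : (if pt v ≠ v ∧ pt v ∈ W then y * N.foldr opb F ((W.erase v).erase (pt v)) else 0)
          ≤ (pdW pt W v : ℝ) * (2 * N.foldr opb F (W.erase v)) := by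
        unfold pdW
        by_cases hp : pt v ≠ v ∧ pt v ∈ W
        · rw [if_pos hp, if_pos hp, Nat.cast_one, one_mul]
          have h3 := i2 (pt v) (mem_erase.2 hp) (by
            have h4 := hv (pt v) hp.2
            have h5 : pdW pt W (pt v) = 1 := by
              unfold pdW
              rw [if_pos ⟨by rw [hpt]; exact fun h => hp.1 h.symm, by rw [hpt]; exact hvW⟩]
            have h6 : pdW pt (W.erase v) (pt v) = 0 := by
              unfold pdW
              rw [if_neg]
              rintro ⟨_, h7⟩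
              rw [hpt] at h7
              simp at h7
            omega)
          linarith only [h3]
        · rw [if_neg hp, if_neg hp]; simp
      push_cast
      nlinarith only [h1, h2]
    refine ⟨?_, ?_, ?_⟩
    · rcases W.eq_empty_or_nonempty with rfl | ⟨v, hvW⟩
      · rw [foldr_opb_empty, hF.empty]; norm_num
      · obtain ⟨h1, h2⟩ := hvert v hvW
        have h3 : (((N.filter (v ∈ ·)).card + pdW pt W v : ℕ) : ℝ) ≤ d := by
          exact_mod_cast hv v hvW
        have h4 : 0 < y - 2 * (((N.filter (v ∈ ·)).card + pdW pt W v : ℕ) : ℝ) := by linarith only [hy, hd', h3]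
        exact lt_of_lt_of_le (mul_pos h4 h2) h1
    · intro v hvW hdeg
      obtain ⟨h1, h2⟩ := hvert v hvW
      have h3 : (((N.filter (v ∈ ·)).card + pdW pt W v : ℕ) : ℝ) ≤ (d : ℝ) - 1 := by
        rw [← hd1]; exact_mod_cast hdeg
      have h4 : y / 2 ≤ y - 2 * (((N.filter (v ∈ ·)).card + pdW pt W v : ℕ) : ℝ) := by linarith only [hy, h3]
      exact (mul_le_mul_of_nonneg_right h4 h2.le).trans h1
    · intro b hbL hdeg
      obtain ⟨L', rfl⟩ := Multiset.exists_cons_of_mem hbL
      rw [Multiset.erase_cons_head, foldr_opb_cons]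
      have hcard : W.card + L'.card ≤ n := by
        rw [Multiset.card_cons] at hN; omega
      have hb' : ∀ c ∈ L', (c ∩ W).card ≤ d := fun c hc => hb c (Multiset.mem_cons_of_mem hc)
      have hv' : ∀ w ∈ W, (L'.filter (w ∈ ·)).card + pdW pt W w ≤ d := fun w hw =>
        (Nat.add_le_add_right (Multiset.card_le_card
          (Multiset.filter_le_filter _ (Multiset.le_cons_self _ _))) _).trans (hv w hw)
      obtain ⟨i1, i2, _⟩ := ih W L' hcard hb' hv'
      have h1 : ∀ v ∈ b ∩ W, L'.foldr opb F (W.erase v) ≤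
          L'.foldr opb F W / (2 * ((d : ℝ) - 1)) := by
        intro v hvm
        rw [mem_inter] at hvm
        have h2 := hv v hvm.2
        rw [Multiset.filter_cons_of_pos (p := fun c => v ∈ c) _ hvm.1, Multiset.card_cons] at h2
        have h3 := i2 v hvm.2 (by omega)
        rw [le_div_iff₀ (by linarith only [hd'])]
        have h4 : 0 < L'.foldr opb F (W.erase v) := by
          have hc : (W.erase v).card + L'.card ≤ n := by
            have := card_erase_add_one hvm.2; omega
          exact (ih (W.erase v) L' hc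
            (fun c hc => (hmono c (erase_subset _ _)).trans (hb' c hc))
            (fun w hw => (Nat.add_le_add_left (hpd w (erase_subset _ _)) _).trans
              (hv' w (mem_of_mem_erase hw)))).1
        nlinarith only [h3, hy, h4]
      have h2 := sum_le_card_nsmul _ _ _ h1
      rw [nsmul_eq_mul] at h2
      have h3 : ((b ∩ W).card : ℝ) ≤ (d : ℝ) - 1 := by
        rw [← hd1]; exact_mod_cast hdeg
      have h4 : ((b ∩ W).card : ℝ) * (L'.foldr opb F W / (2 * ((d : ℝ) - 1))) ≤
          ((d : ℝ) - 1) * (L'.foldr opb F W / (2 * ((d : ℝ) - 1))) := by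
        apply mul_le_mul_of_nonneg_right h3
        apply div_nonneg i1.le; linarith only [hd']
      have h5 : ((d : ℝ) - 1) * (L'.foldr opb F W / (2 * ((d : ℝ) - 1))) =
          L'.foldr opb F W / 2 := by
        have : (d : ℝ) - 1 ≠ 0 := by linarith only [hd']
        (clear * - this i1; field_simp)
      linarith only [h2, h4, h5]

/-- Positivity of the matching sum with pairs. -/
theorem pair_pos {d : ℕ} (hd : 3 ≤ d) {y : ℝ} (hy : 4 * ((d : ℝ) - 1) ≤ y) {pt : α → α}
    (hpt : ∀ i, pt (pt i) = i) {F : Finset α → ℝ} (hF : PairBase y pt F)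
    (N : Multiset (Finset α)) (W : Finset α) (hb : ∀ b ∈ N, b.card ≤ d)
    (hv : ∀ v ∈ W, (N.filter (v ∈ ·)).card + (if pt v = v then 0 else 1) ≤ d) :
    0 < N.foldr opb F W := by
  refine (pair_bounds hd hy hpt hF _ W N le_rfl
    (fun b hbL => (card_le_card inter_subset_left).trans (hb b hbL)) (fun v hvW => ?_)).1
  refine le_trans ?_ (hv v hvW)
  apply Nat.add_le_add_left
  unfold pdW
  by_cases h : pt v = v
  · simp [h]
  · rw [if_neg h]; split_ifs <;> simp

end Pos

end Vale.Agent.P049
end
end
end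

section

section

section

/-! Base cases for the positivity of the root: fixed blocks and a pairing. -/

namespace Vale.Agent.P049

open Finset Equiv Function

variable {α : Type*} [Fintype α] [DecidableEq α] {R : Type*} [CommRing R]

/-- Rows `T i - Σ_{b ∈ L, i ∈ b} 1_b` for `i ∈ W`, `D i` otherwise. -/
def rowG (T : α → α → R) (L : Multiset (Finset α)) (D : α → α → R) (W : Finset α) : α → α → R :=
  fun i => if i ∈ W then T i - (L.map fun b => if i ∈ b then vb R b else 0).sum else D i

theorem rowG_cons (T : α → α → R) (b : Finset α) (L : Multiset (Finset α)) (D : α → α → R)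
    (W : Finset α) : rowG T (b ::ₘ L) D W =
      fun i => rowG T L D W i - if i ∈ b ∩ W then vb R b else 0 := by
  ext i : 1
  by_cases hW : i ∈ W
  · simp only [rowG, hW, if_true, Multiset.map_cons, Multiset.sum_cons, mem_inter, and_true]
    abel
  · simp [rowG, hW]

theorem update_rowG (T : α → α → R) (L : Multiset (Finset α)) (D : α → α → R) (W : Finset α)
    (i : α) (v : α → R) : update (rowG T L D W) i v = rowG T L (update D i v) (W.erase i) := by
  ext z : 1
  by_cases hz : z = i
  · subst hz; simp [rowG]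
  · simp only [ne_eq, hz, not_false_eq_true, update_of_ne, rowG, mem_erase, true_and]

/-- The rows `T` are trivial on `X`. -/
structure TOK (y : R) (X : Finset α) (T : α → α → R) : Prop where
  col : ∀ i f, f ∈ X → f ≠ i → T i f = 0
  row : ∀ f ∈ X, T f = y • uv R f

variable {y : R} {X : Finset α} {T : α → α → R}

theorem sum_blocks_col {L : Multiset (Finset α)} {f : α} (hf : ∀ b ∈ L, f ∉ b) (i : α) :
    (L.map fun b => if i ∈ b then vb R b else 0).sum f = 0 := by
  induction L using Multiset.induction_on with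
  | empty => simp
  | cons b L ih =>
    rw [Multiset.map_cons, Multiset.sum_cons, Pi.add_apply,
      ih (fun b hb => hf b (Multiset.mem_cons_of_mem hb)), add_zero]
    have := hf b (Multiset.mem_cons_self _ _)
    split_ifs <;> simp [vb, this]

theorem sum_blocks_row {L : Multiset (Finset α)} {f : α} (hf : ∀ b ∈ L, f ∉ b) :
    (L.map fun b => if f ∈ b then vb R b else 0).sum = 0 := by
  apply Multiset.sum_eq_zero
  intro v hv
  obtain ⟨b, hb, rfl⟩ := Multiset.mem_map.1 hv
  simp [hf b hb]

theorem rowG_col (hT : TOK y X T) (L : Multiset (Finset α)) (D : α → α → R) (W : Finset α)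
    {f i : α} (hfX : f ∈ X) (hf : ∀ b ∈ L, f ∉ b) (hfi : f ≠ i) (hD : i ∉ W → D i f = 0) :
    rowG T L D W i f = 0 := by
  unfold rowG
  split_ifs with h
  · rw [Pi.sub_apply, sum_blocks_col hf, hT.col i f hfX hfi, sub_zero]
  · exact hD h

theorem rowG_row (hT : TOK y X T) (L : Multiset (Finset α)) (D : α → α → R) (W : Finset α)
    {f : α} (hfX : f ∈ X) (hf : ∀ b ∈ L, f ∉ b) (hD : f ∉ W → ∃ c : R, D f = c • uv R f) :
    ∃ c : R, rowG T L D W f = c • uv R f := by
  unfold rowG
  split_ifs with h
  · exact ⟨y, by rw [sum_blocks_row hf, sub_zero, hT.row f hfX]⟩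
  · exact hD h

/-- Expansion of the fixed blocks: only diagonal terms. -/
theorem rowG_fresh (hT : TOK y X T) (D : α → α → R) (L : Multiset (Finset α))
    (hout : ∀ b ∈ L, (b \ X).card ≤ 1) (hone : ∀ v ∈ X, (L.filter (v ∈ ·)).card ≤ 1)
    (D1 : ∀ i f, f ∈ X → f ≠ i → D i f = 0)
    (D2 : ∀ b ∈ L, ∀ k ∈ b, k ∈ X → ∃ c : R, D k = c • uv R k) :
    ∀ W : Finset α, (∀ i ∈ W, D i = uv R i) →
      DA R α (rowG T L D W) = L.foldr opb (fun W => DA R α (rowG T 0 D W)) W := by
  induction L using Multiset.induction_on with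
  | empty => intro W _; rfl
  | cons b L ih =>
    intro W hW
    have ih' := ih (fun b' hb' => hout b' (Multiset.mem_cons_of_mem hb'))
      (fun v hv => one_of_cons (hone v hv))
      (fun b' hb' => D2 b' (Multiset.mem_cons_of_mem hb'))
    rw [rowG_cons, const_expand, foldr_opb_cons, ih' W hW]
    congr 1
    apply sum_congr rfl
    intro i hi
    rw [mem_inter] at hi
    rw [← ih' (W.erase i) (fun j hj => hW j (mem_of_mem_erase hj))]
    have h1 := MultilinearMap.map_update_sum (DA R α).toMultilinearMap (t := b) i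
      (fun k => uv R k) (rowG T L D W)
    simp only [AlternatingMap.coe_multilinearMap] at h1
    rw [vb_eq_sum, h1, sum_eq_single_of_mem i hi.1]
    · rw [update_rowG]
      congr 2
      rw [← hW i hi.2, update_eq_self]
    · intro k hk hki
      by_cases hiX : i ∈ X
      · apply DA_zero_col _ i
        intro j
        by_cases hj : j = i
        · subst hj; simp [Pi.single_apply, hki.symm]
        · rw [update_of_ne hj]
          exact rowG_col hT L D W hiX (not_mem_of_one (hone i hiX) hi.1) (Ne.symm hj)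
            (fun _ => D1 j i hiX (Ne.symm hj))
      · have hkX : k ∈ X := by
          by_contra hkX
          have h2 := hout b (Multiset.mem_cons_self _ _)
          rw [card_le_one] at h2
          exact hki (h2 k (mem_sdiff.2 ⟨hk, hkX⟩) i (mem_sdiff.2 ⟨hi.1, hiX⟩))
        obtain ⟨c, hc⟩ := rowG_row hT L D W hkX (not_mem_of_one (hone k hkX) hk)
          (fun _ => D2 b (Multiset.mem_cons_self _ _) k hk hkX)
        apply DA_smul_row _ (Ne.symm hki) c
        rw [update_of_ne hki, update_self, hc]

/-! ### The rows of the pairing -/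

/-- `y e_i - x e_(pt i)` -/
def rowT (y x : R) (pt : α → α) (i : α) : α → R :=
  y • uv R i - if pt i = i then 0 else x • uv R (pt i)

theorem rowT_ok (y x : R) {pt : α → α} (hpt : ∀ i, pt (pt i) = i) {X : Finset α}
    (hX : ∀ i ∈ X, pt i = i) : TOK y X (rowT y x pt) := by
  refine ⟨?_, ?_⟩
  · intro i f hf hfi
    unfold rowT
    have h1 : pt i ≠ f := by
      intro h
      have h2 := hpt i
      rw [h, hX f hf] at h2
      exact hfi h2
    split_ifs
    · simp [hfi]
    · simp only [Pi.sub_apply, Pi.smul_apply, ne_eq, hfi, not_false_eq_true, Pi.single_eq_of_ne, smul_eq_mul, mul_zero, Ne.symm h1, sub_self]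
  · intro f hf
    unfold rowT
    simp [hX f hf]

theorem DA_uv : DA R α (fun i => uv R i) = 1 := by
  have : (Matrix.of fun i => uv R i) = (1 : Matrix α α R) := by
    ext i j
    simp [Matrix.one_apply, Pi.single_apply, eq_comm]
  change Matrix.det (Matrix.of fun i => uv R i) = 1
  rw [this, Matrix.det_one]

/-- The base function of the pairing. -/
def F0 (y x : R) (pt : α → α) (W : Finset α) : R :=
  DA R α (rowG (rowT y x pt) 0 (fun i => uv R i) W)

theorem rowG0_mem {D : α → α → R} {W : Finset α} {i : α} (h : i ∈ W) :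
    rowG T 0 D W i = T i := by
  simp [rowG, h]

theorem rowG0_notMem {L : Multiset (Finset α)} {D : α → α → R} {W : Finset α} {i : α}
    (h : i ∉ W) : rowG T L D W i = D i := by
  simp [rowG, h]

/-- splitting a row of the form `y u - x v` -/
theorem DA_split (A : α → α → R) (i : α) (y x : R) (u v : α → R) (h : A i = y • u - x • v) :
    DA R α A = y * DA R α (update A i u) - x * DA R α (update A i v) := by
  have h1 : A = update A i (y • u - x • v) := by rw [← h, update_eq_self]
  conv_lhs => rw [h1]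
  rw [(DA R α).map_update_sub, (DA R α).map_update_smul, (DA R α).map_update_smul]
  rfl

theorem DA_split0 (A : α → α → R) (i : α) (y : R) (u : α → R) (h : A i = y • u) :
    DA R α A = y * DA R α (update A i u) := by
  have h1 : A = update A i (y • u) := by rw [← h, update_eq_self]
  conv_lhs => rw [h1]
  rw [(DA R α).map_update_smul]
  rfl

theorem update_uv_self (i : α) : update (fun i => uv R i) i (uv R i) = fun i => uv R i :=
  update_eq_self i (fun i => uv R i)

/-- exchanging the two vertices of a pair -/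
theorem swap_pair {y x : R} {pt : α → α} (hpt : ∀ i, pt (pt i) = i) {W : Finset α} {v : α}
    (hv : v ∉ W) (hp : pt v ≠ v) (hpW : pt v ∈ W) :
    DA R α (update (rowG (rowT y x pt) 0 (fun i => uv R i) W) v (uv R (pt v))) =
      x * F0 y x pt (W.erase (pt v)) := by
  set A := update (rowG (rowT y x pt) 0 (fun i => uv R i) W) v (uv R (pt v)) with hA
  have hrow : A (pt v) = y • uv R (pt v) - x • uv R v := by
    rw [hA, update_of_ne hp, rowG0_mem hpW, rowT, hpt, if_neg (Ne.symm hp)]
  rw [DA_split A (pt v) y x _ _ hrow]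
  have h1 : DA R α (update A (pt v) (uv R (pt v))) = 0 := by
    apply (DA R α).map_eq_zero_of_eq _ _ hp
    rw [update_self, update_of_ne (Ne.symm hp), hA, update_self]
  have h2 : DA R α (update A (pt v) (uv R v)) =
      -DA R α (rowG (rowT y x pt) 0 (fun i => uv R i) (W.erase (pt v))) := by
    rw [hA, update_update_swap (DA R α) _ (Ne.symm hp), update_rowG, update_rowG, update_uv_self,
      update_uv_self, erase_eq_of_notMem hv]
  rw [h1, h2]
  unfold F0
  ring

theorem F0_base {y x : R} (hxy : x * x = y) {pt : α → α} (hpt : ∀ i, pt (pt i) = i) :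
    PairBase y pt (F0 y x pt) := by
  refine ⟨?_, ?_⟩
  · unfold F0
    have : rowG (rowT y x pt) 0 (fun i => uv R i) ∅ = fun i => uv R i := by
      ext i : 1; simp [rowG]
    rw [this, DA_uv]
  · intro W v hv
    have hupd : ∀ w : α → R, update (rowG (rowT y x pt) 0 (fun i => uv R i) W) v w =
        update (rowG (rowT y x pt) 0 (fun i => uv R i) (W.erase v)) v w := by
      intro w
      rw [update_rowG, update_rowG, erase_idem]
    by_cases hp : pt v = v
    · have hrow : rowG (rowT y x pt) 0 (fun i => uv R i) W v = y • uv R v := by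
        rw [rowG0_mem hv, rowT, if_pos hp, sub_zero]
      rw [if_neg (fun h => h.1 hp), sub_zero]
      unfold F0
      rw [DA_split0 _ v y _ hrow, update_rowG, update_uv_self]
    · have hrow : rowG (rowT y x pt) 0 (fun i => uv R i) W v = y • uv R v - x • uv R (pt v) := by
        rw [rowG0_mem hv, rowT, if_neg hp]
      have h1 : F0 y x pt W = y * F0 y x pt (W.erase v) -
          x * DA R α (update (rowG (rowT y x pt) 0 (fun i => uv R i) (W.erase v)) v
            (uv R (pt v))) := by
        unfold F0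
        rw [DA_split _ v y x _ _ hrow, hupd (uv R (pt v)), update_rowG, update_uv_self]
      rw [h1]
      by_cases hpW : pt v ∈ W
      · rw [if_pos ⟨hp, hpW⟩, swap_pair hpt (by simp) hp (mem_erase.2 ⟨hp, hpW⟩), ← mul_assoc, hxy]
      · rw [if_neg (fun h => hpW h.2), (DA R α).map_eq_zero_of_eq _ _ hp, mul_zero]
        rw [update_of_ne hp, update_self, rowG0_notMem (fun h => hpW (mem_of_mem_erase h))]

/-- The row `u` replaced by another unit vector. -/
theorem F1_term {y x : R} {pt : α → α} (hpt : ∀ i, pt (pt i) = i) {W : Finset α} {u u' : α}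
    (hu : u ∉ W) (hne : u' ≠ u) (hne' : u' ≠ pt u) :
    DA R α (update (rowG (rowT y x pt) 0 (fun i => uv R i) W) u (uv R u')) = 0 := by
  set A := update (rowG (rowT y x pt) 0 (fun i => uv R i) W) u (uv R u') with hA
  have hAu : A u = uv R u' := by rw [hA, update_self]
  by_cases hu' : u' ∈ W
  · by_cases hp : pt u' = u'
    · apply DA_smul_row A (i := u) (k := u') hne.symm y
      rw [hAu, hA, update_of_ne hne, rowG0_mem hu', rowT, if_pos hp, sub_zero]
    · have hpu : pt u' ≠ u := fun h => hne' (by rw [← h, hpt])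
      have hrow : A u' = y • uv R u' - x • uv R (pt u') := by
        rw [hA, update_of_ne hne, rowG0_mem hu', rowT, if_neg hp]
      rw [DA_split A u' y x _ _ hrow]
      have h1 : DA R α (update A u' (uv R u')) = 0 := by
        apply (DA R α).map_eq_zero_of_eq _ _ hne
        rw [update_self, update_of_ne hne.symm, hAu]
      have h2 : DA R α (update A u' (uv R (pt u'))) = 0 := by
        set B := update A u' (uv R (pt u')) with hB
        have hBu' : B u' = uv R (pt u') := by rw [hB, update_self]
        have hBu : B u = uv R u' := by rw [hB, update_of_ne hne.symm, hAu]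
        by_cases hpW : pt u' ∈ W
        · have hrow' : B (pt u') = y • uv R (pt u') - x • uv R u' := by
            rw [hB, update_of_ne hp, hA, update_of_ne hpu, rowG0_mem hpW, rowT, hpt,
              if_neg (Ne.symm hp)]
          rw [DA_split B (pt u') y x _ _ hrow']
          have h3 : DA R α (update B (pt u') (uv R (pt u'))) = 0 := by
            apply (DA R α).map_eq_zero_of_eq _ _ hp
            rw [update_self, update_of_ne (Ne.symm hp), hBu']
          have h4 : DA R α (update B (pt u') (uv R u')) = 0 := by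
            apply (DA R α).map_eq_zero_of_eq _ _ hpu
            rw [update_self, update_of_ne (Ne.symm hpu), hBu]
          rw [h3, h4]; ring
        · apply (DA R α).map_eq_zero_of_eq _ _ hp
          rw [hBu', hB, update_of_ne hp, hA, update_of_ne hpu, rowG0_notMem hpW]
      rw [h1, h2]; ring
  · apply (DA R α).map_eq_zero_of_eq _ _ hne
    rw [hAu, hA, update_of_ne hne, rowG0_notMem hu']

/-- a vector supported outside `X` -/
def wv (X : Finset α) (ω : α → R) : α → R := fun k => if k ∈ X then 0 else ω k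

theorem wv_eq_sum (X : Finset α) (ω : α → R) :
    wv X ω = ∑ k ∈ univ \ X, ω k • uv R k := by
  ext j
  simp only [wv, Finset.sum_apply, Pi.smul_apply, smul_eq_mul, Pi.single_apply, mul_ite, mul_one,
    mul_zero]
  rw [Finset.sum_ite_eq]
  by_cases h : j ∈ X <;> simp [h]

theorem F1_eq {y x : R} {pt : α → α} (hpt : ∀ i, pt (pt i) = i) {X : Finset α}
    (hX : ∀ i ∈ X, pt i = i) (ω : α → R) {W : Finset α} {u : α} (hu : u ∉ W) (huX : u ∉ X) :
    DA R α (rowG (rowT y x pt) 0 (update (fun i => uv R i) u (wv X ω)) W) =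
      ω u * F0 y x pt W + ∑ p ∈ {pt u} ∩ W, (ω p * x) * F0 y x pt (W.erase p) := by
  have h1 : rowG (rowT y x pt) 0 (update (fun i => uv R i) u (wv X ω)) W =
      update (rowG (rowT y x pt) 0 (fun i => uv R i) W) u (wv X ω) := by
    rw [update_rowG, erase_eq_of_notMem hu]
  have h2 := MultilinearMap.map_update_sum (DA R α).toMultilinearMap (t := univ \ X) u
    (fun k => ω k • uv R k) (rowG (rowT y x pt) 0 (fun i => uv R i) W)
  simp only [AlternatingMap.coe_multilinearMap] at h2
  rw [h1, wv_eq_sum, h2]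
  simp only [(DA R α).map_update_smul, smul_eq_mul]
  have hptu : pt u ∉ X := fun h => by
    have := hpt u
    rw [hX _ h] at this
    exact huX (this ▸ h)
  have hself : DA R α (update (rowG (rowT y x pt) 0 (fun i => uv R i) W) u (uv R u)) =
      F0 y x pt W := by
    rw [update_rowG, update_uv_self, erase_eq_of_notMem hu]; rfl
  by_cases hp : pt u = u
  · rw [sum_eq_single_of_mem u (by simp only [mem_sdiff, mem_univ, huX, not_false_eq_true, and_self])]
    · rw [hself, hp, singleton_inter_of_notMem hu, sum_empty, add_zero]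
    · intro k _ hk
      rw [F1_term hpt hu hk (by rw [hp]; exact hk), mul_zero]
  · have hsub : ({u, pt u} : Finset α) ⊆ univ \ X := by
      intro k hk
      rw [mem_insert, mem_singleton] at hk
      rw [mem_sdiff]
      rcases hk with rfl | rfl
      · exact ⟨mem_univ _, huX⟩
      · exact ⟨mem_univ _, hptu⟩
    rw [← sum_subset hsub, sum_pair (Ne.symm hp), hself]
    · congr 1
      by_cases hpW : pt u ∈ W
      · rw [singleton_inter_of_mem hpW, sum_singleton, swap_pair hpt hu hp hpW]
        ring
      · rw [singleton_inter_of_notMem hpW, sum_empty, (DA R α).map_eq_zero_of_eq _ _ hp, mul_zero]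
        rw [update_of_ne hp, update_self, rowG0_notMem hpW]
    · intro k _ hk
      rw [mem_insert, mem_singleton, not_or] at hk
      rw [F1_term hpt hu hk.1 hk.2, mul_zero]

end Vale.Agent.P049
end
end
end

section

section

section

/-! Definitions for the odd orders: a left set with a pairing. -/

namespace Vale.Agent.P049

open Finset Matrix Polynomial

variable {α : Type*} [Fintype α] [DecidableEq α]

/-- The adjacency matrix of the pairing `pt` (an involution; fixed points are unpaired). -/
def pairM (R : Type*) [CommRing R] (pt : α → α) : Matrix α α R :=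
  Matrix.of fun i k => if pt i = k ∧ i ≠ k then 1 else 0

/-- The degree of a vertex in the pairing. -/
def pdeg (pt : α → α) (i : α) : ℕ := if pt i = i then 0 else 1

/-- `X² - X S - F` -/
noncomputable def yM (pt : α → α) (F : Matrix α α ℝ) : Matrix α α ℝ[X] :=
  ((Polynomial.X : ℝ[X]) ^ 2) • (1 : Matrix α α ℝ[X]) -
    (Polynomial.X : ℝ[X]) • pairM ℝ[X] pt - F.map C

/-- column sums of the fixed blocks match the degrees still to be filled -/
def ColOKS (d : ℕ) (pt : α → α) (X₀ : Finset α) (q : ℕ) (X γ : Finset α) (F : Matrix α α ℝ) :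
    Prop :=
  ∀ v, ∑ i, F i v + d * (if v ∈ X ∨ v ∈ γ then 1 else 0) + d * q * (if v ∈ X₀ then 1 else 0) =
    (d : ℝ) * (d - pdeg pt v)

end Vale.Agent.P049
end
end
end

section

section

section

/-! Positivity of the root, with a pairing. -/

namespace Vale.Agent.P049

open Finset Equiv Function Matrix

variable {α : Type*} [Fintype α] [DecidableEq α]

/-- reduced vector modulo `v` -/
noncomputable def redw (l : α) (v : α → ℝ) (a : α → ℝ) : α → ℝ := fun k => a k - a l * (v k / v l)

theorem redw_of_zero {l : α} {v a : α → ℝ} (h : a l = 0) : redw l v a = a := by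
  ext k; simp [redw, h]

theorem redw_sub (l : α) (v a b : α → ℝ) : redw l v (a - b) = redw l v a - redw l v b := by
  ext k; simp only [redw, Pi.sub_apply]; ring

theorem redw_sum {ι : Type*} (l : α) (v : α → ℝ) (s : Finset ι) (f : ι → α → ℝ) :
    redw l v (∑ i ∈ s, f i) = ∑ i ∈ s, redw l v (f i) := by
  ext k; simp only [redw, Finset.sum_apply, sum_mul, sum_sub_distrib]

/-- reduced basis -/
noncomputable def eRw (l : α) (v : α → ℝ) (k : α) : α → ℝ := redw l v (uv ℝ k)

theorem eRw_ne {l k : α} {v : α → ℝ} (h : k ≠ l) : eRw l v k = uv ℝ k :=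
  redw_of_zero (by simp [h.symm])

theorem sum_eRw {X : Finset α} {l : α} {v : α → ℝ} (hl : l ∈ X) (hv : v l ≠ 0)
    (hvX : ∀ k ∈ X, v k = v l) :
    ∑ k ∈ X, eRw l v k = -wv X (fun k => v k / v l) := by
  unfold eRw
  rw [← redw_sum, ← vb_eq_sum]
  ext k
  by_cases hk : k ∈ X
  · simp only [redw, vb, hk, ↓reduceIte, hl, hvX k hk, ne_eq, hv, not_false_eq_true, div_self, mul_one, sub_self, Pi.neg_apply, wv, neg_zero]
  · simp [redw, vb, hl, hk, wv]

/-- The fixed blocks and the pairing. -/
structure FixedBlocksS (d : ℕ) (pt : α → α) (X : Finset α) (l : α) (b₀ : Finset α)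
    (Fb : Multiset (Finset α)) : Prop where
  inv : ∀ i, pt (pt i) = i
  fix : ∀ i ∈ X, pt i = i
  card : ∀ b ∈ Fb, b.card ≤ d
  out : ∀ b ∈ Fb, (b \ X).card ≤ 1
  one : ∀ v ∈ X, ((b₀ ::ₘ Fb).filter (v ∈ ·)).card ≤ 1
  deg : ∀ u, u ∉ X → (Fb.filter (u ∈ ·)).card + (if pt u = u then 0 else 1) ≤ d
  mem : l ∈ b₀
  sub : b₀ ⊆ X

/-- initial rows -/
noncomputable def A₀S (y x : ℝ) (pt : α → α) (l : α) (v : α → ℝ) (b₀ : Finset α)
    (Fb : Multiset (Finset α)) : α → α → ℝ := fun i =>
  redw l v (rowT y x pt i - ((b₀ ::ₘ Fb).map fun b => if i ∈ b then vb ℝ b else 0).sum)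

variable {d : ℕ} {pt : α → α} {X : Finset α} {l : α} {b₀ : Finset α} {Fb : Multiset (Finset α)}
  {v : α → ℝ}

theorem FixedBlocksS.l_notMem (h : FixedBlocksS d pt X l b₀ Fb) : ∀ b ∈ Fb, l ∉ b :=
  not_mem_of_one (h.one l (h.sub h.mem)) h.mem

theorem FixedBlocksS.tok (h : FixedBlocksS d pt X l b₀ Fb) (y x : ℝ) :
    TOK y X (rowT y x pt) := rowT_ok y x h.inv h.fix

theorem A₀S_eq (h : FixedBlocksS d pt X l b₀ Fb) (y x : ℝ) {i : α} (hi : i ≠ l) :
    A₀S y x pt l v b₀ Fb i =
      (rowT y x pt i - (Fb.map fun b => if i ∈ b then vb ℝ b else 0).sum) -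
      if i ∈ b₀ then redw l v (vb ℝ b₀) else 0 := by
  unfold A₀S
  rw [Multiset.map_cons, Multiset.sum_cons, add_comm, ← sub_sub, redw_sub]
  congr 1
  · apply redw_of_zero
    rw [Pi.sub_apply, sum_blocks_col h.l_notMem, (h.tok y x).col i l (h.sub h.mem) hi.symm,
      sub_zero]
  · split_ifs
    · rfl
    · ext k; simp [redw]

theorem rw0S_eq (h : FixedBlocksS d pt X l b₀ Fb) (y x : ℝ) {W : Finset α} (hW : l ∉ W) :
    rw0 (eRw l v) (uv ℝ l) l (A₀S y x pt l v b₀ Fb) W =
      fun i => rowG (rowT y x pt) Fb (fun i => uv ℝ i) W i -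
        if i ∈ b₀ ∩ W then redw l v (vb ℝ b₀) else 0 := by
  ext i : 1
  by_cases hi : i ∈ W
  · have hil : i ≠ l := fun h => hW (h ▸ hi)
    simp only [rw0, hi, if_true, rowG, mem_inter, and_true]
    rw [A₀S_eq h y x hil]
  · simp only [rw0, hi, if_false, rowG, mem_inter, and_false, sub_zero]
    split_ifs with hil
    · rw [hil]
    · exact eRw_ne hil

theorem update_rw0S_eq (h : FixedBlocksS d pt X l b₀ Fb) (y x : ℝ) {W : Finset α} (hW : l ∉ W)
    {j : α} (hj : j ∉ W) (w : α → ℝ) :
    update (rw0 (eRw l v) (uv ℝ l) l (A₀S y x pt l v b₀ Fb) W) j w =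
      fun i => rowG (rowT y x pt) Fb (update (fun i => uv ℝ i) j w) W i -
        if i ∈ b₀ ∩ W then redw l v (vb ℝ b₀) else 0 := by
  rw [rw0S_eq h y x hW]
  ext i : 1
  by_cases hi : i = j
  · subst hi
    simp [rowG, hj]
  · by_cases hiW : i ∈ W <;> simp [rowG, hi, hiW]

/-- The block `b₀` does not contribute. -/
theorem drop_b₀S (h : FixedBlocksS d pt X l b₀ Fb) (hv : v l ≠ 0) (hvX : ∀ k ∈ X, v k = v l)
    (y x : ℝ) {W : Finset α}
    (D : α → α → ℝ) (hD : ∀ i, i ∉ W → ∀ f ∈ X, f ≠ i → D i f = 0) :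
    DA ℝ α (fun i => rowG (rowT y x pt) Fb D W i -
      if i ∈ b₀ ∩ W then redw l v (vb ℝ b₀) else 0) =
      DA ℝ α (rowG (rowT y x pt) Fb D W) := by
  rw [const_expand, sum_eq_zero, sub_zero]
  intro i hi
  rw [mem_inter] at hi
  apply DA_zero_col _ i
  intro j
  by_cases hj : j = i
  · subst hj
    rw [update_self]
    simp [redw, vb, hi.1, h.mem, hvX _ (h.sub hi.1), hv]
  · rw [update_of_ne hj]
    exact rowG_col (h.tok y x) Fb D W (h.sub hi.1) (not_mem_of_one (h.one i (h.sub hi.1)) hi.1)
      (Ne.symm hj) (fun hjW => hD j hjW i (h.sub hi.1) (Ne.symm hj))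

theorem D_baseS (h : FixedBlocksS d pt X l b₀ Fb) (hv : v l ≠ 0) (hvX : ∀ k ∈ X, v k = v l)
    (y x : ℝ) (blk : α → ℕ) {W : Finset α} (hW : l ∉ W) :
    Dq (DA ℝ α) X blk (eRw l v) (uv ℝ l) l (A₀S y x pt l v b₀ Fb) 0 W =
      Fb.foldr opb (F0 y x pt) W := by
  unfold Dq TS
  rw [rw0S_eq h y x hW, drop_b₀S h hv hvX y x _ (fun i _ f _ hf => by simp [hf])]
  rw [rowG_fresh (h.tok y x) _ Fb h.out (fun v hv => one_of_cons (h.one v hv))
    (fun i f _ hf => by simp [hf]) (fun b _ k _ _ => ⟨1, by simp⟩) W
    (fun i _ => rfl)]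
  rfl

theorem E_eqS (h : FixedBlocksS d pt X l b₀ Fb) (hv : v l ≠ 0) (hvX : ∀ k ∈ X, v k = v l)
    (y x : ℝ) (blk : α → ℕ) (ω : α → ℝ) {W : Finset α} (hW : l ∉ W) {j : α} (hj : j ∉ W) :
    Eq' (DA ℝ α) X blk (eRw l v) (uv ℝ l) (wv X ω) l (A₀S y x pt l v b₀ Fb) 0 j W =
      DA ℝ α (rowG (rowT y x pt) Fb (update (fun i => uv ℝ i) j (wv X ω)) W) := by
  unfold Eq' TS
  rw [update_rw0S_eq h y x hW hj, drop_b₀S h hv hvX y x]
  intro i _ f hf hfi
  by_cases hi : i = j
  · subst hi; simp [wv, hf]
  · simp [hi, hfi]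

/-- No block through `j`: zero. -/
theorem E_base_noneS (h : FixedBlocksS d pt X l b₀ Fb) (hv : v l ≠ 0) (hvX : ∀ k ∈ X, v k = v l)
    (y x : ℝ) (blk : α → ℕ) (ω : α → ℝ) {W : Finset α}
    (hW : l ∉ W) {j : α} (hj : j ∉ W) (hjX : j ∈ X) (hjF : ∀ b ∈ Fb, j ∉ b) :
    Eq' (DA ℝ α) X blk (eRw l v) (uv ℝ l) (wv X ω) l (A₀S y x pt l v b₀ Fb) 0 j W = 0 := by
  rw [E_eqS h hv hvX y x blk ω hW hj]
  apply DA_zero_col _ j
  intro i
  by_cases hi : i = j
  · subst hi; simp [rowG, hj, wv, hjX]
  · exact rowG_col (h.tok y x) Fb _ W hjX hjF (Ne.symm hi) (fun _ => by simp [hi, Ne.symm hi])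

/-- The rows with a unit vector at `j` and `w` at `k`. -/
theorem E_swapS {T : α → α → ℝ} {y : ℝ} (hT : TOK y X T) (L : Multiset (Finset α)) {b : Finset α}
    {j : α} (hjX : j ∈ X) (hjL : ∀ b ∈ L, j ∉ b) (hjb : j ∈ b) {W : Finset α} (hj : j ∉ W)
    (ω : α → ℝ) :
    DA ℝ α (rowG T (b ::ₘ L) (update (fun i => uv ℝ i) j (wv X ω)) W) =
      ∑ k ∈ b ∩ W, DA ℝ α (rowG T L (update (fun i => uv ℝ i) k (wv X ω)) (W.erase k)) := by
  set w := wv X ω with hw
  have hwj : w j = 0 := by simp [hw, wv, hjX]
  have hcol : ∀ i, rowG T L (update (fun i => uv ℝ i) j w) W i j = 0 := by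
    intro i
    by_cases hi : i = j
    · subst hi; simp [rowG, hj, hwj]
    · exact rowG_col hT L _ W hjX hjL (Ne.symm hi) (fun _ => by simp [hi, Ne.symm hi])
  rw [rowG_cons, const_expand, DA_zero_col _ j hcol, zero_sub, ← sum_neg_distrib]
  apply sum_congr rfl
  intro k hk
  rw [mem_inter] at hk
  have hkj : k ≠ j := fun h => hj (h ▸ hk.2)
  have h1 := MultilinearMap.map_update_sum (DA ℝ α).toMultilinearMap (t := b) k
    (fun k => uv ℝ k) (rowG T L (update (fun i => uv ℝ i) j w) W)
  simp only [AlternatingMap.coe_multilinearMap] at h1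
  rw [vb_eq_sum, h1, sum_eq_single_of_mem j hjb]
  · -- swap rows `k` and `j`
    have h2 : update (rowG T L (update (fun i => uv ℝ i) j w) W) k (uv ℝ j) =
        update (update (rowG T L (fun i => uv ℝ i) W) j w) k (uv ℝ j) := by
      congr 1
      rw [update_rowG, erase_eq_of_notMem hj]
    rw [h2, update_update_swap (DA ℝ α) _ hkj.symm, neg_neg, update_rowG, update_rowG]
    have h3 : update (fun i => uv ℝ i) j (uv ℝ j) = fun i => uv ℝ i :=
      update_eq_self j (fun i => uv ℝ i)
    rw [h3, erase_eq_of_notMem hj]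
  · intro k' _ hk'
    apply DA_zero_col _ j
    intro i
    by_cases hi : i = k
    · subst hi; simp [Pi.single_apply, hk'.symm]
    · rw [update_of_ne hi]; exact hcol i

/-- The block through `j` lies inside `X`: zero. -/
theorem E_term_inS {T : α → α → ℝ} {y : ℝ} (hT : TOK y X T) (L : Multiset (Finset α)) {k : α}
    (hkX : k ∈ X) (hkL : ∀ b ∈ L, k ∉ b) (ω : α → ℝ) (W : Finset α) :
    DA ℝ α (rowG T L (update (fun i => uv ℝ i) k (wv X ω)) (W.erase k)) = 0 := by
  apply DA_zero_col _ k
  intro i
  by_cases hi : i = k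
  · subst hi; simp [rowG, wv, hkX]
  · exact rowG_col hT L _ _ hkX hkL (Ne.symm hi) (fun _ => by simp [hi, Ne.symm hi])

theorem E_term_outS {y x : ℝ} (hpt : ∀ i, pt (pt i) = i) (hfix : ∀ i ∈ X, pt i = i)
    (L : Multiset (Finset α)) (hout : ∀ b ∈ L, (b \ X).card ≤ 1)
    (hone : ∀ v ∈ X, (L.filter (v ∈ ·)).card ≤ 1) {u : α} (hu : u ∉ X) (ω : α → ℝ)
    (W : Finset α) :
    DA ℝ α (rowG (rowT y x pt) L (update (fun i => uv ℝ i) u (wv X ω)) (W.erase u)) =
      L.foldr opb (fun W => ω u * F0 y x pt W +
        ∑ p ∈ {pt u} ∩ W, (ω p * x) * F0 y x pt (W.erase p)) (W.erase u) := by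
  rw [rowG_fresh (rowT_ok y x hpt hfix) _ L hout hone ?_ ?_ (W.erase u) ?_]
  · apply foldr_opb_congr (dom := fun W => u ∉ W)
    · intro W hW b _ v _ h
      exact hW (mem_of_mem_erase h)
    · intro W hW
      exact F1_eq hpt hfix ω hW hu
    · simp
  · intro i f hf hfi
    by_cases hi : i = u
    · subst hi; simp [wv, hf]
    · simp [hi, hfi]
  · intro b _ k _ hk
    have : k ≠ u := fun h => hu (h ▸ hk)
    exact ⟨1, by simp [this]⟩
  · intro i hi
    have : i ≠ u := ne_of_mem_erase hi
    simp [this]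

theorem pair_adm (hd : 3 ≤ d) {y x : ℝ} (hxy : x * x = y) (hy : 4 * ((d : ℝ) - 1) ≤ y) {k : ℕ}
    (hk : k + 1 ≤ d) (hpt : ∀ i, pt (pt i) = i) (hfix : ∀ i ∈ X, pt i = i)
    {M L : Multiset (Finset α)} (hM : Adm d k X M) (hcard : ∀ b ∈ L, b.card ≤ d)
    (hone : ∀ v ∈ X, (L.filter (v ∈ ·)).card ≤ 1)
    (hdeg : ∀ u, u ∉ X → (L.filter (u ∈ ·)).card + (if pt u = u then 0 else 1) ≤ d)
    (W : Finset α) : 0 < (M + L).foldr opb (F0 y x pt) W := by
  apply pair_pos hd hy hpt (F0_base hxy hpt)
  · intro b hb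
    rw [Multiset.mem_add] at hb
    rcases hb with hb | hb
    · exact hM.card b hb
    · exact hcard b hb
  · intro v _
    rw [Multiset.filter_add, Multiset.card_add]
    by_cases hv : v ∈ X
    · have := hM.deg v
      have := hone v hv
      rw [if_pos (hfix v hv)]
      omega
    · have h1 : M.filter (v ∈ ·) = 0 := by
        rw [Multiset.filter_eq_nil]
        intro b hb hvb
        exact hv (hM.sub b hb hvb)
      rw [h1, Multiset.card_zero, zero_add]
      exact hdeg v hv

theorem foldr_E_nonneg (hd : 3 ≤ d) {y x : ℝ} (hxy : x * x = y) (hy : 4 * ((d : ℝ) - 1) ≤ y)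
    (hx : 0 ≤ x) {k : ℕ} (hk : k + 1 ≤ d) (hpt : ∀ i, pt (pt i) = i)
    (hfix : ∀ i ∈ X, pt i = i) {M L : Multiset (Finset α)} (hM : Adm d k X M)
    (hcard : ∀ b ∈ L, b.card ≤ d) (hone : ∀ v ∈ X, (L.filter (v ∈ ·)).card ≤ 1)
    (hdeg : ∀ u, u ∉ X → (L.filter (u ∈ ·)).card + (if pt u = u then 0 else 1) ≤ d)
    {ω : α → ℝ} (hω : ∀ u, 0 ≤ ω u) (u : α) (W : Finset α) :
    0 ≤ (M + L).foldr opb (fun W => ω u * F0 y x pt W +
        ∑ p ∈ {pt u} ∩ W, (ω p * x) * F0 y x pt (W.erase p)) W := by
  have hpos := fun W => pair_adm hd hxy hy hk hpt hfix hM hcard hone hdeg W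
  rw [foldr_opb_add, foldr_opb_choose]
  apply add_nonneg
  · have h1 : ∀ W, (M + L).foldr opb (fun W => ω u * F0 y x pt W) W =
        ω u * (M + L).foldr opb (F0 y x pt) W := by
      generalize M + L = N
      induction N using Multiset.induction_on with
      | empty => intro W; rfl
      | cons b N ih =>
        intro W
        simp only [foldr_opb_cons, ih]
        rw [mul_sub, mul_sum]
    rw [h1]
    exact mul_nonneg (hω u) (hpos W).le
  · apply sum_nonneg
    intro p _
    exact mul_nonneg (mul_nonneg (hω p) hx) (hpos _).le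

theorem root_ES (hd : 3 ≤ d) {y x : ℝ} (hxy : x * x = y) (hy : 4 * ((d : ℝ) - 1) ≤ y)
    (hx : 0 ≤ x) {k : ℕ} (hk : k + 1 ≤ d)
    (h : FixedBlocksS d pt X l b₀ Fb) (hv : v l ≠ 0) (hvX : ∀ k ∈ X, v k = v l)
    (blk : α → ℕ) {M : Multiset (Finset α)} (hM : Adm d k X M) {ω : α → ℝ}
    (hω : ∀ u, 0 ≤ ω u)
    {j : α} (hjX : j ∈ X) {W : Finset α} (hlW : l ∉ W) (hjW : j ∉ W) (hU : ∀ u, u ∉ X → u ∈ W) :
    0 ≤ M.foldr opb (Eq' (DA ℝ α) X blk (eRw l v) (uv ℝ l) (wv X ω) l
      (A₀S y x pt l v b₀ Fb) 0 j) W := by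
  have hdom : ∀ V : Finset α, (l ∉ V ∧ j ∉ V ∧ ∀ u, u ∉ X → u ∈ V) → ∀ b ∈ M, ∀ v ∈ b ∩ V,
      (l ∉ V.erase v ∧ j ∉ V.erase v ∧ ∀ u, u ∉ X → u ∈ V.erase v) := by
    rintro V ⟨h1, h2, h3⟩ b hbM v hv
    rw [mem_inter] at hv
    refine ⟨fun h => h1 (mem_of_mem_erase h), fun h => h2 (mem_of_mem_erase h), fun u hu => ?_⟩
    exact mem_erase.2 ⟨fun h => hu (h ▸ hM.sub b hbM hv.1), h3 u hu⟩
  by_cases hjF : ∀ b ∈ Fb, j ∉ b
  · rw [foldr_opb_congr (dom := fun W => l ∉ W ∧ j ∉ W ∧ ∀ u, u ∉ X → u ∈ W) (G := fun _ => 0)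
      hdom ?_ W ⟨hlW, hjW, hU⟩, foldr_opb_zero]
    rintro V ⟨h1, h2, _⟩
    exact E_base_noneS h hv hvX y x blk ω h1 h2 hjX hjF
  · push Not at hjF
    obtain ⟨b, hb, hjb⟩ := hjF
    obtain ⟨L, hL⟩ := Multiset.exists_cons_of_mem hb
    have honeF : ∀ v ∈ X, (Fb.filter (v ∈ ·)).card ≤ 1 := fun v hv => one_of_cons (h.one v hv)
    have hone : ∀ v ∈ X, (L.filter (v ∈ ·)).card ≤ 1 := fun v hv => by
      have := honeF v hv
      rw [hL] at this
      exact one_of_cons this
    have hnot : ∀ v ∈ X, v ∈ b → ∀ b' ∈ L, v ∉ b' := fun v hv hvb => by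
      have := honeF v hv
      rw [hL] at this
      exact not_mem_of_one this hvb
    have hout : ∀ b ∈ L, (b \ X).card ≤ 1 := fun b hb => h.out b (by
      rw [hL]; exact Multiset.mem_cons_of_mem hb)
    have hcard : ∀ b ∈ L, b.card ≤ d := fun b hb => h.card b (by
      rw [hL]; exact Multiset.mem_cons_of_mem hb)
    have hdeg : ∀ u, u ∉ X → (L.filter (u ∈ ·)).card + (if pt u = u then 0 else 1) ≤ d :=
      fun u hu => (Nat.add_le_add_right (Multiset.card_le_card (Multiset.filter_le_filter _ (by
        rw [hL]; exact Multiset.le_cons_self _ _))) _).trans (h.deg u hu)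
    by_cases hbX : ∃ u ∈ b, u ∉ X
    · obtain ⟨u, hub, huX⟩ := hbX
      rw [foldr_opb_congr (dom := fun W => l ∉ W ∧ j ∉ W ∧ ∀ u, u ∉ X → u ∈ W)
        (G := fun W => L.foldr opb (fun W => ω u * F0 y x pt W +
          ∑ p ∈ {pt u} ∩ W, (ω p * x) * F0 y x pt (W.erase p)) (W.erase u)) hdom ?_ W
          ⟨hlW, hjW, hU⟩]
      · rw [foldr_opb_erase (fun b hb hub => huX (hM.sub b hb hub)), ← Multiset.foldr_add]
        exact foldr_E_nonneg hd hxy hy hx hk h.inv h.fix hM hcard hone hdeg hω u _
      · rintro V ⟨h1, h2, h3⟩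
        rw [E_eqS h hv hvX y x blk ω h1 h2, hL,
          E_swapS (h.tok y x) L hjX (hnot j hjX hjb) hjb h2,
          sum_eq_single_of_mem u (mem_inter.2 ⟨hub, h3 u huX⟩)]
        · exact E_term_outS h.inv h.fix L hout hone huX ω V
        · intro k hk hku
          rw [mem_inter] at hk
          have hkX : k ∈ X := by
            by_contra hkX
            have h2 := h.out b hb
            rw [card_le_one] at h2
            exact hku (h2 k (mem_sdiff.2 ⟨hk.1, hkX⟩) u (mem_sdiff.2 ⟨hub, huX⟩))
          exact E_term_inS (h.tok y x) L hkX (hnot k hkX hk.1) ω V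
    · push Not at hbX
      rw [foldr_opb_congr (dom := fun W => l ∉ W ∧ j ∉ W ∧ ∀ u, u ∉ X → u ∈ W) (G := fun _ => 0)
        hdom ?_ W ⟨hlW, hjW, hU⟩, foldr_opb_zero]
      rintro V ⟨h1, h2, _⟩
      rw [E_eqS h hv hvX y x blk ω h1 h2, hL,
        E_swapS (h.tok y x) L hjX (hnot j hjX hjb) hjb h2]
      apply sum_eq_zero
      intro k hk
      rw [mem_inter] at hk
      exact E_term_inS (h.tok y x) L (hbX k hk.1) (hnot k (hbX k hk.1) hk.1) ω V

/-- Positivity for the reduced rows. -/
theorem root_TSS (hd : 3 ≤ d) {y x : ℝ} (hxy : x * x = y) (hy : 4 * ((d : ℝ) - 1) ≤ y)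
    (hx : 0 ≤ x) {q s : ℕ} (hq : q + 1 ≤ d)
    (h : FixedBlocksS d pt X l b₀ Fb) (hv : 0 < v l) (hvX : ∀ k ∈ X, v k = v l)
    (hv0 : ∀ k, 0 ≤ v k) {blk : α → ℕ} (hb : IsPartition d s X blk) (hX : X.card = d * s) :
    0 < TS (DA ℝ α) X blk (eRw l v) q {l} (update (A₀S y x pt l v b₀ Fb) l (uv ℝ l)) := by
  have hl : l ∈ X := h.sub h.mem
  have h1 := D_pos (by omega) hb hX (DA ℝ α) (eRw l v) (c := uv ℝ l)
    (sum_eRw hl hv.ne' hvX) hl (A₀S y x pt l v b₀ Fb) (k₀ := q)
    (fun M hM j hj W h1 h2 h3 => root_ES hd hxy hy hx hq h hv.ne' hvX blk hM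
      (fun u => div_nonneg (hv0 u) hv.le) hj h1 h2 h3)
    (fun M hM W h1 h2 => ?_) q 0 0 (by omega) ⟨by simp, by simp only [Multiset.notMem_zero, IsEmpty.forall_iff, implies_true], by simp⟩ (univ.erase l) (by simp only [mem_erase, ne_eq, not_true_eq_false, mem_univ, and_true, not_false_eq_true])
    (fun u hu => mem_erase.2 ⟨fun h => hu (h ▸ hl), mem_univ _⟩)
  · have e1 : Dq (DA ℝ α) X blk (eRw l v) (uv ℝ l) l (A₀S y x pt l v b₀ Fb) q (univ.erase l) =
        TS (DA ℝ α) X blk (eRw l v) q {l} (update (A₀S y x pt l v b₀ Fb) l (uv ℝ l)) := by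
      unfold Dq
      congr 1
      · ext z; simp only [mem_sdiff, mem_univ, mem_erase, ne_eq, and_true, Decidable.not_not, true_and, mem_singleton]
      · ext i : 1
        by_cases hi : i = l
        · subst hi; simp only [rw0, mem_erase, ne_eq, not_true_eq_false, mem_univ, and_true, ↓reduceIte, update_self]
        · simp only [rw0, mem_erase, ne_eq, hi, not_false_eq_true, mem_univ, and_self, ↓reduceIte, update_of_ne]
    rw [← e1]
    exact h1
  · rw [foldr_opb_congr (dom := fun W => l ∉ W) (G := Fb.foldr opb (F0 y x pt))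
      (fun V hV b _ v _ h => hV (mem_of_mem_erase h))
      (fun V hV => D_baseS h hv.ne' hvX y x blk hV) W h1, ← Multiset.foldr_add]
    exact pair_adm hd hxy hy hq h.inv h.fix hM h.card (fun v hv => one_of_cons (h.one v hv))
      h.deg W

/-- The determinant with row `l` replaced by `v`. -/
def hdetv {R : Type*} [CommRing R] (l : α) (v : α → R) (A : Matrix α α R) : R :=
  (A.updateRow l v).det

theorem det_deflatev {R : Type*} [CommRing R] (l : α) (v : α → R) (A : Matrix α α R) (c : R)
    (h : ∀ k, ∑ i, A i k = c * v k) : A.det = c * hdetv l v A := by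
  have h1 := Matrix.det_updateRow_sum A l (fun _ => 1)
  rw [one_smul] at h1
  rw [← h1]
  have h2 : (∑ k, (fun _ => (1 : R)) k • A k) = c • v := by
    ext j
    simp only [one_smul, Pi.smul_apply, smul_eq_mul]
    exact (Finset.sum_apply j univ (fun x => A x)).trans (h j)
  rw [h2, Matrix.det_updateRow_smul]
  rfl

theorem hdetv_eq (l : α) {v : α → ℝ} (hv : v l ≠ 0) (A : Matrix α α ℝ) :
    hdetv l v A = v l * DA ℝ α (update (fun i => redw l v (A i)) l (uv ℝ l)) := by
  set B : Matrix α α ℝ := A.updateRow l v with hB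
  set B' : Matrix α α ℝ := Matrix.of fun i j =>
    if j = l then B i l else B i j - B i l * (v j / v l) with hB'
  have h1 : B'ᵀ.det = Bᵀ.det := by
    apply Matrix.det_eq_of_forall_row_eq_smul_add_const
      (fun j => if j = l then 0 else -(v j / v l)) l (by simp)
    intro i j
    simp only [transpose_apply, hB', of_apply]
    split_ifs with h
    · rw [h]; ring
    · ring
  rw [det_transpose, det_transpose] at h1
  set B'' : Matrix α α ℝ := Matrix.of (update (fun i => redw l v (A i)) l (v l • uv ℝ l)) with hB''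
  have h2 : B'.det = B''.det := by
    apply Matrix.det_eq_of_forall_row_eq_smul_add_const
      (fun i => if i = l then 0 else A i l / v l) l (by simp)
    intro i j
    simp only [hB', hB'', of_apply, update_self]
    by_cases hi : i = l
    · subst hi
      simp only [update_self, if_true, zero_mul, add_zero, Pi.smul_apply, smul_eq_mul,
        Pi.single_apply, hB, updateRow_self]
      by_cases hj : j = i
      · subst hj; simp
      · simp only [hj, if_false, mul_zero]
        field_simp
        ring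
    · rw [update_of_ne hi, hB]
      simp only [updateRow_ne hi, redw, hi, if_false, Pi.smul_apply, smul_eq_mul,
        Pi.single_apply]
      by_cases hj : j = l
      · subst hj; simp only [↓reduceIte, mul_one]; field_simp; ring
      · simp [hj]
  change B.det = _
  rw [← h1, h2]
  change DA ℝ α (update (fun i => redw l v (A i)) l (v l • uv ℝ l)) = _
  rw [(DA ℝ α).map_update_smul]
  rfl

theorem restH_hdetv_eq {X₀ : Finset α} (blk : α → ℕ) {l : α} {v : α → ℝ} (hv : v l ≠ 0) (q : ℕ) :
    ∀ (A : Matrix α α ℝ), restH (hdetv l v) X₀ blk q A =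
      v l * TS (DA ℝ α) X₀ blk (eRw l v) q {l}
        (update (fun i => redw l v (A i)) l (uv ℝ l)) := by
  induction q with
  | zero => intro A; exact hdetv_eq l hv A
  | succ q ih =>
    intro A
    rw [restH, TS, mul_sum]
    apply sum_congr rfl
    intro σ hσ
    rw [ih]
    congr 2
    ext i : 1
    by_cases hi : i = l
    · subst hi; simp [subR]
    · rw [update_of_ne hi]
      simp only [subR, update_of_ne hi, mem_sdiff, mem_singleton, hi, not_false_eq_true, and_true]
      have h1 : (A - pact σ (blockMat ℝ X₀ blk)) i = A i - rowS X₀ blk id (ev ℝ) σ i := by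
        ext k
        rw [Matrix.sub_apply, pact_block_row hσ, Pi.sub_apply]
      rw [h1, redw_sub]
      congr 1
      simp only [rowS, id]
      split_ifs
      · rw [redw_sum]; rfl
      · ext k; simp [redw]

theorem root_posS (hd : 3 ≤ d) {x : ℝ} (hy : 4 * ((d : ℝ) - 1) ≤ x * x)
    (hx : 0 ≤ x) {q s : ℕ} (hq : q + 1 ≤ d)
    (h : FixedBlocksS d pt X l b₀ Fb) (hv : 0 < v l) (hvX : ∀ k ∈ X, v k = v l)
    (hv0 : ∀ k, 0 ≤ v k) {blk : α → ℕ} (hb : IsPartition d s X blk) (hX : X.card = d * s) :
    0 < restH (hdetv l v) X blk q ((x * x) • (1 : Matrix α α ℝ) - x • pairM ℝ pt -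
      sumOuter ℝ (b₀ ::ₘ Fb)) := by
  rw [restH_hdetv_eq blk hv.ne']
  apply mul_pos hv
  have h1 : update (fun i => redw l v (((x * x) • (1 : Matrix α α ℝ) - x • pairM ℝ pt -
      sumOuter ℝ (b₀ ::ₘ Fb)) i)) l (uv ℝ l) =
      update (A₀S (x * x) x pt l v b₀ Fb) l (uv ℝ l) := by
    congr 1
    ext i : 1
    unfold A₀S
    congr 1
    rw [← sumOuter_row]
    ext k
    simp only [Matrix.sub_apply, Matrix.smul_apply, Pi.sub_apply, smul_eq_mul, Matrix.one_apply,
      pairM, Matrix.of_apply, rowT, Pi.smul_apply, Pi.single_apply]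
    congr 1
    congr 1
    · simp [eq_comm]
    · by_cases hp : pt i = i
      · rw [if_pos hp, if_neg (fun h => h.2 (hp.symm.trans h.1))]
        simp
      · rw [if_neg hp]
        simp only [Pi.smul_apply, smul_eq_mul, Pi.single_apply]
        by_cases hk : k = pt i
        · rw [if_pos hk, if_pos ⟨hk.symm, fun h => hp (hk.symm.trans h.symm)⟩]
        · rw [if_neg hk, if_neg (fun h => hk h.1.symm)]
  rw [h1]
  exact root_TSS hd rfl hy hx hq h hv hvX hv0 hb hX

end Vale.Agent.P049
end
end
end

section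

section

section

/-! Real rootedness for `det (x² - x S - B)`, `B` a Gram matrix: lifting to bipartite matrices. -/

open Polynomial Matrix Finset

namespace Vale.Agent.P049

section embed

variable {α β : Type*} [Fintype α] [Fintype β] [DecidableEq α]

theorem Nice.embed {N : ℕ} {G : Matrix β β ℝ → ℝ[X]} (h : Nice N G) {T : Matrix β β ℝ}
    (hT : T.IsSymm) {P : Matrix β α ℝ} (hP : Pᵀ * P = 1) :
    Nice N (fun B : Matrix α α ℝ => G (T + P * B * Pᵀ)) := by
  have hs : ∀ B : Matrix α α ℝ, B.IsSymm → (T + P * B * Pᵀ).IsSymm := by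
    intro B hB
    refine hT.add ?_
    unfold Matrix.IsSymm
    rw [transpose_mul, transpose_mul, transpose_transpose, hB.eq, Matrix.mul_assoc]
  apply Nice.mk'
  · intro B hB; exact h.rr _ (hs B hB)
  · intro B hB; exact (h.deg _ (hs B hB)).le
  · obtain ⟨c, hc, h1⟩ := h.co
    exact ⟨c, hc, fun B hB => h1 _ (hs B hB)⟩
  · obtain ⟨c, hc, κ, h1⟩ := h.tr
    refine ⟨c, hc, κ - T.trace, fun B hB hN => ?_⟩
    rw [h1 _ (hs B hB) hN, Matrix.trace_add, Matrix.trace_mul_comm, ← Matrix.mul_assoc, hP,
      Matrix.one_mul]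
    ring
  · intro B hB v
    obtain ⟨H, hH, h1⟩ := h.aff' (hs B hB) (P *ᵥ v)
    refine ⟨H, hH, fun t => ?_⟩
    rw [← h1 t]
    congr 1
    rw [Matrix.mul_add, Matrix.add_mul, Matrix.mul_smul, Matrix.smul_mul, mul_vecMulVec,
      vecMulVec_mul, add_assoc]
    congr 3
    rw [← Matrix.mulVec_transpose, transpose_transpose]

end embed

section gram

variable {α : Type} [Fintype α] [DecidableEq α]

/-- the symmetric matrix with off-diagonal blocks `M`, `Mᵀ` -/
def lift {κ : Type} (M : Matrix α κ ℝ) : Matrix (α ⊕ κ) (α ⊕ κ) ℝ := fromBlocks 0 M Mᵀ 0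

omit [Fintype α] [DecidableEq α] in
theorem lift_isSymm {κ : Type} (M : Matrix α κ ℝ) : (lift M).IsSymm := by
  unfold lift Matrix.IsSymm
  rw [fromBlocks_transpose]
  simp

/-- Gram matrices -/
def Gram (F : Matrix α α ℝ) : Prop :=
  ∃ (κ : Type) (_ : Fintype κ) (_ : DecidableEq κ) (N : Matrix α κ ℝ), F = N * Nᵀ

omit [Fintype α] [DecidableEq α] in
theorem gram_zero : Gram (0 : Matrix α α ℝ) :=
  ⟨Unit, inferInstance, inferInstance, 0, by simp⟩

omit [Fintype α] [DecidableEq α] in
theorem Gram.add {F F' : Matrix α α ℝ} (h : Gram F) (h' : Gram F') : Gram (F + F') := by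
  obtain ⟨κ, _, _, N, rfl⟩ := h
  obtain ⟨κ', _, _, N', rfl⟩ := h'
  refine ⟨κ ⊕ κ', inferInstance, inferInstance, fromCols N N', ?_⟩
  rw [transpose_fromCols, fromCols_mul_fromRows]

omit [Fintype α] in
theorem gram_outer (b : Finset α) : Gram (outer ℝ b) := by
  refine ⟨Unit, inferInstance, inferInstance, Matrix.of fun i _ => if i ∈ b then 1 else 0, ?_⟩
  ext i k
  simp only [outer, Matrix.of_apply, Matrix.mul_apply, Matrix.transpose_apply, Finset.univ_unique,
    Finset.sum_singleton]
  by_cases h1 : i ∈ b <;> by_cases h2 : k ∈ b <;> simp [h1, h2]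

omit [Fintype α] in
theorem IsBase.gram {d : ℕ} : ∀ {n : ℕ} {X γ : Finset α} {B : Matrix α α ℝ},
    IsBase d n X γ B → Gram B := by
  intro n
  induction n with
  | zero =>
    intro X γ B h
    rw [isBase_zero] at h
    rw [h]; exact gram_zero
  | succ n ih =>
    intro X γ B h
    rw [isBase_succ] at h
    obtain ⟨x, _, h⟩ := h
    by_cases hc : γ.card + 1 = d
    · rw [baseAt_pos hc] at h
      obtain ⟨B', hB', rfl⟩ := h
      exact (gram_outer _).add (ih hB')
    · rw [baseAt_neg hc] at h
      exact ih h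

/-- functionals on Gram matrices (with values of degree `n`) which lift to nice functionals -/
def LNice (n : ℕ) (G : Matrix α α ℝ → ℝ[X]) : Prop :=
  ∀ (κ : Type) [Fintype κ] [DecidableEq κ], ∃ (a b N : ℕ)
    (G' : Matrix (α ⊕ κ) (α ⊕ κ) ℝ → ℝ[X]), Nice N G' ∧ a + N = b + n ∧
    ∀ M : Matrix α κ ℝ, X ^ a * G' (lift M) = X ^ b * G (M * Mᵀ)

theorem det_lift {κ : Type} [Fintype κ] [DecidableEq κ] (S : Matrix α α ℝ) (M : Matrix α κ ℝ) :
    (X : ℝ[X]) ^ (Fintype.card α) * (fromBlocks S 0 0 0 + lift M).charpoly =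
      X ^ (Fintype.card κ) * ((X : ℝ[X]) ^ 2 • (1 : Matrix α α ℝ[X]) - (X : ℝ[X]) • S.map C -
        (M * Mᵀ).map C).det := by
  have e1 : (fromBlocks S 0 0 0 + lift M).charpoly =
      (fromBlocks ((X : ℝ[X]) • (1 : Matrix α α ℝ[X]) - S.map C) (-(M.map C)) (-(Mᵀ.map C))
        ((X : ℝ[X]) • (1 : Matrix κ κ ℝ[X]))).det := by
    unfold Matrix.charpoly
    congr 1
    refine Matrix.ext (fun i k => ?_)
    rw [charmatrix_apply]
    rcases i with i | i <;> rcases k with k | k <;>
      simp [lift, Matrix.one_apply, Matrix.diagonal_apply]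
  have e2 : (fromBlocks ((X : ℝ[X]) • (1 : Matrix α α ℝ[X]) - S.map C) (-(M.map C)) (-(Mᵀ.map C))
        ((X : ℝ[X]) • (1 : Matrix κ κ ℝ[X]))) *
      (fromBlocks ((X : ℝ[X]) • (1 : Matrix α α ℝ[X])) 0 (Mᵀ.map C) (1 : Matrix κ κ ℝ[X])) =
      fromBlocks ((X : ℝ[X]) ^ 2 • (1 : Matrix α α ℝ[X]) - (X : ℝ[X]) • S.map C - (M * Mᵀ).map C)
        (-(M.map C)) 0 ((X : ℝ[X]) • (1 : Matrix κ κ ℝ[X])) := by
    rw [fromBlocks_multiply]
    congr 1
    · rw [Matrix.map_mul, Matrix.mul_smul, Matrix.mul_one, smul_sub, smul_smul, Matrix.neg_mul,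
        pow_two]
      abel
    · simp only [Matrix.mul_zero, Matrix.mul_one, zero_add]
    · simp only [Matrix.mul_smul, Matrix.mul_one, smul_neg, smul_mul, Matrix.one_mul, neg_add_cancel]
    · simp only [Matrix.mul_zero, mul_one, zero_add]
  have e3 := congrArg Matrix.det e2
  rw [Matrix.det_mul, Matrix.det_fromBlocks_zero₁₂, Matrix.det_fromBlocks_zero₂₁,
    Matrix.det_smul, Matrix.det_one, Matrix.det_smul, Matrix.det_one] at e3
  rw [e1]
  simp only [mul_one] at e3
  rw [mul_comm, e3, mul_comm]

theorem lnice_base {S : Matrix α α ℝ} (hS : S.IsSymm) :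
    LNice (2 * Fintype.card α) (fun B : Matrix α α ℝ =>
      ((X : ℝ[X]) ^ 2 • (1 : Matrix α α ℝ[X]) - (X : ℝ[X]) • S.map C - B.map C).det) := by
  intro κ _ _
  refine ⟨Fintype.card α, Fintype.card κ, _, _, nice_charpoly.translate (F := fromBlocks S 0 0 0) ?_,
    ?_, fun M => det_lift S M⟩
  · unfold Matrix.IsSymm
    rw [fromBlocks_transpose, hS.eq]
    simp
  · rw [Fintype.card_sum]
    ring

/-- embedding of `α ⊕ κ` into `α ⊕ (κ₀ ⊕ κ)` -/
def emb (α κ₀ κ : Type) [DecidableEq α] [DecidableEq κ] : Matrix (α ⊕ (κ₀ ⊕ κ)) (α ⊕ κ) ℝ :=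
  fromBlocks 1 0 0 (fromRows 0 1)

theorem emb_mul {κ₀ κ : Type} [Fintype κ₀] [Fintype κ] [DecidableEq κ] :
    (emb α κ₀ κ)ᵀ * emb α κ₀ κ = 1 := by
  unfold emb
  rw [fromBlocks_transpose, fromBlocks_multiply, transpose_fromRows, fromCols_mul_fromRows]
  simp only [transpose_one, mul_one, transpose_zero, Matrix.mul_zero, add_zero, Matrix.zero_mul, Matrix.mul_one, zero_add, fromBlocks_one]

theorem emb_lift {κ₀ κ : Type} [Fintype κ₀] [Fintype κ] [DecidableEq κ] (N : Matrix α κ₀ ℝ)
    (M : Matrix α κ ℝ) :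
    lift (fromCols N 0 : Matrix α (κ₀ ⊕ κ) ℝ) + emb α κ₀ κ * lift M * (emb α κ₀ κ)ᵀ =
      lift (fromCols N M) := by
  unfold emb lift
  rw [fromBlocks_transpose, fromBlocks_multiply, fromBlocks_multiply, fromBlocks_add]
  congr 1
  · simp
  · rw [transpose_fromRows]
    ext i k
    rcases k with k | k <;> simp
  · ext i k
    rcases i with i | i <;> simp
  · simp only [Matrix.mul_zero, fromRows_mul, Matrix.zero_mul, Matrix.one_mul, zero_add, transpose_zero, add_zero]

theorem LNice.translate {m : ℕ} {G : Matrix α α ℝ → ℝ[X]} (h : LNice m G) {F : Matrix α α ℝ}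
    (hF : Gram F) : LNice m (fun B => G (F + B)) := by
  obtain ⟨κ₀, _, _, N, rfl⟩ := hF
  intro κ _ _
  obtain ⟨a, b, n, G', hG, hab, h1⟩ := h (κ₀ ⊕ κ)
  refine ⟨a, b, n, _, hG.embed (T := lift (fromCols N 0)) (lift_isSymm _) emb_mul, hab,
    fun M => ?_⟩
  rw [emb_lift, h1, transpose_fromCols, fromCols_mul_fromRows]

/-- extension of a permutation by the identity -/
def ext1 (κ : Type) (σ : Equiv.Perm α) : Equiv.Perm (α ⊕ κ) := Equiv.sumCongr σ (Equiv.refl κ)

omit [Fintype α] in
theorem sum_perms_inl {κ : Type} [Fintype κ] [DecidableEq κ] {M : Type*} [AddCommMonoid M]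
    (X : Finset α) (f : Equiv.Perm (α ⊕ κ) → M) :
    ∑ σ ∈ permsOfFinset (X.map Function.Embedding.inl), f σ =
      ∑ σ ∈ permsOfFinset X, f (ext1 κ σ) := by
  symm
  refine Finset.sum_bij (fun σ _ => ext1 κ σ) ?_ ?_ ?_ ?_
  · intro σ hσ
    apply perms_of_fix
    intro x hx
    rcases x with x | x
    · have : x ∉ X := fun h => hx (Finset.mem_map.mpr ⟨x, h, rfl⟩)
      have h1 := perms_fix hσ this
      simp [ext1, h1]
    · simp [ext1]
  · intro σ _ τ _ h
    ext x
    have := congrArg (fun p : Equiv.Perm (α ⊕ κ) => p (Sum.inl x)) h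
    simpa [ext1] using this
  · intro π hπ
    have hr : ∀ k : κ, π (Sum.inr k) = Sum.inr k := fun k =>
      perms_fix hπ (by simp only [mem_map, Function.Embedding.inl_apply, reduceCtorEq, and_false, exists_false, not_false_eq_true])
    have hl : ∀ x : α, ∃ y : α, π (Sum.inl x) = Sum.inl y := by
      intro x
      rcases e : π (Sum.inl x) with y | k
      · exact ⟨y, rfl⟩
      · have h1 := hr k
        rw [← e] at h1
        have := π.injective h1
        rw [e] at this
        exact absurd this (by simp)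
    have hl' : ∀ x : α, ∃ y : α, π.symm (Sum.inl x) = Sum.inl y := by
      intro x
      rcases e : π.symm (Sum.inl x) with y | k
      · exact ⟨y, rfl⟩
      · rw [Equiv.symm_apply_eq, hr k] at e
        exact absurd e (by simp)
    choose f hf using hl
    choose g hg using hl'
    let σ : Equiv.Perm α :=
      { toFun := f
        invFun := g
        left_inv := by
          intro x
          have h1 := hg (f x)
          rw [← hf x, Equiv.symm_apply_apply] at h1
          exact (Sum.inl_injective h1).symm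
        right_inv := by
          intro x
          have h1 := hf (g x)
          rw [← hg x, Equiv.apply_symm_apply] at h1
          exact (Sum.inl_injective h1).symm }
    refine ⟨σ, ?_, ?_⟩
    · apply perms_of_fix
      intro x hx
      have h1 : π (Sum.inl x) = Sum.inl x := perms_fix hπ (by simpa only [mem_map, Function.Embedding.inl_apply, Sum.inl.injEq, exists_eq_right] using hx)
      rw [hf x] at h1
      exact Sum.inl_injective h1
    · ext x
      rcases x with x | k
      · show Sum.inl (f x) = π (Sum.inl x)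
        rw [hf x]
      · show Sum.inr k = π (Sum.inr k)
        rw [hr k]
  · intro σ _
    rfl

/-- permutation of the rows of a rectangular matrix -/
def rowPerm {κ : Type} (σ : Equiv.Perm α) (M : Matrix α κ ℝ) : Matrix α κ ℝ :=
  M.submatrix σ.symm id

omit [Fintype α] [DecidableEq α] in
theorem pact_lift {κ : Type} (σ : Equiv.Perm α) (M : Matrix α κ ℝ) :
    pact (ext1 κ σ) (lift M) = lift (rowPerm σ M) := by
  ext i k
  rcases i with i | i <;> rcases k with k | k <;> simp [pact, ext1, lift, rowPerm]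

omit [Fintype α] [DecidableEq α] in
theorem rowPerm_gram {κ : Type} [Fintype κ] (σ : Equiv.Perm α) (M : Matrix α κ ℝ) :
    rowPerm σ M * (rowPerm σ M)ᵀ = pact σ (M * Mᵀ) := by
  ext i k
  simp only [rowPerm, transpose_submatrix, Matrix.mul_apply, submatrix_apply, id_eq, transpose_apply, pact]

omit [Fintype α] [DecidableEq α] in
theorem rowPerm_fromCols {κ₀ κ : Type} (σ : Equiv.Perm α) (N : Matrix α κ₀ ℝ) :
    rowPerm σ (fromCols N (0 : Matrix α κ ℝ)) = fromCols (rowPerm σ N) 0 := by
  ext i k
  rcases k with k | k <;> simp [rowPerm]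

theorem LNice.sumPerms {m : ℕ} {G : Matrix α α ℝ → ℝ[X]} (h : LNice m G) (Y : Finset α)
    {B₀ : Matrix α α ℝ} (hB : Gram B₀) :
    LNice m (fun F => ∑ σ ∈ permsOfFinset Y, G (F + pact σ B₀)) := by
  obtain ⟨κ₀, _, _, N, rfl⟩ := hB
  intro κ _ _
  obtain ⟨a, b, n, G', hG, hab, h1⟩ := h (κ₀ ⊕ κ)
  have h2 := hG.sumPerms (Y.map Function.Embedding.inl) (lift_isSymm (fromCols N 0))
  have h3 := h2.embed (T := 0) Matrix.isSymm_zero (emb_mul (α := α) (κ₀ := κ₀) (κ := κ))
  refine ⟨a, b, n, _, h3, hab, fun M => ?_⟩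
  rw [sum_perms_inl, Finset.mul_sum, Finset.mul_sum]
  apply Finset.sum_congr rfl
  intro σ _
  have e : 0 + emb α κ₀ κ * lift M * (emb α κ₀ κ)ᵀ +
      pact (ext1 (κ₀ ⊕ κ) σ) (lift (fromCols N 0)) = lift (fromCols (rowPerm σ N) M) := by
    rw [pact_lift, rowPerm_fromCols, ← emb_lift (rowPerm σ N) M, zero_add, add_comm]
  rw [e, h1, transpose_fromCols, fromCols_mul_fromRows, rowPerm_gram, add_comm]

omit [Fintype α] [DecidableEq α] in
theorem ext1_mul (κ : Type) (σ τ : Equiv.Perm α) : ext1 κ (σ * τ) = ext1 κ σ * ext1 κ τ := by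
  ext x
  rcases x with x | x <;> simp [ext1]

omit [Fintype α] in
theorem ext1_swap (κ : Type) [DecidableEq κ] (a b : α) :
    ext1 κ (Equiv.swap a b) = Equiv.swap (Sum.inl a) (Sum.inl b) := by
  ext x
  rcases x with x | x
  · by_cases h1 : x = a
    · subst h1; simp [ext1]
    · by_cases h2 : x = b
      · subst h2; simp [ext1]
      · have e1 : (Equiv.swap (Sum.inl a) (Sum.inl b) : Equiv.Perm (α ⊕ κ)) (Sum.inl x) =
            Sum.inl x := Equiv.swap_apply_of_ne_of_ne (by simpa using h1) (by simpa using h2)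
        rw [e1]
        show (Sum.inl (Equiv.swap a b x) : α ⊕ κ) = Sum.inl x
        rw [Equiv.swap_apply_of_ne_of_ne h1 h2]
  · have e1 : (Equiv.swap (Sum.inl a) (Sum.inl b) : Equiv.Perm (α ⊕ κ)) (Sum.inr x) =
        Sum.inr x := Equiv.swap_apply_of_ne_of_ne (by simp) (by simp)
    rw [e1]
    rfl

theorem LNice.star {m : ℕ} {G : Matrix α α ℝ → ℝ[X]} (h : LNice m G) (Y : Finset α) (x₀ : α)
    (hx : x₀ ∈ Y) {B : Matrix α α ℝ} (hB : Gram B) (ν : α → ℝ) (h0 : ∀ x ∈ Y, 0 ≤ ν x)
    (hs : 0 < ∑ x ∈ Y, ν x) :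
    RR (∑ a ∈ Y, C (ν a) *
      ∑ ρ ∈ permsOfFinset (Y.erase x₀), G (pact (Equiv.swap x₀ a * ρ) B)) ∧
    (∑ a ∈ Y, C (ν a) *
      ∑ ρ ∈ permsOfFinset (Y.erase x₀), G (pact (Equiv.swap x₀ a * ρ) B)).natDegree = m ∧
    0 < (∑ a ∈ Y, C (ν a) *
      ∑ ρ ∈ permsOfFinset (Y.erase x₀), G (pact (Equiv.swap x₀ a * ρ) B)).leadingCoeff := by
  obtain ⟨κ, _, _, M, rfl⟩ := hB
  obtain ⟨a, b, n, G', hG, hab, h1⟩ := h κ
  set p := ∑ a ∈ Y, C (ν a) *
        ∑ ρ ∈ permsOfFinset (Y.erase x₀), G (pact (Equiv.swap x₀ a * ρ) (M * Mᵀ)) with hp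
  have hst := hG.star (Y.map Function.Embedding.inl) (Sum.inl x₀) (by simpa only [mem_map, Function.Embedding.inl_apply, Sum.inl.injEq, exists_eq_right] using hx)
    (Sum.elim ν (fun _ => 0)) (by
      intro x hx'
      obtain ⟨y, hy, rfl⟩ := Finset.mem_map.mp hx'
      exact h0 y hy) (by
      rw [Finset.sum_map]
      exact hs)
  have hsym := lift_isSymm M
  set q := ∑ a ∈ Y.map Function.Embedding.inl, C ((Sum.elim ν (fun _ => 0) : α ⊕ κ → ℝ) a) *
      ∑ ρ ∈ permsOfFinset ((Y.map Function.Embedding.inl).erase (Sum.inl x₀)),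
        G' (pact (Equiv.swap (Sum.inl x₀) a * ρ) (lift M)) with hq
  have hqp : X ^ a * q = X ^ b * p := by
    rw [hq, hp, Finset.sum_map, Finset.mul_sum, Finset.mul_sum]
    apply Finset.sum_congr rfl
    intro y _
    have e1 : (Y.map Function.Embedding.inl).erase (Sum.inl x₀ : α ⊕ κ) =
        (Y.erase x₀).map Function.Embedding.inl := by
      rw [Finset.map_erase]; rfl
    rw [e1, sum_perms_inl]
    have e2 : C ((Sum.elim ν (fun _ => 0) : α ⊕ κ → ℝ) (Function.Embedding.inl y)) = C (ν y) := rfl
    rw [e2, mul_left_comm, mul_left_comm (X ^ b)]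
    congr 1
    rw [Finset.mul_sum, Finset.mul_sum]
    apply Finset.sum_congr rfl
    intro ρ _
    have e3 : (Equiv.swap (Sum.inl x₀) (Function.Embedding.inl y) : Equiv.Perm (α ⊕ κ)) *
        ext1 κ ρ = ext1 κ (Equiv.swap x₀ y * ρ) := by
      rw [ext1_mul, ext1_swap]; rfl
    rw [e3, pact_lift, h1, rowPerm_gram]
  obtain ⟨c, hc, hlead⟩ := hst.lead
  have hq0 : q ≠ 0 := hst.ne_zero hsym
  have hX : (X : ℝ[X]) ≠ 0 := Polynomial.X_ne_zero
  have hp0 : p ≠ 0 := by
    intro h2
    rw [h2, mul_zero] at hqp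
    rcases mul_eq_zero.mp hqp with h3 | h3
    · exact pow_ne_zero _ hX h3
    · exact hq0 h3
  refine ⟨?_, ?_, ?_⟩
  · have h2 : RR (X ^ b * p) := by
      rw [← hqp]
      intro z hz
      rw [map_mul, map_pow, Polynomial.aeval_X]
      apply mul_ne_zero
      · apply pow_ne_zero
        rintro rfl
        simp at hz
      · exact hst.rr _ hsym z hz
    exact h2.of_mul
  · have h2 := congrArg Polynomial.natDegree hqp
    rw [Polynomial.natDegree_mul (pow_ne_zero _ hX) hq0,
      Polynomial.natDegree_mul (pow_ne_zero _ hX) hp0, Polynomial.natDegree_X_pow,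
      Polynomial.natDegree_X_pow, hst.deg _ hsym] at h2
    omega
  · have h2 := congrArg Polynomial.leadingCoeff hqp
    rw [Polynomial.leadingCoeff_mul, Polynomial.leadingCoeff_mul, Polynomial.leadingCoeff_X_pow,
      Polynomial.leadingCoeff_X_pow, one_mul, one_mul, hlead _ hsym] at h2
    rw [← h2]; exact hc

end gram

end Vale.Agent.P049
end
end
end

section

section

section

/-! The greedy choice with a pairing on the left side. -/

open Finset Matrix Polynomial

namespace Vale.Agent.P049

section core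

theorem exists_child_neg {α : Type*} [Fintype α] [DecidableEq α] {θ c : ℝ} (hc : c < θ)
    {d n : ℕ} {g : Matrix α α ℝ[X] → ℝ[X]} {X γ : Finset α} {A : Matrix α α ℝ[X]}
    (hgood : GoodPoly θ c (ordSum d g (n + 1) X γ A)) :
    ∃ a ∈ X, (child d g n X γ A a).eval c < 0 := by
  obtain ⟨H, hH, hpos⟩ := hgood.fac
  have h1 : (ordSum d g (n + 1) X γ A).eval c < 0 := by
    rw [hH, Polynomial.eval_mul, Polynomial.eval_sub, Polynomial.eval_X, Polynomial.eval_C]
    exact mul_neg_of_neg_of_pos (by linarith) (hpos c le_rfl)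
  rw [ordSum_succ, Polynomial.eval_finsetSum] at h1
  by_contra hcon
  push Not at hcon
  have := Finset.sum_nonneg hcon
  linarith only [h1, this]

theorem good_child {α : Type*} [DecidableEq α] {θ c : ℝ} (hc : c < θ) {N : ℕ} {X : Finset α}
    {Q : α → ℝ[X]}
    (hstar : ∀ ν : α → ℝ, (∀ x ∈ X, 0 ≤ ν x) → 0 < ∑ x ∈ X, ν x →
      RR (∑ b ∈ X, C (ν b) * Q b) ∧ (∑ b ∈ X, C (ν b) * Q b).natDegree = N ∧
      0 < (∑ b ∈ X, C (ν b) * Q b).leadingCoeff)
    (hgood : GoodPoly θ c (∑ b ∈ X, Q b)) {a : α} (ha : a ∈ X) (hroot : (Q a).eval θ = 0)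
    (hneg : (Q a).eval c < 0) : GoodPoly θ c (Q a) := by
  set P := ∑ b ∈ X, Q b with hPsum
  -- the mixtures
  have hmix : ∀ s : ℝ, ∑ b ∈ X, C ((1 - s) + (if b = a then s else 0)) * Q b =
      C (1 - s) * P + C s * Q a := by
    intro s
    simp only [map_add, add_mul]
    rw [Finset.sum_add_distrib, ← Finset.mul_sum, ← hPsum]
    congr 1
    have : ∀ b ∈ X, C (if b = a then s else 0) * Q b = if b = a then C s * Q a else 0 := by
      intro b _
      split_ifs with h
      · rw [h]
      · simp
    rw [Finset.sum_congr rfl this, Finset.sum_ite_eq' X a, if_pos ha]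
  have hmix' : ∀ s ∈ Set.Icc (0 : ℝ) 1, RR (C (1 - s) * P + C s * Q a) ∧
      (C (1 - s) * P + C s * Q a).natDegree = N ∧
      0 < (C (1 - s) * P + C s * Q a).leadingCoeff := by
    intro s hs
    have h0 : ∀ x ∈ X, 0 ≤ (1 - s) + (if x = a then s else 0) := by
      intro x _
      have := hs.1
      have := hs.2
      split_ifs <;> linarith only [this]
    have h1 : 0 < ∑ x ∈ X, ((1 - s) + (if x = a then s else 0)) := by
      have h2 : ((1 - s) + (if a = a then s else 0)) ≤
          ∑ x ∈ X, ((1 - s) + (if x = a then s else 0)) :=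
        Finset.single_le_sum h0 ha
      simp only [if_true] at h2
      linarith
    have := hstar _ h0 h1
    rwa [hmix s] at this
  have hP0 := hmix' 0 (by simp only [Set.mem_Icc, Std.le_refl, zero_le_one, and_self])
  have hQa := hmix' 1 (by simp only [Set.mem_Icc, zero_le_one, Std.le_refl, and_self])
  simp only [sub_zero, map_one, one_mul, map_zero, zero_mul, add_zero] at hP0
  simp only [sub_self, map_zero, zero_mul, map_one, one_mul, zero_add] at hQa
  obtain ⟨hPr, hPd, hPl⟩ := hP0
  obtain ⟨hQr, hQd, hQl⟩ := hQa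
  obtain ⟨H, hH, hHpos⟩ := hgood.fac
  obtain ⟨K, hK⟩ := Polynomial.dvd_iff_isRoot.mpr hroot
  have fact : ∀ (p k : ℝ[X]), p = (Polynomial.X - C θ) * k →
      p.natDegree = N → 0 < p.leadingCoeff →
      k.natDegree = N - 1 ∧ 0 < k.leadingCoeff := by
    intro p k hpk hpd hpl
    have hk0 : k ≠ 0 := by
      rintro rfl
      rw [hpk] at hpl
      simp at hpl
    have h1 := Polynomial.natDegree_mul (Polynomial.X_sub_C_ne_zero θ) hk0
    rw [← hpk, hpd, Polynomial.natDegree_X_sub_C] at h1
    have h2 : p.leadingCoeff = k.leadingCoeff := by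
      rw [hpk, Polynomial.leadingCoeff_mul, Polynomial.leadingCoeff_X_sub_C, one_mul]
    exact ⟨by omega, by rwa [h2] at hpl⟩
  obtain ⟨hHd, hHl⟩ := fact P H hH hPd hPl
  obtain ⟨hKd, hKl⟩ := fact (Q a) K hK hQd hQl
  have hKc : 0 < K.eval c := by
    have h1 : (Q a).eval c < 0 := hneg
    rw [hK, Polynomial.eval_mul, Polynomial.eval_sub, Polynomial.eval_X, Polynomial.eval_C] at h1
    by_contra hcon
    push Not at hcon
    have : 0 ≤ (c - θ) * K.eval c := mul_nonneg_of_nonpos_of_nonpos (by linarith only [hc]) hcon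
    linarith only [h1, this]
  refine ⟨hQr, hQl, K, hK, ?_⟩
  apply continuity_lemma (N := N - 1) hHd hKd hHl hKl _ hHpos hKc
  intro s hs
  have h1 := (hmix' s hs).1
  have h2 : C (1 - s) * P + C s * Q a =
      (Polynomial.X - C θ) * (C (1 - s) * H + C s * K) := by
    rw [hH, hK]; ring
  rw [h2] at h1
  exact h1.of_mul

end core

section pairing

variable {α : Type} [Fintype α] [DecidableEq α]

omit [Fintype α] in
theorem pairM_isSymm {pt : α → α} (hpt : ∀ i, pt (pt i) = i) : (pairM ℝ pt).IsSymm := by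
  unfold Matrix.IsSymm pairM
  ext i k
  simp only [Matrix.transpose_apply, Matrix.of_apply]
  congr 1
  rw [eq_iff_iff]
  constructor
  · rintro ⟨h1, h2⟩
    exact ⟨by rw [← h1, hpt], Ne.symm h2⟩
  · rintro ⟨h1, h2⟩
    exact ⟨by rw [← h1, hpt], Ne.symm h2⟩

omit [Fintype α] in
theorem pairM_map {R S : Type*} [CommRing R] [CommRing S] (φ : R →+* S) (pt : α → α) :
    (pairM R pt).map φ = pairM S pt := by
  ext i k
  simp only [pairM, Matrix.map_apply, Matrix.of_apply]
  split_ifs <;> simp

omit [Fintype α] in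
theorem yM_sub (pt : α → α) (F B : Matrix α α ℝ) : yM pt F - B.map C = yM pt (F + B) := by
  refine Matrix.ext (fun i k => ?_)
  simp only [yM, Matrix.sub_apply, Matrix.map_apply, Matrix.add_apply, map_add]
  ring

omit [Fintype α] in
theorem gram_sumOuter (L : Multiset (Finset α)) : Gram (sumOuter ℝ L) := by
  unfold sumOuter
  induction L using Multiset.induction_on with
  | empty => simpa using gram_zero
  | cons b L ih =>
    rw [Multiset.map_cons, Multiset.sum_cons]
    exact (gram_outer b).add ih

theorem lnice_rest {pt : α → α} (hpt : ∀ i, pt (pt i) = i) (d : ℕ) (X₀ : Finset α) (q : ℕ) :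
    LNice (2 * Fintype.card α) (fun F : Matrix α α ℝ => restSum d X₀ q (yM pt F)) := by
  induction q with
  | zero =>
    rw [restSum_zero]
    have h := lnice_base (pairM_isSymm hpt)
    have e : (pairM ℝ pt).map C = pairM ℝ[X] pt := pairM_map (C : ℝ →+* ℝ[X]) pt
    rw [e] at h
    exact h
  | succ q ih =>
    obtain ⟨B, hB⟩ := exists_base ℤ d X₀.card X₀ ∅ rfl
    have hB' : IsBase d X₀.card X₀ ∅ (B.map (Int.cast : ℤ → ℝ[X])) :=
      hB.map (Int.castRingHom ℝ[X])
    have hBr : IsBase d X₀.card X₀ ∅ (B.map (Int.cast : ℤ → ℝ)) :=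
      hB.map (Int.castRingHom ℝ)
    refine cast (congrArg (LNice _) ?_) (ih.sumPerms X₀ hBr.gram)
    funext F
    rw [restSum_succ, ordSum_eq_perm _ hB' rfl (Finset.disjoint_empty_right _)]
    apply Finset.sum_congr rfl
    intro σ _
    rw [map_int_C, ← yM_sub, pact_map]

theorem star_childS {pt : α → α} (hpt : ∀ i, pt (pt i) = i) {d q n : ℕ} {X₀ X γ : Finset α}
    {F : Matrix α α ℝ} (hF : Gram F)
    (hn : X.card = n + 1) (hdisj : Disjoint X γ) (ν : α → ℝ) (h0 : ∀ x ∈ X, 0 ≤ ν x)
    (h1 : 0 < ∑ x ∈ X, ν x) :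
    RR (∑ a ∈ X, C (ν a) * child d (restSum d X₀ q) n X γ (yM pt F) a) ∧
    (∑ a ∈ X, C (ν a) * child d (restSum d X₀ q) n X γ (yM pt F) a).natDegree =
      2 * Fintype.card α ∧
    0 < (∑ a ∈ X, C (ν a) * child d (restSum d X₀ q) n X γ (yM pt F) a).leadingCoeff := by
  obtain ⟨x₀, hx₀, B, hBs, hBb, hB⟩ := child_eq_perm (d := d) hn hdisj
  have hBr : IsBase d (n + 1) X γ (B.map (Int.cast : ℤ → ℝ)) := hBb.map (Int.castRingHom ℝ)
  have hnice := ((lnice_rest hpt d X₀ q).translate hF).star X x₀ hx₀ hBr.gram ν h0 h1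
  have e : ∑ a ∈ X, C (ν a) * child d (restSum d X₀ q) n X γ (yM pt F) a =
      ∑ a ∈ X, C (ν a) * ∑ ρ ∈ permsOfFinset (X.erase x₀),
        restSum d X₀ q (yM pt (F + pact (Equiv.swap x₀ a * ρ) (B.map (Int.cast : ℤ → ℝ)))) := by
    apply Finset.sum_congr rfl
    intro a ha
    rw [hB ℝ[X] _ _ a ha]
    congr 1
    apply Finset.sum_congr rfl
    intro ρ _
    rw [map_int_C, ← pact_map, yM_sub]
  rw [e]
  exact hnice

theorem sum_pairM {pt : α → α} (hpt : ∀ i, pt (pt i) = i) (v : α) :
    ∑ i, pairM ℝ pt i v = pdeg pt v := by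
  unfold pairM pdeg
  simp only [Matrix.of_apply]
  by_cases hv : pt v = v
  · rw [if_pos hv, Nat.cast_zero]
    apply Finset.sum_eq_zero
    intro i _
    rw [if_neg]
    rintro ⟨h1, h2⟩
    apply h2
    rw [← hpt i, h1, hv]
  · rw [if_neg hv, Finset.sum_eq_single (pt v)]
    · rw [if_pos ⟨hpt v, hv⟩]
      simp
    · intro i _ hi
      rw [if_neg]
      rintro ⟨h1, _⟩
      apply hi
      rw [← h1, hpt]
    · intro h
      exact absurd (Finset.mem_univ _) h

theorem child_rootS {pt : α → α} (hpt : ∀ i, pt (pt i) = i) {d q n : ℕ} (hd : 0 < d)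
    {X₀ X γ : Finset α} {F : Matrix α α ℝ} (hn : X.card = n + 1) (hdisj : Disjoint X γ)
    (hγ : γ.card < d) (hdiv : d ∣ X.card + γ.card) (hdiv0 : d ∣ X₀.card)
    (hcol : ColOKS d pt X₀ q X γ F) {a : α} (ha : a ∈ X) :
    (child d (restSum d X₀ q) n X γ (yM pt F) a).eval (d : ℝ) = 0 := by
  have hne : Nonempty α := ⟨a⟩
  set A₀ : Matrix α α ℝ := ((d : ℝ) ^ 2) • (1 : Matrix α α ℝ) - (d : ℝ) • pairM ℝ pt - F with hA₀
  have hA : (yM pt F).map (Polynomial.evalRingHom (d : ℝ)) = A₀ := by
    refine Matrix.ext (fun i k => ?_)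
    simp only [hA₀, yM, Matrix.map_apply, Matrix.sub_apply, Matrix.smul_apply, smul_eq_mul,
      Polynomial.coe_evalRingHom, Matrix.one_apply, pairM, Matrix.of_apply]
    split_ifs <;> simp
  have hsum : ∀ v, ∑ i, A₀ i v =
      d * (if v ∈ X ∨ v ∈ γ then 1 else 0) + d * q * (if v ∈ X₀ then 1 else 0) := by
    intro v
    have h1 : ∑ i, A₀ i v = (d : ℝ) ^ 2 - d * pdeg pt v - ∑ i, F i v := by
      rw [← sum_pairM hpt v, hA₀]
      simp only [Matrix.sub_apply, Matrix.smul_apply, Matrix.one_apply, smul_eq_mul,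
        Finset.sum_sub_distrib, ← Finset.mul_sum]
      simp only [sum_ite_eq', mem_univ, ↓reduceIte, mul_one]
    have h2 := hcol v
    rw [h1]
    linarith only [h2]
  have hg := restSum_zero_of_col hd hdiv0 q
  have hc' : (X.erase a).card = n := by rw [Finset.card_erase_of_mem ha, hn]; rfl
  have haγ : a ∉ γ := Finset.disjoint_left.mp hdisj ha
  -- evaluate
  have hnat := fun (X' γ' : Finset α) (A : Matrix α α ℝ[X]) =>
    ordSum_map (Polynomial.evalRingHom (d : ℝ)) d (restSum d X₀ q) (restSum d X₀ q)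
      (restSum_map (Polynomial.evalRingHom (d : ℝ)) d X₀ q) n X' γ' A
  rw [hn] at hdiv
  by_cases hc : γ.card + 1 = d
  · rw [child_pos hc]
    have h1 := hnat (X.erase a) ∅ (yM pt F - outer ℝ[X] (insert a γ))
    rw [Polynomial.coe_evalRingHom] at h1
    rw [h1]
    have h2 : (yM pt F - outer ℝ[X] (insert a γ)).map (Polynomial.eval (d : ℝ)) =
        A₀ - outer ℝ (insert a γ) := by
      rw [← hA, ← outer_map (Polynomial.evalRingHom (d : ℝ))]
      refine Matrix.ext (fun i k => ?_)
      simp only [map_apply, Matrix.sub_apply, eval_sub, coe_evalRingHom]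
    rw [h2]
    apply ordSum_zero_of_col _ _ hg _ _ _ _ hc' (Finset.disjoint_empty_right _) (by simpa using hd)
    · rw [Finset.card_empty, add_zero]
      have : n + 1 + γ.card = n + d := by omega
      rw [this] at hdiv
      exact (Nat.dvd_add_left (dvd_refl d)).mp hdiv
    · intro v
      have h1 : ∑ i, (A₀ - outer ℝ (insert a γ)) i v =
          ∑ i, A₀ i v - ∑ i, outer ℝ (insert a γ) i v := by
        rw [← Finset.sum_sub_distrib]; rfl
      rw [h1, hsum v, sum_outer, Finset.card_insert_of_notMem haγ, hc]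
      by_cases h2 : v = a
      · subst h2; simp only [ha, true_or, ↓reduceIte, mul_one, mul_ite, mul_zero, mem_insert, add_sub_cancel_left, mem_erase, ne_eq, not_true_eq_false, and_true, notMem_empty, or_self, zero_add]
      · by_cases h3 : v ∈ γ
        · have h4 : v ∉ X := fun h => Finset.disjoint_left.mp hdisj h h3
          simp only [h4, h3, or_true, ↓reduceIte, mul_one, mul_ite, mul_zero, mem_insert, add_sub_cancel_left, mem_erase, ne_eq, and_false, notMem_empty, or_self, zero_add]
        · by_cases h4 : v ∈ X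
          · simp only [h4, h3, or_false, ↓reduceIte, mul_one, mul_ite, mul_zero, mem_insert, h2, or_self, sub_zero, mem_erase, ne_eq, not_false_eq_true, and_self, notMem_empty]
          · simp only [h4, h3, or_self, ↓reduceIte, mul_zero, mul_ite, mul_one, zero_add, mem_insert, h2, sub_zero, mem_erase, ne_eq, not_false_eq_true, and_false, notMem_empty]
  · rw [child_neg hc]
    have h1 := hnat (X.erase a) (insert a γ) (yM pt F)
    rw [hA, Polynomial.coe_evalRingHom] at h1
    rw [h1]
    have h3 : Disjoint (X.erase a) (insert a γ) := by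
      rw [Finset.disjoint_insert_right]
      exact ⟨Finset.notMem_erase _ _, hdisj.mono_left (Finset.erase_subset _ _)⟩
    apply ordSum_zero_of_col _ _ hg _ _ _ _ hc' h3
    · rw [Finset.card_insert_of_notMem haγ]; omega
    · rw [Finset.card_insert_of_notMem haγ]
      have : n + (γ.card + 1) = n + 1 + γ.card := by omega
      rw [this]; exact hdiv
    · intro v
      rw [hsum v]
      by_cases h2 : v = a
      · subst h2; simp [ha]
      · simp [h2]

theorem node_exists_childS {pt : α → α} {d q n : ℕ} {c : ℝ} (hc : c < d) {X₀ X γ : Finset α}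
    {F : Matrix α α ℝ}
    (hgood : GoodPoly (d : ℝ) c (ordSum d (restSum d X₀ q) (n + 1) X γ (yM pt F))) :
    ∃ a ∈ X, (child d (restSum d X₀ q) n X γ (yM pt F) a).eval c < 0 :=
  exists_child_neg hc hgood

theorem node_stepS {pt : α → α} (hpt : ∀ i, pt (pt i) = i) {d q n : ℕ} {c : ℝ} (hd : 0 < d)
    (hc : c < d) {X₀ X γ : Finset α} {F : Matrix α α ℝ} (hF : Gram F) (hn : X.card = n + 1)
    (hdisj : Disjoint X γ) (hγ : γ.card < d) (hdiv : d ∣ X.card + γ.card) (hdiv0 : d ∣ X₀.card)
    (hcol : ColOKS d pt X₀ q X γ F)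
    (hgood : GoodPoly (d : ℝ) c (ordSum d (restSum d X₀ q) (n + 1) X γ (yM pt F))) {a : α}
    (ha : a ∈ X) (hneg : (child d (restSum d X₀ q) n X γ (yM pt F) a).eval c < 0) :
    GoodPoly (d : ℝ) c (child d (restSum d X₀ q) n X γ (yM pt F) a) := by
  rw [ordSum_succ] at hgood
  exact good_child hc (star_childS hpt hF hn hdisj) hgood ha
    (child_rootS hpt hd hn hdisj hγ hdiv hdiv0 hcol ha) hneg

end pairing

end Vale.Agent.P049
end
end
end

section

section

section

/-! From blocks to bipartite Ramanujan graphs. -/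

namespace Vale.Agent.P049

open Finset Matrix Polynomial

variable {V : Type*} [Fintype V] [DecidableEq V]

/-- characteristic polynomial of a bipartite adjacency matrix -/
theorem charpoly_bip (B : Matrix V V ℝ) :
    (fromBlocks 0 B Bᵀ 0).charpoly = (B * Bᵀ).charpoly.comp (Polynomial.X ^ 2) := by
  set x : Matrix V V ℝ[X] := (Polynomial.X : ℝ[X]) • (1 : Matrix V V ℝ[X]) with hx
  set M : Matrix (V ⊕ V) (V ⊕ V) ℝ[X] := fromBlocks x (-B.map C) (-Bᵀ.map C) x with hM
  have h1 : (fromBlocks 0 B Bᵀ 0).charpoly = M.det := by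
    unfold Matrix.charpoly
    congr 1
    ext i j
    rw [charmatrix_apply]
    rcases i with i | i <;> rcases j with j | j <;>
      simp [hM, hx, Matrix.diagonal_apply, Matrix.one_apply]
  have h2 : (B * Bᵀ).charpoly.comp (Polynomial.X ^ 2) =
      (((Polynomial.X : ℝ[X]) ^ 2) • (1 : Matrix V V ℝ[X]) - (B * Bᵀ).map C).det := by
    unfold Matrix.charpoly
    rw [← Polynomial.coe_compRingHom_apply, RingHom.map_det]
    congr 1
    ext i j
    rw [RingHom.mapMatrix_apply, Matrix.map_apply, charmatrix_apply]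
    simp only [Matrix.sub_apply, Matrix.smul_apply, Matrix.map_apply, smul_eq_mul,
      Matrix.one_apply, Matrix.diagonal_apply]
    split_ifs <;> simp
  set N : Matrix (V ⊕ V) (V ⊕ V) ℝ[X] := fromBlocks x 0 (Bᵀ.map C) 1 with hN
  have h3 : M * N = fromBlocks (((Polynomial.X : ℝ[X]) ^ 2) • (1 : Matrix V V ℝ[X]) -
      (B * Bᵀ).map C) (-B.map C) 0 x := by
    rw [hM, hN, fromBlocks_multiply]
    congr 1
    · rw [hx, Matrix.smul_mul, Matrix.one_mul, smul_smul, ← sq, Matrix.neg_mul, ← sub_eq_add_neg,
        Matrix.map_mul]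
    · simp
    · rw [hx, Matrix.smul_mul, Matrix.one_mul, Matrix.mul_smul, Matrix.mul_one, smul_neg,
        neg_add_cancel]
    · simp
  have h4 := congrArg Matrix.det h3
  rw [det_mul, det_fromBlocks_zero₂₁, hN, det_fromBlocks_zero₁₂, det_one, mul_one] at h4
  have hx0 : x.det ≠ 0 := by
    rw [hx, det_smul, det_one, mul_one]
    exact pow_ne_zero _ Polynomial.X_ne_zero
  rw [h1, h2]
  exact mul_right_cancel₀ hx0 h4

/-- the bipartite graph of a family of blocks -/
def bipG (b : V → Finset V) : SimpleGraph (V ⊕ V) where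
  Adj := fun p q => match p, q with
    | Sum.inl i, Sum.inr j => i ∈ b j
    | Sum.inr j, Sum.inl i => i ∈ b j
    | _, _ => False
  symm := ⟨fun p q h => by
    rcases p with p | p <;> rcases q with q | q <;> exact h⟩
  loopless := ⟨fun p h => by rcases p with p | p <;> exact h⟩

instance (b : V → Finset V) : DecidableRel (bipG b).Adj := fun p q => by
  rcases p with p | p <;> rcases q with q | q <;> unfold bipG <;> infer_instance

theorem bipG_bip (b : V → Finset V) : (bipG b).IsBipartite := by
  refine ⟨SimpleGraph.Coloring.mk (fun p => match p with | Sum.inl _ => 0 | Sum.inr _ => 1) ?_⟩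
  intro p q h
  rcases p with p | p <;> rcases q with q | q
  · exact h.elim
  · simp
  · simp
  · exact h.elim

/-- incidence matrix -/
def incM (b : V → Finset V) : Matrix V V ℝ := Matrix.of fun i j => if i ∈ b j then 1 else 0

theorem adj_bipG (b : V → Finset V) :
    (bipG b).adjMatrix ℝ = fromBlocks 0 (incM b) (incM b)ᵀ 0 := by
  ext p q
  rw [SimpleGraph.adjMatrix_apply]
  rcases p with p | p <;> rcases q with q | q
  · simp only [bipG, ↓reduceIte, fromBlocks_apply₁₁, Matrix.zero_apply]
  · simp only [bipG, incM, fromBlocks_apply₁₂, of_apply]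
  · simp only [bipG, incM, fromBlocks_apply₂₁, transpose_apply, of_apply]
  · simp only [bipG, ↓reduceIte, fromBlocks_apply₂₂, Matrix.zero_apply]

theorem incM_mul (b : V → Finset V) : incM b * (incM b)ᵀ = ∑ j, outer ℝ (b j) := by
  ext i k
  rw [Matrix.mul_apply, Matrix.sum_apply]
  apply sum_congr rfl
  intro j _
  simp only [incM, outer, Matrix.of_apply, Matrix.transpose_apply]
  by_cases h1 : i ∈ b j <;> by_cases h2 : k ∈ b j <;> simp [h1, h2]

theorem bipG_reg {d : ℕ} (b : V → Finset V) (h1 : ∀ j, (b j).card = d)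
    (h2 : ∀ i, (univ.filter fun j => i ∈ b j).card = d) : (bipG b).IsRegularOfDegree d := by
  intro p
  rw [← SimpleGraph.card_neighborFinset_eq_degree]
  rcases p with i | j
  · rw [← h2 i]
    symm
    apply card_bij (fun j _ => Sum.inr j)
    · intro j hj
      rw [mem_filter] at hj
      rw [SimpleGraph.mem_neighborFinset]
      exact hj.2
    · intro j _ j' _ h
      exact Sum.inr_injective h
    · intro q hq
      rw [SimpleGraph.mem_neighborFinset] at hq
      rcases q with q | q
      · exact hq.elim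
      · exact ⟨q, by rw [mem_filter]; exact ⟨mem_univ _, hq⟩, rfl⟩
  · rw [← h1 j]
    symm
    apply card_bij (fun i _ => Sum.inl i)
    · intro i hi
      rw [SimpleGraph.mem_neighborFinset]
      exact hi
    · intro i _ i' _ h
      exact Sum.inl_injective h
    · intro q hq
      rw [SimpleGraph.mem_neighborFinset] at hq
      rcases q with q | q
      · exact ⟨q, hq, rfl⟩
      · exact hq.elim

theorem bipG_ramanujan {d : ℕ} (hd : 3 ≤ d) (b : V → Finset V) (h1 : ∀ j, (b j).card = d)
    (h2 : ∀ i, (univ.filter fun j => i ∈ b j).card = d) (H : ℝ[X])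
    (hH : (∑ j, outer ℝ (b j)).charpoly = (Polynomial.X - C ((d : ℝ) ^ 2)) * H)
    (hpos : ∀ x, 4 * ((d : ℝ) - 1) ≤ x → 0 < H.eval x) :
    IsBipartiteRamanujan d (bipG b) := by
  refine ⟨bipG_bip b, bipG_reg b h1 h2, (H.comp (Polynomial.X ^ 2)).roots, ?_, ?_⟩
  · have hne := (Matrix.charpoly_monic ((bipG b).adjMatrix ℝ)).ne_zero
    have h3 : ((bipG b).adjMatrix ℝ).charpoly = (Polynomial.X - C (d : ℝ)) *
        ((Polynomial.X + C (d : ℝ)) * H.comp (Polynomial.X ^ 2)) := by
      rw [adj_bipG, charpoly_bip, incM_mul, hH, mul_comp, sub_comp, X_comp, C_comp]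
      rw [map_pow]; ring
    rw [h3] at hne ⊢
    rw [roots_mul hne, roots_mul (right_ne_zero_of_mul hne), roots_X_sub_C, roots_X_add_C,
      Multiset.singleton_add, Multiset.singleton_add]
  · intro μ hμ
    have h4 := isRoot_of_mem_roots hμ
    rw [IsRoot.def, eval_comp, eval_pow, eval_X] at h4
    by_contra hcon
    push Not at hcon
    have hd3 : (3 : ℝ) ≤ d := by exact_mod_cast hd
    have h5 : 4 * ((d : ℝ) - 1) ≤ μ ^ 2 := by
      have h6 : (2 * √((d : ℝ) - 1)) ^ 2 = 4 * ((d : ℝ) - 1) := by
        rw [mul_pow, Real.sq_sqrt (by linarith)]; norm_num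
      rw [← h6, ← sq_abs μ]
      exact pow_le_pow_left₀ (by (clear * -; positivity)) hcon.le 2
    have := hpos _ h5
    rw [h4] at this
    exact lt_irrefl _ this

/-- invariance under isomorphism -/
theorem IsBipartiteRamanujan.iso {V W : Type*} [Fintype V] [DecidableEq V] [Fintype W]
    [DecidableEq W] {d : ℕ} {G : SimpleGraph V} [DecidableRel G.Adj] {G' : SimpleGraph W}
    [DecidableRel G'.Adj] (h : IsBipartiteRamanujan d G) (e : G ≃g G') :
    IsBipartiteRamanujan d G' := by
  obtain ⟨h1, h2, s, h3, h4⟩ := h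
  refine ⟨?_, ?_, s, ?_, h4⟩
  · exact h1.of_hom e.symm.toHom
  · intro w
    rw [← h2 (e.symm w)]
    have := e.degree_eq (e.symm w)
    rw [← this]
    simp only [SimpleGraph.Iso.degree_eq]
  · rw [← h3, ← Matrix.charpoly_reindex e.toEquiv (G.adjMatrix ℝ)]
    congr 2
    ext i j
    rw [Matrix.reindex_apply, Matrix.submatrix_apply, SimpleGraph.adjMatrix_apply,
      SimpleGraph.adjMatrix_apply]
    congr 1
    have := e.symm.map_adj_iff (v := i) (w := j)
    exact propext this.symm

end Vale.Agent.P049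
end
end
end

section

section

section

/-! The root node satisfies the invariant (left set with a pairing). -/

namespace Vale.Agent.P049

open Finset Equiv Function Matrix Polynomial

section restHv

variable {α : Type*} [Fintype α] [DecidableEq α] {R : Type*} [CommRing R]

theorem restH_deflatev {d s : ℕ} {X₀ : Finset α} {blk : α → ℕ} (hb : IsPartition d s X₀ blk) (l : α)
    (v : α → R) (q : ℕ) : ∀ (A : Matrix α α R) (c : R),
    (∀ k, ∑ i, A i k = c * v k + d * q * (if k ∈ X₀ then 1 else 0)) →
    restH Matrix.det X₀ blk q A = c * restH (hdetv l v) X₀ blk q A := by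
  induction q with
  | zero =>
    intro A c h
    exact det_deflatev l v A c (fun k => by rw [h k]; simp only [Nat.cast_zero, mul_zero, mul_ite, mul_one, ite_self, add_zero])
  | succ q ih =>
    intro A c h
    rw [restH, restH, mul_sum]
    apply sum_congr rfl
    intro σ hσ
    apply ih
    intro k
    simp only [Matrix.sub_apply, sum_sub_distrib, h k, colSum_pact hb hσ]
    split_ifs
    · push_cast; ring
    · push_cast; ring

theorem hdetv_map {S : Type*} [CommRing S] (φ : R →+* S) (l : α) (v : α → R) (A : Matrix α α R) :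
    φ (hdetv l v A) = hdetv l (fun k => φ (v k)) (A.map φ) := by
  unfold hdetv
  rw [RingHom.map_det]
  congr 1
  ext i k
  simp only [RingHom.mapMatrix_apply, map_apply, updateRow_apply]
  split_ifs <;> simp

theorem restH_hdetv_map {S : Type*} [CommRing S] (φ : R →+* S) (l : α) (v : α → R) (X₀ : Finset α)
    (blk : α → ℕ) (q : ℕ) (A : Matrix α α R) :
    φ (restH (hdetv l v) X₀ blk q A) = restH (hdetv l fun k => φ (v k)) X₀ blk q (A.map φ) := by
  induction q generalizing A with
  | zero => exact hdetv_map φ l v A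
  | succ q ih =>
    rw [restH, restH, map_sum]
    apply sum_congr rfl
    intro σ _
    rw [ih]
    congr 1
    rw [← blockMat_map_root φ, ← pact_map]
    ext i k
    simp only [map_apply, Matrix.sub_apply, map_sub]

end restHv

variable {α : Type} [Fintype α] [DecidableEq α]

theorem LNice.self {m : ℕ} {G : Matrix α α ℝ → ℝ[X]} (h : LNice m G) {F : Matrix α α ℝ}
    (hF : Gram F) : RR (G F) ∧ (G F).natDegree = m ∧ 0 < (G F).leadingCoeff := by
  obtain ⟨κ, _, _, M, rfl⟩ := hF
  obtain ⟨a, b, n, G', hG, hab, h1⟩ := h κ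
  have hsym := lift_isSymm M
  set q := G' (lift M) with hq
  set p := G (M * Mᵀ) with hp
  have hqp : Polynomial.X ^ a * q = Polynomial.X ^ b * p := h1 M
  obtain ⟨c, hc, hlead⟩ := hG.lead
  have hq0 : q ≠ 0 := hG.ne_zero hsym
  have hX : (Polynomial.X : ℝ[X]) ≠ 0 := Polynomial.X_ne_zero
  have hp0 : p ≠ 0 := by
    intro h2
    rw [h2, mul_zero] at hqp
    rcases mul_eq_zero.mp hqp with h3 | h3
    · exact pow_ne_zero _ hX h3
    · exact hq0 h3
  refine ⟨?_, ?_, ?_⟩
  · have h2 : RR (Polynomial.X ^ b * p) := by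
      rw [← hqp]
      intro z hz
      rw [map_mul, map_pow, Polynomial.aeval_X]
      apply mul_ne_zero
      · apply pow_ne_zero
        rintro rfl
        simp at hz
      · exact hG.rr _ hsym z hz
    exact h2.of_mul
  · have h2 := congrArg Polynomial.natDegree hqp
    rw [Polynomial.natDegree_mul (pow_ne_zero _ hX) hq0,
      Polynomial.natDegree_mul (pow_ne_zero _ hX) hp0, Polynomial.natDegree_X_pow,
      Polynomial.natDegree_X_pow, hG.deg _ hsym] at h2
    omega
  · have h2 := congrArg Polynomial.leadingCoeff hqp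
    rw [Polynomial.leadingCoeff_mul, Polynomial.leadingCoeff_mul, Polynomial.leadingCoeff_X_pow,
      Polynomial.leadingCoeff_X_pow, one_mul, one_mul, hlead _ hsym] at h2
    rw [← h2]; exact hc

theorem yM_eval (pt : α → α) (F : Matrix α α ℝ) (x : ℝ) :
    (yM pt F).map (Polynomial.evalRingHom x) =
      (x * x) • (1 : Matrix α α ℝ) - x • pairM ℝ pt - F := by
  refine Matrix.ext (fun i k => ?_)
  simp only [yM, Matrix.map_apply, Matrix.sub_apply, Matrix.smul_apply, smul_eq_mul,
    Polynomial.coe_evalRingHom, Matrix.one_apply, pairM, Matrix.of_apply]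
  split_ifs <;> simp [pow_two]

theorem yM_colSum {pt : α → α} (hpt : ∀ i, pt (pt i) = i) (F : Matrix α α ℝ) (k : α) :
    ∑ i, yM pt F i k =
      Polynomial.X ^ 2 - Polynomial.X * (pdeg pt k : ℝ[X]) - C (∑ i, F i k) := by
  have h1 : ∑ i, pairM ℝ[X] pt i k = (pdeg pt k : ℝ[X]) := by
    have h2 := sum_pairM hpt k
    have h3 := congrArg (C : ℝ →+* ℝ[X]) h2
    rw [map_sum, map_natCast] at h3
    rw [← h3]
    apply sum_congr rfl
    intro i _
    rw [← pairM_map (C : ℝ →+* ℝ[X]) pt]
    rfl
  simp only [yM, Matrix.sub_apply, sum_sub_distrib, Matrix.smul_apply, smul_eq_mul,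
    Matrix.map_apply, map_sum, ← mul_sum, h1]
  congr 2
  simp only [Matrix.one_apply, sum_ite_eq', mem_univ, ↓reduceIte, mul_one]

theorem root_goodS {d q : ℕ} (hd : 3 ≤ d) (hq : q + 1 ≤ d) {pt : α → α} {X₀ : Finset α}
    (hdiv : d ∣ X₀.card) {l : α} {b₀ : Finset α} {Fb : Multiset (Finset α)}
    (h : FixedBlocksS d pt X₀ l b₀ Fb) {c : ℝ} (hc0 : 0 ≤ c) (hc : 4 * ((d : ℝ) - 1) ≤ c * c)
    (hcol : ∀ v, ∑ i, sumOuter ℝ (b₀ ::ₘ Fb) i v + d * q * (if v ∈ X₀ then 1 else 0) =
      (d : ℝ) * (d - pdeg pt v)) :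
    GoodPoly (d : ℝ) c (restSum d X₀ q (yM pt (sumOuter ℝ (b₀ ::ₘ Fb)))) := by
  obtain ⟨s, hs⟩ := hdiv
  obtain ⟨blk, hb, hbase⟩ := exists_partition_base (by omega : 0 < d) hs
  set F := sumOuter ℝ (b₀ ::ₘ Fb) with hF
  have hgram : Gram F := gram_sumOuter _
  obtain ⟨hrr, -, hlead⟩ := (lnice_rest h.inv d X₀ q).self hgram
  refine ⟨hrr, hlead, restH (hdetv l fun k => Polynomial.X + C ((d : ℝ) - pdeg pt k)) X₀ blk q
    (yM pt F), ?_, ?_⟩
  · rw [restSum_eq_restH (hbase ℝ[X])]
    apply restH_deflatev hb l _ q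
    intro k
    rw [yM_colSum h.inv]
    have h1 := hcol k
    have h2 : C (∑ i, F i k) + (d : ℝ[X]) * q * (if k ∈ X₀ then 1 else 0) =
        C ((d : ℝ) * (d - pdeg pt k)) := by
      rw [← h1]
      split_ifs <;> simp
    have h3 : C (∑ i, F i k) = C ((d : ℝ) * (d - pdeg pt k)) -
        (d : ℝ[X]) * q * (if k ∈ X₀ then 1 else 0) := by
      rw [← h2]; ring
    rw [h3]
    simp only [map_mul, map_natCast, map_sub]
    ring
  · intro x hx
    have hx0 : 0 ≤ x := hc0.trans hx
    have h1 := restH_hdetv_map (Polynomial.evalRingHom x) l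
      (fun k => Polynomial.X + C ((d : ℝ) - pdeg pt k)) X₀ blk q (yM pt F)
    rw [yM_eval, Polynomial.coe_evalRingHom] at h1
    rw [h1]
    have hp : ∀ k, (pdeg pt k : ℝ) ≤ 1 := by
      intro k
      unfold pdeg
      split_ifs <;> simp
    have hd' : (3 : ℝ) ≤ d := by exact_mod_cast hd
    have hv : ∀ k, (Polynomial.X + C ((d : ℝ) - pdeg pt k)).eval x = x + (d - pdeg pt k) := by
      intro k; simp only [map_sub, map_natCast, eval_add, eval_X, eval_sub, eval_natCast]
    have h0 : ∀ k ∈ X₀, pdeg pt k = 0 := by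
      intro k hk
      unfold pdeg
      rw [if_pos (h.fix k hk)]
    apply root_posS hd _ hx0 hq h _ _ _ hb hs
    · calc 4 * ((d : ℝ) - 1) ≤ c * c := hc
        _ ≤ x * x := mul_self_le_mul_self hc0 hx
    · rw [hv]; linarith only [hc0, hx, hd', hp l]
    · intro k hk
      rw [hv, hv, h0 k hk, h0 l (h.sub h.mem)]
    · intro k
      rw [hv]; linarith only [hc0, hx, hd', hp k]

end Vale.Agent.P049
end
end
end

section

section

section

/-! The greedy run with a pairing on the left side. -/

namespace Vale.Agent.P049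

open Finset Equiv Function Matrix Polynomial

variable {m : ℕ}

/-- the bound `2 √(d-1)` -/
noncomputable def rd (d : ℕ) : ℝ := 2 * √((d : ℝ) - 1)

theorem rd_nonneg (d : ℕ) : 0 ≤ rd d := by unfold rd; positivity

theorem rd_sq {d : ℕ} (hd : 3 ≤ d) : rd d * rd d = 4 * ((d : ℝ) - 1) := by
  have hd3 : (3 : ℝ) ≤ d := by exact_mod_cast hd
  unfold rd
  have := Real.mul_self_sqrt (show (0 : ℝ) ≤ (d : ℝ) - 1 by linarith only [hd3])
  linear_combination 4 * this

theorem rd_lt {d : ℕ} (hd : 3 ≤ d) : rd d < d := by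
  have hd3 : (3 : ℝ) ≤ d := by exact_mod_cast hd
  by_contra hcon
  push Not at hcon
  have h1 : (d : ℝ) * d ≤ rd d * rd d := mul_self_le_mul_self (by linarith only []) hcon
  rw [rd_sq hd] at h1
  nlinarith only [h1, hd3]

/-- invariant of a state; `q` = number of full pieces after the current one -/
structure InvS (m d q : ℕ) (pt : Fin m → Fin m) (X₀ : List ℕ) (s : State) : Prop where
  bok : ∀ b ∈ s.1, b.length = d ∧ ListOK m b
  xok : ListOK m s.2.1
  gok : ListOK m s.2.2
  disj : ∀ x ∈ s.2.1, x ∉ s.2.2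
  glt : s.2.2.length < d
  dvd : d ∣ s.2.1.length + s.2.2.length
  col : ColOKS d pt (fs m X₀) q (fs m s.2.1) (fs m s.2.2) (FM ℝ m s.1)
  good : GoodPoly (d : ℝ) (rd d)
    (ordSum d (restSum d (fs m X₀) q) s.2.1.length (fs m s.2.1) (fs m s.2.2) (yM pt (FM ℝ m s.1)))

/-- the value of the child `a` of a state, at `2 √(d-1)` -/
noncomputable def childValS (m d q : ℕ) (pt : Fin m → Fin m) (X₀ : List ℕ) (s : State)
    (a : Fin m) : ℝ :=
  (child d (restSum d (fs m X₀) q) (s.2.1.length - 1) (fs m s.2.1) (fs m s.2.2)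
    (yM pt (FM ℝ m s.1)) a).eval (rd d)

/-- the choice function is admissible -/
def PickOKS (m d q : ℕ) (pt : Fin m → Fin m) (X₀ : List ℕ) (pk : State → ℕ) : Prop :=
  ∀ s, InvS m d q pt X₀ s → s.2.1 ≠ [] →
    (∃ a : Fin m, (a : ℕ) ∈ s.2.1 ∧ childValS m d q pt X₀ s a < 0) →
    ∃ a : Fin m, pk s = a ∧ (a : ℕ) ∈ s.2.1 ∧ childValS m d q pt X₀ s a < 0

theorem InvS.step {d q : ℕ} (hd : 3 ≤ d) {pt : Fin m → Fin m} (hpt : ∀ i, pt (pt i) = i)
    {X₀ : List ℕ} (hX₀ : ListOK m X₀) (hdiv0 : d ∣ X₀.length)
    {pk : State → ℕ} (hpk : PickOKS m d q pt X₀ pk) {s : State} (h : InvS m d q pt X₀ s)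
    (hne : s.2.1 ≠ []) :
    InvS m d q pt X₀ (stepG d pk s) ∧ (stepG d pk s).2.1.length + 1 = s.2.1.length := by
  obtain ⟨blocks, X, γ⟩ := s
  obtain ⟨hbok, hxok, hgok, hdisj, hglt, hdvd, hcol, hgood⟩ := h
  simp only at hbok hxok hgok hdisj hglt hdvd hcol hgood hne
  have hc : rd d < (d : ℝ) := rd_lt hd
  obtain ⟨n, hn⟩ : ∃ n, X.length = n + 1 :=
    ⟨X.length - 1, by have := List.length_pos_of_ne_nil hne; omega⟩
  have hcard : (fs m X).card = n + 1 := by rw [card_fs hxok, hn]
  have hcardγ : (fs m γ).card = γ.length := card_fs hgok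
  rw [hn] at hgood
  have hex := node_exists_childS hc hgood
  have hinv : InvS m d q pt X₀ (blocks, X, γ) :=
    ⟨hbok, hxok, hgok, hdisj, hglt, hdvd, hcol, by rw [hn]; exact hgood⟩
  obtain ⟨a, hpa, haX, hneg⟩ := hpk (blocks, X, γ) hinv hne (by
    obtain ⟨a, ha, hneg⟩ := hex
    refine ⟨a, mem_fs.1 ha, ?_⟩
    unfold childValS
    simp only [hn, Nat.add_sub_cancel]
    exact hneg)
  simp only at haX
  unfold childValS at hneg
  simp only [hn, Nat.add_sub_cancel] at hneg
  have hdisjF : Disjoint (fs m X) (fs m γ) := disjoint_fs hdisj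
  have hstep := node_stepS hpt (by omega) hc (gram_sumOuter _) hcard hdisjF
    (by rw [hcardγ]; exact hglt)
    (by rw [hcardγ, card_fs hxok]; exact hdvd) (by rw [card_fs hX₀]; exact hdiv0) hcol hgood
    (mem_fs.2 haX) hneg
  have haγ : (a : ℕ) ∉ γ := hdisj a haX
  have hlen := length_filter_ne hxok.1 haX
  have hokf : ListOK m (X.filter (· ≠ (a : ℕ))) := hxok.filter _
  have hokγ : ListOK m ((a : ℕ) :: γ) := hgok.cons haγ
  have hlenn : (X.filter (· ≠ (a : ℕ))).length = n := by omega
  unfold stepG
  simp only [hpa]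
  by_cases hcase : γ.length + 1 = d
  · simp only [hcase, if_true]
    rw [child_pos (by rw [hcardγ]; exact hcase)] at hstep
    refine ⟨⟨?_, hokf, ⟨List.nodup_nil, by simp⟩, by simp, by simpa only [List.length_nil] using (by omega : 0 < d), ?_,
      ?_, ?_⟩, by simpa only [ne_eq, decide_not] using hlen⟩
    · intro b hb
      simp only [List.mem_cons] at hb
      rcases hb with rfl | hb
      · exact ⟨by simpa using hcase, hokγ⟩
      · exact hbok b hb
    · simp only [List.length_nil, add_zero]
      have h1 : X.length + γ.length = (X.filter (· ≠ (a : ℕ))).length + d := by omega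
      rw [h1] at hdvd
      exact (Nat.dvd_add_left (dvd_refl d)).1 hdvd
    · intro v
      have h1 := hcol v
      simp only [FM_cons, fs_nil, notMem_empty, or_false, fs_filter, Matrix.add_apply,
        sum_add_distrib]
      have h2 := sum_outer (fs m ((a : ℕ) :: γ)) v
      rw [h2, card_fs hokγ, List.length_cons, hcase, fs_cons]
      have haF : a ∉ fs m γ := fun h => haγ (mem_fs.1 h)
      have hdj : v ∈ fs m X → v ∉ fs m γ := fun hv => disjoint_left.1 hdisjF hv
      by_cases hva : v = a
      · subst hva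
        simp only [mem_insert_self, if_true, mem_erase, ne_eq, not_true_eq_false, false_and,
          if_false, mul_zero, add_zero]
        simp only [mem_fs.2 haX, true_or, if_true, mul_one] at h1
        linarith only [h1]
      · by_cases hv : v ∈ fs m γ
        · have hv' : v ∉ fs m X := fun h => hdj h hv
          simp only [hv, or_true, if_true, mul_one] at h1
          simp only [mem_insert_of_mem hv, if_true, mem_erase, hv', and_false, if_false, mul_zero,
            add_zero]
          linarith only [h1]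
        · simp only [hv, or_false] at h1
          simp only [mem_insert, hva, hv, or_self, if_false, zero_add, mem_erase, ne_eq,
            not_false_eq_true, true_and]
          linarith only [h1]
    · simp only [hlenn, fs_filter, fs_nil, FM_cons]
      rw [fs_cons, add_comm (outer ℝ _), ← yM_sub, outer_map]
      exact hstep
  · simp only [hcase, if_false]
    rw [child_neg (by rw [hcardγ]; exact hcase)] at hstep
    refine ⟨⟨hbok, hokf, hokγ, ?_, ?_, ?_, ?_, ?_⟩, by simpa using hlen⟩
    · intro x hx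
      simp only [List.mem_filter, ne_eq, decide_not, Bool.not_eq_eq_eq_not, Bool.not_true,
        decide_eq_false_iff_not] at hx
      simp only [List.mem_cons, not_or]
      exact ⟨hx.2, hdisj x hx.1⟩
    · simp only [List.length_cons]; omega
    · simp only [List.length_cons]
      have h1 : (X.filter (· ≠ (a : ℕ))).length + (γ.length + 1) = X.length + γ.length := by omega
      rw [h1]; exact hdvd
    · intro v
      have h1 := hcol v
      simp only [fs_filter, fs_cons]
      by_cases hva : v = a
      · subst hva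
        simp only [mem_insert_self, or_true, if_true]
        simp only [mem_fs.2 haX, true_or, if_true] at h1
        exact h1
      · simp only [mem_insert, hva, false_or, mem_erase, ne_eq, not_false_eq_true, true_and]
        exact h1
    · simp only [hlenn, fs_filter, fs_cons]
      exact hstep

/-- The run of one piece. -/
theorem InvS.run {d q : ℕ} (hd : 3 ≤ d) {pt : Fin m → Fin m} (hpt : ∀ i, pt (pt i) = i)
    {X₀ : List ℕ} (hX₀ : ListOK m X₀) (hdiv0 : d ∣ X₀.length)
    {pk : State → ℕ} (hpk : PickOKS m d q pt X₀ pk) : ∀ (n : ℕ) (s : State), InvS m d q pt X₀ s →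
    s.2.1.length = n → InvS m d q pt X₀ ((stepG d pk)^[n] s) ∧ ((stepG d pk)^[n] s).2.1 = [] := by
  intro n
  induction n with
  | zero =>
    intro s h hs
    exact ⟨h, List.length_eq_zero_iff.1 hs⟩
  | succ n ih =>
    intro s h hs
    have hne : s.2.1 ≠ [] := by
      intro h'; rw [h'] at hs; simp at hs
    obtain ⟨h1, h2⟩ := h.step hd hpt hX₀ hdiv0 hpk hne
    rw [iterate_succ_apply]
    exact ih _ h1 (by omega)

/-- invariant between pieces: `q` full pieces are missing -/
structure PInvS (m d q : ℕ) (pt : Fin m → Fin m) (X₀ : List ℕ) (blocks : List (List ℕ)) :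
    Prop where
  bok : ∀ b ∈ blocks, b.length = d ∧ ListOK m b
  col : ∀ v, ∑ i, FM ℝ m blocks i v + d * q * (if v ∈ fs m X₀ then 1 else 0) =
    (d : ℝ) * (d - pdeg pt v)
  good : GoodPoly (d : ℝ) (rd d) (restSum d (fs m X₀) q (yM pt (FM ℝ m blocks)))

theorem PInvS.step {d q : ℕ} (hd : 3 ≤ d) {pt : Fin m → Fin m} (hpt : ∀ i, pt (pt i) = i)
    {X₀ : List ℕ} (hX₀ : ListOK m X₀)
    (hdiv0 : d ∣ X₀.length) {pk : State → ℕ} (hpk : PickOKS m d q pt X₀ pk)
    {blocks : List (List ℕ)} (h : PInvS m d (q + 1) pt X₀ blocks) :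
    PInvS m d q pt X₀ ((stepG d pk)^[X₀.length] (blocks, X₀, [])).1 := by
  have h0 : InvS m d q pt X₀ (blocks, X₀, []) := by
    refine ⟨h.bok, hX₀, ⟨List.nodup_nil, by simp⟩, by simp, by simpa only [List.length_nil] using (by omega : 0 < d),
      by simpa only [List.length_nil, add_zero] using hdiv0, ?_, ?_⟩
    · intro v
      have := h.col v
      simp only [fs_nil, notMem_empty, or_false]
      rw [← this]
      push_cast
      ring
    · have := h.good
      rw [restSum_succ, card_fs hX₀] at this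
      simp only [fs_nil]
      exact this
  obtain ⟨h1, h2⟩ := h0.run hd hpt hX₀ hdiv0 hpk X₀.length _ rfl
  set s := (stepG d pk)^[X₀.length] (blocks, X₀, []) with hs
  have hγ : s.2.2 = [] := by
    have h3 := h1.dvd
    rw [h2, List.length_nil, zero_add] at h3
    exact List.length_eq_zero_iff.1 (Nat.eq_zero_of_dvd_of_lt h3 h1.glt)
  refine ⟨h1.bok, ?_, ?_⟩
  · intro v
    have := h1.col v
    rw [h2, hγ, fs_nil] at this
    simpa only [mul_ite, mul_one, mul_zero, notMem_empty, or_self, ↓reduceIte, add_zero] using this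
  · have := h1.good
    rw [h2, hγ, fs_nil] at this
    exact this

end Vale.Agent.P049
end
end
end

section

section

section

/-! The final blocks give a bipartite Ramanujan graph. -/

namespace Vale.Agent.P049

open Finset Matrix Polynomial

variable {m : ℕ}

theorem FM_colSum {d : ℕ} {blocks : List (List ℕ)} (h : ∀ b ∈ blocks, b.length = d ∧ ListOK m b)
    (v : Fin m) : ∑ i, FM ℝ m blocks i v =
      d * ((blocks.filter fun b => (v : ℕ) ∈ b).length : ℝ) := by
  induction blocks with
  | nil => simp only [FM_nil, Matrix.zero_apply, sum_const_zero, List.filter_nil, List.length_nil, CharP.cast_eq_zero, mul_zero]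
  | cons b blocks ih =>
    have hb := h b (List.mem_cons_self)
    have ih' := ih (fun b' hb' => h b' (List.mem_cons_of_mem _ hb'))
    simp only [FM_cons, Matrix.add_apply, sum_add_distrib]
    rw [sum_outer, ih', card_fs hb.2, hb.1]
    by_cases hv : (v : ℕ) ∈ b
    · rw [List.filter_cons_of_pos (by simpa using hv), if_pos (mem_fs.2 hv), List.length_cons]
      push_cast; ring
    · rw [List.filter_cons_of_neg (by simpa using hv), if_neg (fun h => hv (mem_fs.1 h))]
      simp

theorem FM_total {d : ℕ} {blocks : List (List ℕ)} (h : ∀ b ∈ blocks, b.length = d ∧ ListOK m b) :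
    ∑ v, ∑ i, FM ℝ m blocks i v = (d : ℝ) ^ 2 * blocks.length := by
  induction blocks with
  | nil => simp only [FM_nil, Matrix.zero_apply, sum_const_zero, List.length_nil, CharP.cast_eq_zero, mul_zero]
  | cons b blocks ih =>
    have hb := h b (List.mem_cons_self)
    have ih' := ih (fun b' hb' => h b' (List.mem_cons_of_mem _ hb'))
    simp only [FM_cons, Matrix.add_apply, sum_add_distrib]
    rw [ih']
    simp only [sum_outer, card_fs hb.2, hb.1]
    rw [← sum_filter, sum_const, filter_mem_eq_inter, univ_inter, card_fs hb.2, hb.1,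
      List.length_cons, nsmul_eq_mul]
    push_cast; ring

theorem FM_eq_sum (blocks : List (List ℕ)) :
    FM ℝ m blocks = ∑ j : Fin blocks.length, outer ℝ (fs m blocks[j]) := by
  unfold FM sumOuter
  rw [Multiset.map_coe, Multiset.sum_coe, List.map_map]
  conv_lhs => rw [← List.ofFn_get blocks]
  rw [List.map_ofFn, List.sum_ofFn]
  rfl

theorem card_filter_fin {β : Type*} (l : List β) (p : β → Prop) [DecidablePred p] :
    (univ.filter fun j : Fin l.length => p l[j]).card = (l.filter fun b => decide (p b)).length := by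
  rw [card_filter]
  have h1 : (∑ j : Fin l.length, if p l[j] then 1 else 0) =
      (l.map fun b => if p b then 1 else 0).sum := by
    conv_rhs => rw [← List.ofFn_get l]
    rw [List.map_ofFn, List.sum_ofFn]
    rfl
  rw [h1]
  clear h1
  induction l with
  | nil => rfl
  | cons b l ih =>
    rw [List.map_cons, List.sum_cons, ih]
    by_cases hb : p b
    · rw [List.filter_cons_of_pos (by simpa using hb), if_pos hb, List.length_cons, add_comm]
    · rw [List.filter_cons_of_neg (by simpa using hb), if_neg hb, zero_add]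

/-- Final blocks: `m` blocks of size `d`, every vertex in `d` blocks, and a Ramanujan spectrum. -/
theorem final_blocks {d : ℕ} (hd : 3 ≤ d) {X₀ : List ℕ} {blocks : List (List ℕ)}
    (h : PInv m d 0 X₀ blocks) : ∃ hm : blocks.length = m,
      IsBipartiteRamanujan d (bipG fun j : Fin m => fs m (blocks[(j : ℕ)]'(by rw [hm]; exact j.2))) := by
  have hd0 : (d : ℝ) ≠ 0 := by
    have : (0 : ℝ) < d := by exact_mod_cast (by omega : 0 < d)
    exact this.ne'
  have hcol : ∀ v, ∑ i, FM ℝ m blocks i v = (d : ℝ) ^ 2 := fun v => by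
    have := h.col v
    simpa only [CharP.cast_eq_zero, mul_zero, mul_ite, mul_one, ite_self, add_zero] using this
  have hm : blocks.length = m := by
    have h1 := FM_total h.bok
    simp only [hcol] at h1
    rw [sum_const, card_univ, Fintype.card_fin, nsmul_eq_mul] at h1
    have h2 : (d : ℝ) ^ 2 ≠ 0 := pow_ne_zero _ hd0
    have h3 : (d : ℝ) ^ 2 * m = (d : ℝ) ^ 2 * blocks.length := by linarith only [h1]
    exact_mod_cast (mul_left_cancel₀ h2 h3).symm
  refine ⟨hm, ?_⟩
  obtain ⟨H, hH, hpos⟩ := h.good.fac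
  apply bipG_ramanujan hd _ _ _ H _ hpos
  · intro j
    have := h.bok (blocks[(j : ℕ)]'(by rw [hm]; exact j.2)) (List.getElem_mem _)
    rw [card_fs this.2, this.1]
  · intro i
    have h1 := FM_colSum h.bok i
    rw [hcol i] at h1
    have h2 : ((blocks.filter fun b => (i : ℕ) ∈ b).length : ℝ) = d := by
      have h3 : (d : ℝ) * d = d * ((blocks.filter fun b => (i : ℕ) ∈ b).length : ℝ) := by
        rw [← h1]; ring
      exact (mul_left_cancel₀ hd0 h3).symm
    have h3 : (blocks.filter fun b => (i : ℕ) ∈ b).length = d := by exact_mod_cast h2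
    rw [← h3]
    clear h3 h2 h1
    subst hm
    rw [← card_filter_fin blocks (fun b => (i : ℕ) ∈ b)]
    congr 1
    ext j
    rw [mem_filter, mem_filter, mem_fs]
    rfl
  · have h1 : (∑ j : Fin m, outer ℝ (fs m (blocks[(j : ℕ)]'(by rw [hm]; exact j.2)))) =
        FM ℝ m blocks := by
      subst hm
      exact (FM_eq_sum blocks).symm
    rw [h1, ← det_xMat]
    exact hH

end Vale.Agent.P049
end
end
end

section

section

section

/-! The initial blocks satisfy the invariant. -/

namespace Vale.Agent.P049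

open Finset

theorem filter_range_length (m : ℕ) (p : ℕ → Prop) [DecidablePred p] :
    ((List.range m).filter fun x => decide (p x)).length = ((Finset.range m).filter p).card := by
  rw [← List.toFinset_card_of_nodup (List.nodup_range.filter _)]
  congr 1
  ext x
  simp

theorem filter_Ico_length {m a b : ℕ} (h : b ≤ m) :
    ((List.range m).filter fun x => decide (a ≤ x ∧ x < b)).length = b - a := by
  rw [filter_range_length, ← Nat.card_Ico]
  congr 1
  ext x
  simp only [mem_filter, Finset.mem_range, mem_Ico]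
  omega

theorem filter_lt_range {m n : ℕ} (h : n ≤ m) :
    ((List.range m).filter fun x => decide (x < n)) = List.range n := by
  obtain ⟨k, rfl⟩ := Nat.exists_eq_add_of_le h
  rw [List.range_add, List.filter_append, List.filter_eq_self.2, List.filter_eq_nil_iff.2,
    List.append_nil]
  · intro x hx
    simp only [List.mem_map, List.mem_range] at hx
    obtain ⟨y, _, rfl⟩ := hx
    simp
  · intro x hx
    simpa using hx

variable {d r s m : ℕ}

/-- a star block -/
def starBlk (d m r t : ℕ) : List ℕ :=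
  (d * r + t / d) :: (List.range m).filter fun x => t * (d - 1) ≤ x ∧ x < (t + 1) * (d - 1)

/-- a plain block -/
def plainBlk (d m s t : ℕ) : List ℕ :=
  (List.range m).filter fun x => d * s * (d - 1) + t * d ≤ x ∧ x < d * s * (d - 1) + (t + 1) * d

theorem starB_eq (h : d * s ≤ m) :
    starB d (List.range m) r s = (List.range (d * s)).map (starBlk d m r) := by
  unfold starB
  rw [filter_lt_range h]
  rfl

theorem plainB_eq (h : r - (d - 1) * s ≤ m) :
    plainB d (List.range m) r s = (List.range (r - (d - 1) * s)).map (plainBlk d m s) := by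
  unfold plainB
  rw [filter_lt_range h]
  rfl

/-- numerical facts -/
structure Num (d r s m : ℕ) : Prop where
  hd : 3 ≤ d
  hm : m = d * r + s
  hs : s < d
  hr : (d - 1) * s < r
  hr' : d ≤ r

namespace Num

theorem base_le (h : Num d r s m) : d * s * (d - 1) ≤ d * r := by
  rw [mul_assoc]
  exact Nat.mul_le_mul_left _ (by rw [mul_comm]; exact h.hr.le)

theorem plain_le (h : Num d r s m) {t : ℕ} (ht : t < r - (d - 1) * s) :
    d * s * (d - 1) + (t + 1) * d ≤ d * r := by
  have h1 : t + 1 + s * (d - 1) ≤ r := by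
    have := h.hr; rw [mul_comm s]; omega
  calc d * s * (d - 1) + (t + 1) * d = d * (t + 1 + s * (d - 1)) := by ring
    _ ≤ d * r := Nat.mul_le_mul_left _ h1

theorem star_le (h : Num d r s m) {t : ℕ} (ht : t < d * s) :
    (t + 1) * (d - 1) ≤ d * s * (d - 1) := Nat.mul_le_mul_right _ ht

theorem le_m (h : Num d r s m) : d * r ≤ m := by rw [h.hm]; omega

theorem ds_le (h : Num d r s m) : d * s ≤ m :=
  (Nat.mul_le_mul_left d (h.hs.le.trans h.hr')).trans h.le_m

theorem rs_le (h : Num d r s m) : r - (d - 1) * s ≤ m := by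
  have h1 : r ≤ d * r := Nat.le_mul_of_pos_left r (by have := h.hd; omega)
  have := h.le_m
  omega

theorem tdiv (h : Num d r s m) {t : ℕ} (ht : t < d * s) : t / d < s := by
  rw [Nat.div_lt_iff_lt_mul (by have := h.hd; omega), mul_comm]; exact ht

end Num

theorem starBlk_ok (h : Num d r s m) {t : ℕ} (ht : t < d * s) :
    (starBlk d m r t).length = d ∧ ListOK m (starBlk d m r t) := by
  have h1 := (h.star_le ht).trans h.base_le
  have h2 := h.tdiv ht
  have h3 := h.le_m
  have hd := h.hd
  unfold starBlk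
  refine ⟨?_, ?_, ?_⟩
  · rw [List.length_cons, filter_Ico_length (h1.trans h3)]
    have : (t + 1) * (d - 1) - t * (d - 1) = d - 1 := by
      rw [add_mul, one_mul]; omega
    omega
  · rw [List.nodup_cons]
    refine ⟨?_, List.nodup_range.filter _⟩
    simp only [List.mem_filter, List.mem_range, decide_eq_true_eq]
    rintro ⟨_, _, h4⟩
    have := Nat.le_add_right (d * r) (t / d)
    omega
  · intro x hx
    simp only [List.mem_cons, List.mem_filter, List.mem_range, decide_eq_true_eq] at hx
    rcases hx with rfl | hx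
    · rw [h.hm]; omega
    · exact hx.1

theorem plainBlk_ok (h : Num d r s m) {t : ℕ} (ht : t < r - (d - 1) * s) :
    (plainBlk d m s t).length = d ∧ ListOK m (plainBlk d m s t) := by
  have h1 := h.plain_le ht
  have h3 := h.le_m
  unfold plainBlk
  refine ⟨?_, List.nodup_range.filter _, ?_⟩
  · rw [filter_Ico_length (h1.trans h3), add_mul, one_mul]
    omega
  · intro x hx
    simp only [List.mem_filter, List.mem_range, decide_eq_true_eq] at hx
    exact hx.1

/-- the initial blocks -/
def initB (d r s m : ℕ) : List (List ℕ) :=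
  (List.range (r - (d - 1) * s)).map (plainBlk d m s) ++
    (List.range (d * s)).map (starBlk d m r)

theorem initB_ok (h : Num d r s m) : ∀ b ∈ initB d r s m, b.length = d ∧ ListOK m b := by
  intro b hb
  unfold initB at hb
  rw [List.mem_append, List.mem_map, List.mem_map] at hb
  rcases hb with ⟨t, ht, rfl⟩ | ⟨t, ht, rfl⟩
  · exact plainBlk_ok h (List.mem_range.1 ht)
  · exact starBlk_ok h (List.mem_range.1 ht)

theorem mem_starBlk {v t : ℕ} (hv : v < m) :
    v ∈ starBlk d m r t ↔ v = d * r + t / d ∨ (t * (d - 1) ≤ v ∧ v < (t + 1) * (d - 1)) := by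
  unfold starBlk
  simp only [List.mem_cons, List.mem_filter, List.mem_range, decide_eq_true_eq, hv, true_and]

theorem mem_plainBlk {v t : ℕ} (hv : v < m) :
    v ∈ plainBlk d m s t ↔
      d * s * (d - 1) + t * d ≤ v ∧ v < d * s * (d - 1) + (t + 1) * d := by
  unfold plainBlk
  simp only [List.mem_filter, List.mem_range, decide_eq_true_eq, hv, true_and]

theorem count_map (n : ℕ) (f : ℕ → List ℕ) (v : ℕ) :
    (((List.range n).map f).filter fun b => decide (v ∈ b)).length =
      ((Finset.range n).filter fun t => v ∈ f t).card := by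
  rw [List.filter_map, List.length_map, ← filter_range_length]
  rfl

theorem count_initB (h : Num d r s m) {v : ℕ} (hv : v < m) :
    ((initB d r s m).filter fun b => decide (v ∈ b)).length = if v < d * r then 1 else d := by
  have hd := h.hd
  have hbase := h.base_le
  unfold initB
  rw [List.filter_append, List.length_append, count_map, count_map]
  simp only [mem_starBlk hv, mem_plainBlk hv]
  split_ifs with hvr
  · by_cases hvb : v < d * s * (d - 1)
    · have e1 : (Finset.range (r - (d - 1) * s)).filter (fun t =>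
          d * s * (d - 1) + t * d ≤ v ∧ v < d * s * (d - 1) + (t + 1) * d) = ∅ := by
        apply filter_eq_empty_iff.2
        intro t _ ht
        have := ht.1
        have h5 : 0 ≤ t * d := Nat.zero_le _
        omega
      have e2 : (Finset.range (d * s)).filter (fun t =>
          v = d * r + t / d ∨ (t * (d - 1) ≤ v ∧ v < (t + 1) * (d - 1))) = {v / (d - 1)} := by
        ext t
        simp only [mem_filter, Finset.mem_range, mem_singleton]
        constructor
        · rintro ⟨_, h1 | ⟨h1, h2⟩⟩
          · have := Nat.le_add_right (d * r) (t / d)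
            omega
          · exact (Nat.div_eq_of_lt_le h1 h2).symm
        · rintro rfl
          have h1 := Nat.div_mul_le_self v (d - 1)
          refine ⟨?_, Or.inr ⟨h1, ?_⟩⟩
          · rw [Nat.div_lt_iff_lt_mul (by omega)]; exact hvb
          · exact Nat.lt_mul_of_div_lt (Nat.lt_succ_self _) (by omega)
      rw [e1, e2]
      simp only [card_empty, card_singleton, zero_add]
    · push Not at hvb
      have e1 : (Finset.range (r - (d - 1) * s)).filter (fun t =>
          d * s * (d - 1) + t * d ≤ v ∧ v < d * s * (d - 1) + (t + 1) * d) =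
          {(v - d * s * (d - 1)) / d} := by
        ext t
        simp only [mem_filter, Finset.mem_range, mem_singleton]
        constructor
        · rintro ⟨_, h1, h2⟩
          exact (Nat.div_eq_of_lt_le (by omega) (by omega)).symm
        · rintro rfl
          have h1 := Nat.div_mul_le_self (v - d * s * (d - 1)) d
          have h2 : v - d * s * (d - 1) < ((v - d * s * (d - 1)) / d + 1) * d :=
            Nat.lt_mul_of_div_lt (Nat.lt_succ_self _) (by omega)
          refine ⟨?_, by omega, by omega⟩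
          rw [Nat.div_lt_iff_lt_mul (by omega)]
          have h3 : (r - (d - 1) * s) * d + d * s * (d - 1) = d * r := by
            rw [Nat.sub_mul]
            have h4 : (d - 1) * s * d ≤ r * d := Nat.mul_le_mul_right _ h.hr.le
            have h5 : (d - 1) * s * d = d * s * (d - 1) := by ring
            have h6 : r * d = d * r := mul_comm _ _
            omega
          omega
      have e2 : (Finset.range (d * s)).filter (fun t =>
          v = d * r + t / d ∨ (t * (d - 1) ≤ v ∧ v < (t + 1) * (d - 1))) = ∅ := by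
        apply filter_eq_empty_iff.2
        rintro t ht (h1 | ⟨h1, h2⟩)
        · have := Nat.le_add_right (d * r) (t / d)
          omega
        · have := h.star_le (Finset.mem_range.1 ht)
          omega
      rw [e1, e2]
      simp only [card_singleton, card_empty, add_zero]
  · push Not at hvr
    have e1 : (Finset.range (r - (d - 1) * s)).filter (fun t =>
        d * s * (d - 1) + t * d ≤ v ∧ v < d * s * (d - 1) + (t + 1) * d) = ∅ := by
      apply filter_eq_empty_iff.2
      rintro t ht ⟨h1, h2⟩
      have := h.plain_le (Finset.mem_range.1 ht)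
      omega
    have e2 : (Finset.range (d * s)).filter (fun t =>
        v = d * r + t / d ∨ (t * (d - 1) ≤ v ∧ v < (t + 1) * (d - 1))) =
        Ico (d * (v - d * r)) (d * (v - d * r) + d) := by
      ext t
      simp only [mem_filter, Finset.mem_range, mem_Ico]
      constructor
      · rintro ⟨h0, h1 | ⟨h1, h2⟩⟩
        · have h3 : t / d = v - d * r := by omega
          rw [← h3]
          have h4 := Nat.div_add_mod t d
          have h5 := Nat.mod_lt t (by omega : 0 < d)
          omega
        · have := h.star_le h0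
          omega
      · rintro ⟨h1, h2⟩
        have h3 : t / d = v - d * r := by
          apply Nat.div_eq_of_lt_le
          · rw [mul_comm]; exact h1
          · rw [add_mul, one_mul, mul_comm]; exact h2
        refine ⟨?_, Or.inl (by omega)⟩
        have h4 : v - d * r + 1 ≤ s := by have := h.hm; omega
        have h5 := Nat.mul_le_mul_left d h4
        rw [mul_add, mul_one] at h5
        omega
    rw [e1, e2, Nat.card_Ico]
    simp only [card_empty, add_tsub_cancel_left, zero_add]

theorem filter_coe_map (v : Fin m) (blocks : List (List ℕ)) :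
    ((((blocks.map (fs m) : List (Finset (Fin m))) : Multiset (Finset (Fin m)))).filter
      (v ∈ ·)).card = (blocks.filter fun b => decide ((v : ℕ) ∈ b)).length := by
  rw [Multiset.filter_coe, Multiset.coe_card, List.filter_map, List.length_map]
  congr 2
  funext b
  simp [mem_fs]

theorem initB_cons (h : Num d r s m) :
    ∃ rest, initB d r s m = plainBlk d m s 0 :: rest := by
  have := h.hr
  obtain ⟨k, hk⟩ : ∃ k, r - (d - 1) * s = k + 1 := ⟨r - (d - 1) * s - 1, by omega⟩
  unfold initB
  rw [hk, List.range_succ_eq_map, List.map_cons]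
  exact ⟨_, rfl⟩

theorem out_le (h : Num d r s m) {b : List ℕ} (hb : b ∈ initB d r s m) :
    (fs m b \ fs m (List.range (d * r))).card ≤ 1 := by
  unfold initB at hb
  rw [List.mem_append, List.mem_map, List.mem_map] at hb
  rw [Finset.card_le_one]
  rcases hb with ⟨t, ht, rfl⟩ | ⟨t, ht, rfl⟩
  · intro x hx
    rw [mem_sdiff, mem_fs, mem_fs, List.mem_range, mem_plainBlk x.2] at hx
    have := h.plain_le (List.mem_range.1 ht)
    exact absurd (lt_of_lt_of_le hx.1.2 this) hx.2
  · have key : ∀ x ∈ fs m (starBlk d m r t) \ fs m (List.range (d * r)),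
        (x : ℕ) = d * r + t / d := by
      intro x hx
      rw [mem_sdiff, mem_fs, mem_fs, List.mem_range, mem_starBlk x.2] at hx
      rcases hx.1 with h1 | h1
      · exact h1
      · have h2 := h.star_le (List.mem_range.1 ht)
        have h3 := h.base_le
        exact absurd (lt_of_lt_of_le h1.2 (h2.trans h3)) hx.2
    intro x hx y hy
    exact Fin.ext ((key x hx).trans (key y hy).symm)

/-- The initial blocks satisfy the invariant with `d - 1` random pieces to come. -/
theorem init_inv (h : Num d r s m) :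
    PInv m d (d - 1) (List.range (d * r)) (initB d r s m) := by
  have hd := h.hd
  have hok := initB_ok h
  have hX₀ : ListOK m (List.range (d * r)) :=
    ⟨List.nodup_range, fun x hx => (List.mem_range.1 hx).trans_le h.le_m⟩
  have hd1 : ((d - 1 : ℕ) : ℝ) = (d : ℝ) - 1 := by
    rw [Nat.cast_sub (by omega)]; simp
  have hcol : ∀ v, ∑ i, FM ℝ m (initB d r s m) i v +
      d * (d - 1 : ℕ) * (if v ∈ fs m (List.range (d * r)) then 1 else 0) = (d : ℝ) ^ 2 := by
    intro v
    rw [FM_colSum hok v, count_initB h v.2]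
    simp only [mem_fs, List.mem_range, hd1]
    split_ifs
    · push_cast; ring
    · push_cast; ring
  obtain ⟨rest, hrest⟩ := initB_cons h
  have hplain0 : (0 : ℕ) < r - (d - 1) * s := by have := h.hr; omega
  have hFM : FM ℝ m (initB d r s m) =
      sumOuter ℝ (fs m (plainBlk d m s 0) ::ₘ
        ((rest.map (fs m) : List (Finset (Fin m))) : Multiset (Finset (Fin m)))) := by
    unfold FM
    rw [hrest, List.map_cons, ← Multiset.cons_coe]
  have hmult : (fs m (plainBlk d m s 0) ::ₘ
      ((rest.map (fs m) : List (Finset (Fin m))) : Multiset (Finset (Fin m)))) =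
      (((initB d r s m).map (fs m) : List (Finset (Fin m))) : Multiset (Finset (Fin m))) := by
    rw [hrest, List.map_cons, ← Multiset.cons_coe]
  have hbase : d * s * (d - 1) < m := by
    have h1 := h.plain_le hplain0
    have h2 := h.le_m
    have : 0 < (0 + 1) * d := by omega
    omega
  refine ⟨hok, hcol, ?_⟩
  rw [hFM]
  apply root_good hd (by omega) (by rw [card_fs hX₀]; simp) (l := ⟨d * s * (d - 1), hbase⟩)
  · refine ⟨?_, ?_, ?_, ?_, ?_, ?_⟩
    · intro b hb
      rw [Multiset.mem_coe, List.mem_map] at hb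
      obtain ⟨b, hb, rfl⟩ := hb
      have := hok b (by rw [hrest]; exact List.mem_cons_of_mem _ hb)
      rw [card_fs this.2, this.1]
    · intro b hb
      rw [Multiset.mem_coe, List.mem_map] at hb
      obtain ⟨b, hb, rfl⟩ := hb
      exact out_le h (by rw [hrest]; exact List.mem_cons_of_mem _ hb)
    · intro v hv
      rw [mem_fs, List.mem_range] at hv
      rw [hmult, filter_coe_map, count_initB h v.2, if_pos hv]
    · intro u hu
      rw [mem_fs, List.mem_range] at hu
      refine (Multiset.card_le_card (Multiset.filter_le_filter _ (Multiset.le_cons_self _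
        (fs m (plainBlk d m s 0))))).trans ?_
      rw [hmult, filter_coe_map, count_initB h u.2, if_neg hu]
    · rw [mem_fs, mem_plainBlk hbase]
      constructor
      · simp
      · have : 0 < (0 + 1) * d := by omega
        omega
    · intro v hv
      rw [mem_fs, mem_plainBlk v.2] at hv
      rw [mem_fs, List.mem_range]
      exact lt_of_lt_of_le hv.2 (h.plain_le hplain0)
  · rw [← hFM]; exact hcol

end Vale.Agent.P049
end
end
end

section

section

section

/-! Existence of simple bipartite Ramanujan graphs on every large even order. -/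

namespace Vale.Agent.P049

open Finset Function

/-- The generic run: pieces `q-1, …, 0`. -/
def runG (d : ℕ) (X₀ : List ℕ) (pk : ℕ → State → ℕ) : ℕ → List (List ℕ) → List (List ℕ)
  | 0, blocks => blocks
  | q + 1, blocks => runG d X₀ pk q ((stepG d (pk q))^[X₀.length] (blocks, X₀, [])).1

theorem runG_inv {m d : ℕ} (hd : 3 ≤ d) {X₀ : List ℕ} (hX₀ : ListOK m X₀)
    (hdiv0 : d ∣ X₀.length) {pk : ℕ → State → ℕ} (hpk : ∀ q, PickOK m d q X₀ (pk q)) :
    ∀ (q : ℕ) (blocks : List (List ℕ)), PInv m d q X₀ blocks →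
      PInv m d 0 X₀ (runG d X₀ pk q blocks) := by
  intro q
  induction q with
  | zero => exact fun _ h => h
  | succ q ih => exact fun blocks h => ih _ (h.step hd hX₀ hdiv0 (hpk q))

theorem num_of_large {d m : ℕ} (hd : 3 ≤ d) (hm : d * d ^ 2 ≤ m) :
    Num d (m / d) (m % d) m := by
  have hd0 : 0 < d := by omega
  have h1 : m % d < d := Nat.mod_lt _ hd0
  have h2 : d ^ 2 ≤ m / d := by
    rw [Nat.le_div_iff_mul_le hd0, mul_comm]; exact hm
  refine ⟨hd, (Nat.div_add_mod m d).symm, h1, ?_, ?_⟩
  · obtain ⟨e, rfl⟩ := Nat.exists_eq_add_of_le' (show 1 ≤ d by omega)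
    have h3 : m % (e + 1) ≤ e := by omega
    have h4 : (e + 1 - 1) * (m % (e + 1)) ≤ e * e := by
      rw [Nat.add_sub_cancel]; exact Nat.mul_le_mul_left _ h3
    have h5 : e * e < (e + 1) ^ 2 := by nlinarith only []
    omega
  · have : d ≤ d ^ 2 := by nlinarith only []
    omega

end Vale.Agent.P049
end
end
end

section

section

section

/-! The algorithm finds the blocks. -/

namespace Vale.Agent.P049

open Finset Function Matrix Polynomial

variable {m d q : ℕ}

theorem entryMat_cast (c : ℤ) (blocks : List (List ℕ)) :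
    (entryMat m c blocks []).map (Int.castRingHom ℝ) =
      (c : ℝ) • (1 : Matrix (Fin m) (Fin m) ℝ) - FM ℝ m blocks := by
  induction blocks with
  | nil =>
    rw [FM_nil, sub_zero]
    ext i k
    simp only [entryMat, entry, Matrix.map_apply, Matrix.of_apply, List.map_nil, List.sum_nil,
      sub_zero, add_zero, Matrix.smul_apply, Matrix.one_apply, smul_eq_mul, Fin.ext_iff]
    split_ifs <;> simp
  | cons b blocks ih =>
    rw [entryMat_cons_block, FM_cons, sub_add_eq_sub_sub_swap, ← ih,
      ← outer_map (Int.castRingHom ℝ)]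
    ext i k
    simp

/-- evaluation of a node at `c` -/
theorem node_eval (X₀ X γ : Finset (Fin m)) (n : ℕ) (c : ℤ) (blocks : List (List ℕ)) :
    (ordSum d (restSum d X₀ q) n X γ (xM (FM ℝ m blocks))).eval (c : ℝ) =
      ((ordSum d (restSum d X₀ q) n X γ (entryMat m c blocks []) : ℤ) : ℝ) := by
  have h1 := ordSum_map (Polynomial.evalRingHom (c : ℝ)) d (restSum d X₀ q) (restSum d X₀ q)
    (restSum_map (Polynomial.evalRingHom (c : ℝ)) d X₀ q) n X γ (xM (FM ℝ m blocks))
  have h2 := ordSum_map (Int.castRingHom ℝ) d (restSum d X₀ q) (restSum d X₀ q)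
    (restSum_map (Int.castRingHom ℝ) d X₀ q) n X γ (entryMat m c blocks [])
  rw [xM_eval, ← entryMat_cast, ← h2] at h1
  exact h1

/-- the choice function of the algorithm -/
def algPick (d : ℕ) (m : ℕ) (X₀ : List ℕ) (q : ℕ) (s : State) : ℕ :=
  pick d (4 * ((d : ℤ) - 1)) (List.range m) X₀ q s.2.1 s.2.2 s.1

theorem childVal_eq (hd : 2 ≤ d) {X₀ : List ℕ} (hX₀ : ListOK m X₀) (hdiv : d ∣ X₀.length)
    {blocks : List (List ℕ)} {X γ : List ℕ} (hX : ListOK m X) (hγ : ListOK m γ)
    (hdisj : ∀ x ∈ X, x ∉ γ) (hlt : γ.length < d) (hdvd : d ∣ X.length + γ.length) {a : Fin m}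
    (ha : (a : ℕ) ∈ X) :
    childVal m d q X₀ (blocks, X, γ) a =
      ((valF d (4 * ((d : ℤ) - 1)) (List.range m) X₀ q (d + 1) (X.filter (· ≠ (a : ℕ)))
        ((a : ℕ) :: γ) blocks : ℤ) : ℝ) := by
  have hlen := length_filter_ne hX.1 ha
  have haγ : (a : ℕ) ∉ γ := hdisj a ha
  have hokγ : ListOK m ((a : ℕ) :: γ) := hγ.cons haγ
  have hn : (X.filter (· ≠ (a : ℕ))).length = X.length - 1 := by omega
  have hc : (4 * ((d : ℝ) - 1)) = (((4 * ((d : ℤ) - 1) : ℤ)) : ℝ) := by push_cast; ring
  rw [valF_eq hd _ hX₀ hdiv (hX.filter _) hokγ ?_ ?_ ?_ ?_ (by simp)]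
  · unfold childVal
    simp only
    by_cases hcase : γ.length + 1 = d
    · rw [child_pos (by rw [card_fs hγ]; exact hcase), if_pos (by simpa using hcase), hc,
        ← node_eval, hn, fs_filter, FM_cons, fs_cons]
      congr 2
      unfold xM
      rw [add_comm (outer ℝ _), ← xMat_sub, outer_map]
    · rw [child_neg (by rw [card_fs hγ]; exact hcase), if_neg (by simpa using hcase), hc,
        ← node_eval, hn, fs_filter, fs_cons]
  · intro x hx
    simp only [List.mem_filter, ne_eq, decide_not, Bool.not_eq_eq_eq_not, Bool.not_true,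
      decide_eq_false_iff_not] at hx
    simp only [List.mem_cons, not_or]
    exact ⟨hx.2, hdisj x hx.1⟩
  · simp only [List.length_cons]; omega
  · simp only [List.length_cons]
    have h1 : (X.filter (· ≠ (a : ℕ))).length + (γ.length + 1) = X.length + γ.length := by omega
    rw [h1]; exact hdvd
  · simp only [List.length_cons]; omega

theorem algPick_ok (hd : 2 ≤ d) {X₀ : List ℕ} (hX₀ : ListOK m X₀) (hdiv : d ∣ X₀.length) (q : ℕ) :
    PickOK m d q X₀ (algPick d m X₀ q) := by
  rintro ⟨blocks, X, γ⟩ h _ ⟨a, ha, hneg⟩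
  have hval : ∀ a : Fin m, (a : ℕ) ∈ X → (childVal m d q X₀ (blocks, X, γ) a < 0 ↔
      valF d (4 * ((d : ℤ) - 1)) (List.range m) X₀ q (d + 1) (X.filter (· ≠ (a : ℕ)))
        ((a : ℕ) :: γ) blocks < 0) := by
    intro a ha
    rw [childVal_eq hd hX₀ hdiv h.xok h.gok h.disj h.glt h.dvd ha]
    exact Int.cast_lt_zero
  set L := X.filter fun a => valF d (4 * ((d : ℤ) - 1)) (List.range m) X₀ q (d + 1)
    (X.filter (· ≠ a)) (a :: γ) blocks < 0 with hL
  have hmem : (a : ℕ) ∈ L := by
    rw [hL, List.mem_filter]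
    exact ⟨ha, by simpa only [ne_eq, decide_not, decide_eq_true_eq] using (hval a ha).1 hneg⟩
  have hpick : algPick d m X₀ q (blocks, X, γ) = L.headD 0 := rfl
  have hLne : L ≠ [] := List.ne_nil_of_mem hmem
  obtain ⟨b, L', hbL⟩ := List.exists_cons_of_ne_nil hLne
  have hb : b ∈ L := by rw [hbL]; exact List.mem_cons_self
  have hb' := hb
  rw [hL, List.mem_filter] at hb'
  have hbm : b < m := h.xok.2 b hb'.1
  refine ⟨⟨b, hbm⟩, ?_, hb'.1, ?_⟩
  · rw [hpick, hbL]; rfl
  · rw [hval ⟨b, hbm⟩ hb'.1]
    simpa only [ne_eq, decide_not, decide_eq_true_eq] using hb'.2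

theorem step_eq (X₀ : List ℕ) (s : State) :
    step d (4 * ((d : ℤ) - 1)) (List.range m) X₀ q s = stepG d (algPick d m X₀ q) s := rfl

theorem run_eq (X₀ : List ℕ) : ∀ (q : ℕ) (blocks : List (List ℕ)),
    run d (4 * ((d : ℤ) - 1)) (List.range m) X₀ q blocks =
      runG d X₀ (algPick d m X₀) q blocks := by
  intro q
  induction q with
  | zero => intro _; rfl
  | succ q ih =>
    intro blocks
    rw [run, runG, ih]
    congr 1
    unfold runPiece
    have h1 : (fun (s : State) (_ : ℕ) => step d (4 * ((d : ℤ) - 1)) (List.range m) X₀ q s) =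
        fun s _ => stepG d (algPick d m X₀ q) s := by
      funext s _
      exact step_eq X₀ s
    rw [h1, List.foldl_const]

theorem blocksOf_eq (h : Num d (m / d) (m % d) m) :
    blocksOf d (List.range m) = runG d (List.range (d * (m / d)))
      (algPick d m (List.range (d * (m / d)))) (d - 1) (initB d (m / d) (m % d) m) := by
  unfold blocksOf
  rw [List.length_range, filter_lt_range h.le_m, run_eq, starB_eq h.ds_le, plainB_eq h.rs_le]
  rfl

/-- The blocks computed by the algorithm are good. -/
theorem blocksOf_inv (hd : 3 ≤ d) (hm : d * d ^ 2 ≤ m) :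
    PInv m d 0 (List.range (d * (m / d))) (blocksOf d (List.range m)) := by
  have h := num_of_large hd hm
  have hX₀ : ListOK m (List.range (d * (m / d))) :=
    ⟨List.nodup_range, fun x hx => (List.mem_range.1 hx).trans_le h.le_m⟩
  rw [blocksOf_eq h]
  exact runG_inv hd hX₀ (by simp) (fun q => algPick_ok (by omega) hX₀ (by simp) q) (d - 1) _
    (init_inv h)

end Vale.Agent.P049
end
end
end

section

section

section

/-! The output of the algorithm: the adjacency bits. -/

namespace Vale.Agent.P049

open Finset Function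

/-- rows of the adjacency matrix, one after the other -/
def outBits (L : List ℕ) (blocks : List (List ℕ)) : List Bool :=
  (L.flatMap fun i => (L.map fun _ => false) ++ blocks.map fun b => decide (i ∈ b)) ++
    blocks.flatMap fun b => (L.map fun i => decide (i ∈ b)) ++ L.map fun _ => false

/-- the algorithm -/
def bitsOf (d n : ℕ) : List Bool :=
  outBits (List.range (n / 2)) (blocksOf d (List.range (n / 2)))

theorem list_eq_ofFn {β : Type*} (l : List β) {m : ℕ} (h : l.length = m) :
    l = List.ofFn fun j : Fin m => l[(j : ℕ)]'(by rw [h]; exact j.2) := by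
  subst h
  exact List.ofFn_getElem.symm

theorem outBits_eq {m : ℕ} (blocks : List (List ℕ)) (hm : blocks.length = m) :
    outBits (List.range m) blocks =
      (List.ofFn fun p : Fin (m + m) => List.ofFn fun q : Fin (m + m) =>
        decide (((bipG fun j : Fin m => fs m (blocks[(j : ℕ)]'(by rw [hm]; exact j.2))).comap
          finSumFinEquiv.symm).Adj p q)).flatten := by
  have hL : List.range m = List.ofFn fun i : Fin m => (i : ℕ) := by
    apply List.ext_getElem <;> simp
  have hB := list_eq_ofFn blocks hm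
  have hl : ∀ (h : m ≤ m + m) (i : Fin m),
      (finSumFinEquiv.symm (Fin.castLE h i) : Fin m ⊕ Fin m) = Sum.inl i :=
    fun h i => finSumFinEquiv_symm_apply_castAdd i
  unfold outBits
  rw [List.flatMap_def, List.flatMap_def, ← List.flatten_append]
  congr 1
  rw [List.ofFn_add]
  congr 1
  · conv_lhs => rw [hL]
    rw [List.map_ofFn]
    congr 1
    funext i
    rw [comp_apply, List.ofFn_add]
    congr 1
    · rw [List.map_ofFn]
      congr 1
      funext j
      rw [comp_apply, eq_comm, decide_eq_false_iff_not, SimpleGraph.comap_adj,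
        hl, hl]
      exact id
    · conv_lhs => rw [hB]
      rw [List.map_ofFn]
      congr 1
      funext j
      rw [comp_apply]
      congr 1
      rw [SimpleGraph.comap_adj, hl,
        finSumFinEquiv_symm_apply_natAdd]
      exact propext mem_fs.symm
  · conv_lhs => rw [hB]
    rw [List.map_ofFn]
    congr 1
    funext i
    rw [comp_apply, List.ofFn_add]
    congr 1
    · rw [hL, List.map_ofFn]
      congr 1
      funext j
      rw [comp_apply]
      congr 1
      rw [SimpleGraph.comap_adj, hl,
        finSumFinEquiv_symm_apply_natAdd]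
      exact propext mem_fs.symm
    · rw [hL, List.map_ofFn]
      congr 1
      funext j
      rw [comp_apply, eq_comm, decide_eq_false_iff_not, SimpleGraph.comap_adj,
        finSumFinEquiv_symm_apply_natAdd, finSumFinEquiv_symm_apply_natAdd]
      exact id

/-- Correctness of the algorithm. -/
theorem bitsOf_correct {d n : ℕ} (hd : 3 ≤ d) (hn : 2 * d ^ 3 ≤ n) (he : Even n) :
    ∃ (G : SimpleGraph (Fin n)) (_ : DecidableRel G.Adj), IsBipartiteRamanujan d G ∧
      bitsOf d n = (List.ofFn fun i : Fin n => List.ofFn fun j : Fin n =>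
        decide (G.Adj i j)).flatten := by
  obtain ⟨m, rfl⟩ := he
  have hm : (m + m) / 2 = m := by omega
  obtain ⟨h1, h2⟩ := final_blocks hd (blocksOf_inv (m := m) hd (by nlinarith only [hn]))
  refine ⟨_, inferInstance, h2.iso (SimpleGraph.Iso.comap finSumFinEquiv.symm _).symm, ?_⟩
  unfold bitsOf
  rw [hm]
  exact outBits_eq _ h1

end Vale.Agent.P049
end
end
end

section

section

section

/-!
The algorithm `bitsOf d` is computable in polynomial time by a Turing machine (Mathlib's notion).
-/

open Function Vale.Agent.Lib.PolyTime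

namespace Vale.Agent.P049

universe u

variable {A : Set Word} {α : Type u} [Enc α]

theorem pt_outBits {L : α → List ℕ} {blocks : α → List (List ℕ)} (hL : PT A L)
    (hb : PT A blocks) : PT A (fun a => outBits (L a) (blocks a)) := by
  refine PT.append (PT.flatMap (f := fun a i => ((L a).map fun _ => false) ++
    (blocks a).map fun b => decide (i ∈ b)) hL ?_)
    (PT.flatMap (f := fun a b => ((L a).map fun i => decide (i ∈ b)) ++
      (L a).map fun _ => false) hb ?_)
  · exact PT.append (PT.map (f := fun _ _ => false) (hL.comp PT.fst') (PT.const false))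
      (PT.map (f := fun (p : α × ℕ) b => decide (p.2 ∈ b)) (hb.comp PT.fst')
        (PT.mem PT.snd' PT.fst'.snd))
  · exact PT.append (PT.map (f := fun (p : α × List ℕ) i => decide (i ∈ p.2))
      (hL.comp PT.fst') (PT.mem PT.fst'.snd PT.snd'))
      (PT.map (f := fun _ _ => false) (hL.comp PT.fst') (PT.const false))

theorem pt_bits (d : ℕ) : PT A (fun u : Un => Raw.mk (bitsOf d u.v)) := by
  have hn : PT A (fun u : Un => u.v / 2) := PT.div (PT.unVal PT.id) (PT.const 2)
  have hb : PBd (fun u : Un => u.v / 2) :=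
    (PBd.unVal (A := A) PT.id).mono fun u => Nat.div_le_self _ _
  have hL : PT A (fun u : Un => List.range (u.v / 2)) := PT.range hn hb
  exact PT.rawOfList (pt_outBits hL (pt_blocksOf d hL))

/-- The function `bitsOf d` (input in unary, output a word) is computed in polynomial time by a
Turing machine with finite alphabets. -/
theorem exists_tm2_bits (d : ℕ) :
    ∃ M : Turing.TM2ComputableInPolyTime (fun n : ℕ => List.replicate n true)
      (id : List Bool → List Bool) (bitsOf d), ∀ k, Finite (M.tm.Γ k) := by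
  obtain ⟨g, hg, h⟩ := pt_bits (A := ∅) d
  exact exists_tm2_of_polyTimeFun _ _ (bitsOf d) g (polyTimeFun_iff.2 hg) fun n => h ⟨n⟩

end Vale.Agent.P049
end
end
end

section

section

section

/-!
The algorithm for odd orders, as a computable function on lists: the vertices `≥ o` of the left
set are paired by a matching. A node polynomial (in the variable `x`) is evaluated at one huge
integer, its coefficients are read off as digits, and its sign at `2 √(d-1)` is decided by
comparing squares.
-/

namespace Vale.Agent.P049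

/-- the pairing on numbers: all vertices `≥ o` are paired -/
def ptN (o i : ℕ) : ℕ := if i < o then i else if (i - o) % 2 = 0 then i + 1 else i - 1

/-- list of the pairs -/
def pairsL (o : ℕ) (L : List ℕ) : List (List ℕ) :=
  (L.filter fun i => o ≤ i ∧ (i - o) % 2 = 0).map fun i => [i, i + 1]

/-- perturbations which realize `-x S`, where `S` is the adjacency matrix of the pairing -/
def zsS (P : List (List ℕ)) (x : ℤ) : List (List ℕ × ℤ × ℤ) := P.map fun p => (p, x, -x)

/-- value of a node, with initial perturbations `zs` -/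
def valG (d : ℕ) (c : ℤ) (zs : List (List ℕ × ℤ × ℤ)) (L X₀ : List ℕ) (q : ℕ) :
    ℕ → List ℕ → List ℕ → List (List ℕ) → ℤ
  | 0, _, _, _ => 0
  | f + 1, X, γ, blocks =>
    if γ.length = d then closedL d c L q (lvl d c L X₀ q) X (γ :: blocks, zs)
    else (X.map fun a => valG d c zs L X₀ q f (X.filter (· ≠ a)) (a :: γ) blocks).sum

/-- a huge integer -/
def bigX (q : ℕ) (L : List ℕ) (blocks : List (List ℕ)) : ℤ :=
  base (q + 1) L (absSum (matL L 0 blocks []) + L.length + 3)

/-- indices of the coefficients -/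
def idxL (L : List ℕ) : List ℕ := List.range (2 * L.length + 1)

/-- coefficients of the node polynomial -/
def coefsS (d : ℕ) (P : List (List ℕ)) (L X₀ : List ℕ) (q : ℕ) (X γ : List ℕ)
    (blocks : List (List ℕ)) : List ℤ :=
  digitsL (bigX q L blocks) (idxL L)
    (valG d (bigX q L blocks * bigX q L blocks) (zsS P (bigX q L blocks)) L X₀ q (d + 1) X γ
      blocks)

/-- `y ^ k` (for `k ≤ K.length`, `K` an initial segment) -/
def ypow (y : ℤ) (K : List ℕ) (k : ℕ) : ℤ := ((K.filter (· < k)).map fun _ => y).prod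

/-- rational part of the value at `√y` -/
def evL (y : ℤ) (K : List ℕ) (cs : List ℤ) : ℤ :=
  dot cs (K.map fun k => if k % 2 = 0 then ypow y K (k / 2) else 0)

/-- coefficient of `√y` in the value at `√y` -/
def odL (y : ℤ) (K : List ℕ) (cs : List ℤ) : ℤ :=
  dot cs (K.map fun k => if k % 2 = 0 then 0 else ypow y K (k / 2))

/-- `A + B √y < 0` -/
def negT (A B y : ℤ) : Bool :=
  if A < 0 then decide (B ≤ 0 ∨ B * B * y < A * A) else decide (B < 0 ∧ A * A < B * B * y)

/-- the node polynomial is negative at `2 √(d-1)` -/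
def negS (d : ℕ) (P : List (List ℕ)) (L X₀ : List ℕ) (q : ℕ) (X γ : List ℕ)
    (blocks : List (List ℕ)) : Bool :=
  negT (evL (4 * ((d : ℤ) - 1)) (idxL L) (coefsS d P L X₀ q X γ blocks))
    (odL (4 * ((d : ℤ) - 1)) (idxL L) (coefsS d P L X₀ q X γ blocks)) (4 * ((d : ℤ) - 1))

/-- first element of the piece whose child is negative -/
def pickS (d : ℕ) (P : List (List ℕ)) (L X₀ : List ℕ) (q : ℕ) (s : State) : ℕ :=
  (s.2.1.filter fun a => negS d P L X₀ q (s.2.1.filter (· ≠ a)) (a :: s.2.2) s.1).headD 0

end Vale.Agent.P049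
end
end
end

section

section

section

/-!
The whole algorithm for odd orders: initial blocks, greedy run, adjacency bits.
The left set is `L = [0, …, M-1]` with `M = d r + s + d`, `s < d`; the vertices `≥ M - d` are
paired.
-/

namespace Vale.Agent.P049

/-- the fixed star blocks -/
def starS (d : ℕ) (L : List ℕ) (r s : ℕ) : List (List ℕ) :=
  (L.filter (· < d * (s + (d - 1)))).map fun t =>
    (if t < d * s then d * r + t / d else d * r + s + (t - d * s) / (d - 1)) ::
      L.filter fun x => t * (d - 1) ≤ x ∧ x < (t + 1) * (d - 1)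

/-- the fixed blocks -/
def initS (d : ℕ) (L : List ℕ) (r s : ℕ) : List (List ℕ) :=
  plainB d L r (s + (d - 1)) ++ starS d L r s

/-- all blocks of the final graph -/
def blocksOfS (d : ℕ) (L : List ℕ) : List (List ℕ) :=
  runG d (L.filter (· < d * ((L.length - d) / d)))
    (pickS d (pairsL (L.length - d) L) L (L.filter (· < d * ((L.length - d) / d))))
    (d - 1) (initS d L ((L.length - d) / d) ((L.length - d) % d))

/-- rows of the adjacency matrix, one after the other -/
def outBitsS (o : ℕ) (L : List ℕ) (blocks : List (List ℕ)) : List Bool :=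
  (L.flatMap fun i => (L.map fun k => decide (ptN o i = k ∧ i ≠ k)) ++
    blocks.map fun b => decide (i ∈ b)) ++
    blocks.flatMap fun b => (L.map fun i => decide (i ∈ b)) ++ blocks.map fun _ => false

/-- the algorithm for odd `n` -/
def bitsOdd (d n : ℕ) : List Bool :=
  outBitsS ((List.range ((n + 1) / 2)).length - d) (List.range ((n + 1) / 2))
    (blocksOfS d (List.range ((n + 1) / 2)))

/-- the algorithm for all `n` -/
def bitsAll (d n : ℕ) : List Bool := if n % 2 = 0 then bitsOf d n else bitsOdd d n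

end Vale.Agent.P049
end
end
end

section

section

section

/-!
The algorithm for odd orders is computable in polynomial time.
-/

open Function Vale.Agent.Lib.PolyTime

namespace Vale.Agent.P049

universe u

variable {A : Set Word}

section alg

variable {α : Type u} [Enc α]

theorem pt_entry' {c : α → ℤ} {blocks : α → List (List ℕ)} {zs : α → List (List ℕ × ℤ × ℤ)}
    {i k : α → ℕ} (hc : PT A c) (hb : PT A blocks) (hz : PT A zs) (hi : PT A i) (hk : PT A k) :
    PT A (fun a => entry (c a) (blocks a) (zs a) (i a) (k a)) := by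
  have h1 : PT A (fun a => if i a = k a then c a else 0) :=
    pt_natIte hi hk hc (PT.const 0)
  have h2 : PT A (fun a => ((blocks a).map fun b => if i a ∈ b ∧ k a ∈ b then (1 : ℤ) else 0).sum) :=
    PT.intSum (PT.map (f := fun a b => if i a ∈ b ∧ k a ∈ b then (1 : ℤ) else 0) hb
      (pt_memIte (hi.comp PT.fst') (hk.comp PT.fst') PT.snd' (PT.const 1) (PT.const 0)))
  have h3 : PT A (fun a => ((zs a).map fun z => (if i a = k a ∧ i a ∈ z.1 then z.2.1 else 0) +
      (if i a ∈ z.1 ∧ k a ∈ z.1 then z.2.2 else 0)).sum) := by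
    refine PT.intSum (PT.map (f := fun a z => (if i a = k a ∧ i a ∈ z.1 then z.2.1 else 0) +
      (if i a ∈ z.1 ∧ k a ∈ z.1 then z.2.2 else 0)) hz (PT.intAdd ?_ ?_))
    · exact PT.ite (p := fun p : α × (List ℕ × ℤ × ℤ) => i p.1 = k p.1 ∧ i p.1 ∈ p.2.1)
        (PT.decide_and (p := fun p : α × (List ℕ × ℤ × ℤ) => i p.1 = k p.1)
          (q := fun p : α × (List ℕ × ℤ × ℤ) => i p.1 ∈ p.2.1)
          (PT.eqNat (hi.comp PT.fst') (hk.comp PT.fst')) (PT.mem PT.snd'.fst (hi.comp PT.fst')))
        PT.snd'.snd.fst (PT.const 0)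
    · exact pt_memIte (hi.comp PT.fst') (hk.comp PT.fst') PT.snd'.fst PT.snd'.snd.snd (PT.const 0)
  exact PT.intAdd (PT.intSub h1 h2) h3

theorem pt_matL' {c : α → ℤ} {L : α → List ℕ} {blocks : α → List (List ℕ)}
    {zs : α → List (List ℕ × ℤ × ℤ)} (hc : PT A c) (hL : PT A L) (hb : PT A blocks)
    (hz : PT A zs) : PT A (fun a => matL (L a) (c a) (blocks a) (zs a)) :=
  PT.map (f := fun a i => (L a).map fun k => entry (c a) (blocks a) (zs a) i k) hL
    (PT.map (f := fun (p : α × ℕ) k => entry (c p.1) (blocks p.1) (zs p.1) p.2 k)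
      (hL.comp PT.fst')
      (pt_entry' (hc.comp PT.fst'.fst) (hb.comp PT.fst'.fst) (hz.comp PT.fst'.fst) PT.fst'.snd
        PT.snd'))

theorem pt_closedL' (d : ℕ) (q : ℕ) {c : α → ℤ} {L X : α → List ℕ} {g : α → St → ℤ}
    {st : α → St} (hc : PT A c)
    (hL : PT A L) (hX : PT A X) (hg : PT A (fun p : α × St => g p.1 p.2)) (hst : PT A st) :
    PT A (fun a => closedL d (c a) (L a) q (g a) (X a) (st a)) := by
  have hs : PT A (fun a => (X a).length / d) := PT.div hX.length (PT.const d)
  have hB : PT A (fun a => base q (L a) (absSum (matL (L a) (c a) (st a).1 (st a).2))) :=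
    pt_base q hL (pt_absSum (pt_matL' hc hL hst.fst hst.snd))
  have hv : ∀ t : ℤ, PT A (fun a => g a ((st a).1, (X a,
      base q (L a) (absSum (matL (L a) (c a) (st a).1 (st a).2)), t) :: (st a).2)) := fun t =>
    hg.comp (PT.id.pair (hst.fst.pair (PT.cons (hX.pair (hB.pair (PT.const t))) hst.snd)))
  refine PT.ite (p := fun a => (X a).length / d = 0) (PT.eqNat hs (PT.const 0))
    (hg.comp (PT.id.pair hst)) (PT.intAdd (pt_dot ?_ ?_) (pt_dot ?_ ?_))
  · exact PT.map (f := fun a k => wL d (L a) ((X a).length / d) k)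
      (pt_filterLt hL (hs.add (PT.const 1)))
      (pt_wL d (hL.comp PT.fst') (hs.comp PT.fst') PT.snd')
  · exact pt_digitsL hB hL (hv 0)
  · exact PT.map (f := fun a k => vL d (L a) ((X a).length / d) k)
      (pt_filterLt hL hs)
      (pt_vL d (hL.comp PT.fst') (hs.comp PT.fst') PT.snd')
  · exact pt_digitsL hB hL (PT.intSub (hv 1) (hv 0))

end alg

theorem pt_lvl' (d : ℕ) (q : ℕ) : ∀ {α : Type u} [Enc α] {c : α → ℤ} {L X₀ : α → List ℕ}
    {st : α → St}, PT A c →
    PT A L → PT A X₀ → PT A st → PT A (fun a => lvl d (c a) (L a) (X₀ a) q (st a)) := by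
  induction q with
  | zero =>
    intro α _ c L X₀ st hc hL _ hst
    exact pt_detL (pt_idL hL) (pt_matL' hc hL hst.fst hst.snd)
  | succ q ih =>
    intro α _ c L X₀ st hc hL hX hst
    exact pt_closedL' d q hc hL hX (g := fun a => lvl d (c a) (L a) (X₀ a) q)
      (ih (hc.comp PT.fst') (hL.comp PT.fst') (hX.comp PT.fst') PT.snd') hst

theorem pt_valG (d : ℕ) (q f : ℕ) : ∀ {α : Type u} [Enc α] {c : α → ℤ}
    {zs : α → List (List ℕ × ℤ × ℤ)} {L X₀ X γ : α → List ℕ}
    {blocks : α → List (List ℕ)}, PT A c → PT A zs → PT A L → PT A X₀ → PT A X → PT A γ →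
    PT A blocks →
    PT A (fun a => valG d (c a) (zs a) (L a) (X₀ a) q f (X a) (γ a) (blocks a)) := by
  induction f with
  | zero =>
    intro α _ c zs L X₀ X γ blocks _ _ _ _ _ _ _
    exact PT.const 0
  | succ f ih =>
    intro α _ c zs L X₀ X γ blocks hc hz hL hX₀ hX hγ hb
    refine PT.ite (p := fun a => (γ a).length = d) (PT.eqNat hγ.length (PT.const d)) ?_ ?_
    · exact pt_closedL' d q hc hL hX (g := fun a => lvl d (c a) (L a) (X₀ a) q)
        (pt_lvl' d q (hc.comp PT.fst') (hL.comp PT.fst') (hX₀.comp PT.fst') PT.snd')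
        ((PT.cons hγ hb).pair hz)
    · refine PT.intSum (PT.map (f := fun a x => valG d (c a) (zs a) (L a) (X₀ a) q f
        ((X a).filter (· ≠ x)) (x :: γ a) (blocks a)) hX ?_)
      refine ih (hc.comp PT.fst') (hz.comp PT.fst') (hL.comp PT.fst') (hX₀.comp PT.fst') ?_
        (PT.cons PT.snd' (hγ.comp PT.fst')) (hb.comp PT.fst')
      exact PT.filter (f := fun (p : α × ℕ) y => decide (y ≠ p.2)) (hX.comp PT.fst')
        (PT.decide_not (p := fun p : (α × ℕ) × ℕ => p.2 = p.1.2) (PT.eqNat PT.snd' PT.fst'.snd))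

section sign

variable {α : Type u} [Enc α]

theorem pt_zsS {P : α → List (List ℕ)} {x : α → ℤ} (hP : PT A P) (hx : PT A x) :
    PT A (fun a => zsS (P a) (x a)) :=
  PT.map (f := fun a p => (p, x a, -x a)) hP
    (PT.snd'.pair ((hx.comp PT.fst').pair (PT.intNeg (hx.comp PT.fst'))))

theorem pt_bigX (q : ℕ) {L : α → List ℕ} {blocks : α → List (List ℕ)} (hL : PT A L)
    (hb : PT A blocks) : PT A (fun a => bigX q (L a) (blocks a)) :=
  pt_base (q + 1) hL (PT.intAdd (PT.intAdd (pt_absSum (pt_matL' (PT.const 0) hL hb (PT.const [])))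
    (PT.natCast hL.length)) (PT.const 3))

theorem pt_idxL {L : α → List ℕ} (hL : PT A L) : PT A (fun a => idxL (L a)) :=
  PT.range (((PT.const 2).mul hL.length).add (PT.const 1))
    (((PBd.const 2).mul (PBd.length hL)).add (PBd.const 1))

theorem pt_coefsS (d q : ℕ) {P blocks : α → List (List ℕ)} {L X₀ X γ : α → List ℕ}
    (hP : PT A P) (hL : PT A L) (hX₀ : PT A X₀) (hX : PT A X) (hγ : PT A γ)
    (hb : PT A blocks) :
    PT A (fun a => coefsS d (P a) (L a) (X₀ a) q (X a) (γ a) (blocks a)) := by
  have hB := pt_bigX q hL hb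
  exact pt_digitsL hB (pt_idxL hL) (pt_valG d q (d + 1) (PT.intMul hB hB) (pt_zsS hP hB) hL hX₀ hX
    hγ hb)

theorem pt_ypow (y : ℤ) {K : α → List ℕ} {k : α → ℕ} (hK : PT A K) (hk : PT A k) :
    PT A (fun a => ypow y (K a) (k a)) :=
  PT.intProd (PT.map (f := fun _ _ => y) (pt_filterLt hK hk) (PT.const y))

theorem pt_evL (y : ℤ) {K : α → List ℕ} {cs : α → List ℤ} (hK : PT A K) (hc : PT A cs) :
    PT A (fun a => evL y (K a) (cs a)) := by
  refine pt_dot hc (PT.map (f := fun a k => if k % 2 = 0 then ypow y (K a) (k / 2) else 0) hK ?_)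
  exact pt_natIte (PT.mod PT.snd' (PT.const 2)) (PT.const 0)
    (pt_ypow y (hK.comp PT.fst') (PT.div PT.snd' (PT.const 2))) (PT.const 0)

theorem pt_odL (y : ℤ) {K : α → List ℕ} {cs : α → List ℤ} (hK : PT A K) (hc : PT A cs) :
    PT A (fun a => odL y (K a) (cs a)) := by
  refine pt_dot hc (PT.map (f := fun a k => if k % 2 = 0 then 0 else ypow y (K a) (k / 2)) hK ?_)
  exact pt_natIte (PT.mod PT.snd' (PT.const 2)) (PT.const 0) (PT.const 0)
    (pt_ypow y (hK.comp PT.fst') (PT.div PT.snd' (PT.const 2)))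

theorem pt_negT (y : ℤ) {a b : α → ℤ} (ha : PT A a) (hb : PT A b) :
    PT A (fun x => negT (a x) (b x) y) := by
  have h1 := PT.intMul ha ha
  have h2 := PT.intMul (PT.intMul hb hb) (PT.const y)
  refine PT.ite (p := fun x => a x < 0) (PT.intLt ha (PT.const 0)) ?_ ?_
  · exact PT.decide_or (p := fun x => b x ≤ 0) (q := fun x => b x * b x * y < a x * a x)
      (PT.intLe hb (PT.const 0)) (PT.intLt h2 h1)
  · exact PT.decide_and (p := fun x => b x < 0) (q := fun x => a x * a x < b x * b x * y)
      (PT.intLt hb (PT.const 0)) (PT.intLt h1 h2)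

theorem pt_negS (d q : ℕ) {P blocks : α → List (List ℕ)} {L X₀ X γ : α → List ℕ}
    (hP : PT A P) (hL : PT A L) (hX₀ : PT A X₀) (hX : PT A X) (hγ : PT A γ)
    (hb : PT A blocks) :
    PT A (fun a => negS d (P a) (L a) (X₀ a) q (X a) (γ a) (blocks a)) := by
  have hc := pt_coefsS d q hP hL hX₀ hX hγ hb
  exact pt_negT _ (pt_evL _ (pt_idxL hL) hc) (pt_odL _ (pt_idxL hL) hc)

theorem pt_filterNe {X : α → List ℕ} {x : α → ℕ} (hX : PT A X) (hx : PT A x) :
    PT A (fun a => (X a).filter (· ≠ x a)) :=
  PT.filter (f := fun a y => decide (y ≠ x a)) hX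
    (PT.decide_not (p := fun p : α × ℕ => p.2 = x p.1) (PT.eqNat PT.snd' (hx.comp PT.fst')))

theorem pt_pickS (d q : ℕ) {P : α → List (List ℕ)} {L X₀ : α → List ℕ} {s : α → State}
    (hP : PT A P) (hL : PT A L) (hX₀ : PT A X₀) (hs : PT A s) :
    PT A (fun a => pickS d (P a) (L a) (X₀ a) q (s a)) := by
  refine PT.headD (PT.filter (f := fun a x => negS d (P a) (L a) (X₀ a) q
    ((s a).2.1.filter (· ≠ x)) (x :: (s a).2.2) (s a).1) hs.snd.fst ?_) (PT.const 0)
  have hs' := hs.comp (PT.fst' (A := A) (α := α) (β := ℕ))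
  exact pt_negS d q (hP.comp PT.fst') (hL.comp PT.fst') (hX₀.comp PT.fst')
    (pt_filterNe hs'.snd.fst PT.snd') (PT.cons PT.snd' hs'.snd.snd) hs'.fst

end sign

section run

variable {α : Type u} [Enc α]

theorem pt_stepG (d : ℕ) {pk : α → State → ℕ} {s : α → State}
    (hpk : PT A (fun p : α × State => pk p.1 p.2)) (hs : PT A s) :
    PT A (fun a => stepG d (pk a) (s a)) := by
  have hp : PT A (fun a => pk a (s a)) := hpk.comp (PT.id.pair hs)
  have hf := pt_filterNe hs.snd.fst hp
  exact PT.ite (p := fun a => (s a).2.2.length + 1 = d)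
    (PT.eqNat (hs.snd.snd.length.add (PT.const 1)) (PT.const d))
    ((PT.cons (PT.cons hp hs.snd.snd) hs.fst).pair (hf.pair (PT.const [])))
    (hs.fst.pair (hf.pair (PT.cons hp hs.snd.snd)))

theorem stepG_bound (d : ℕ) {pk : State → ℕ} (hpk : ∀ s, esize (pk s) ≤ esize s.2.1)
    (X₀ : List ℕ) (blocks : List (List ℕ)) (i : ℕ) :
    esize ((stepG d pk)^[i] (blocks, X₀, [])).2.1 ≤ esize X₀ ∧
    esize ((stepG d pk)^[i] (blocks, X₀, [])).1 +
      2 * esize ((stepG d pk)^[i] (blocks, X₀, [])).2.2 ≤
      esize blocks + i * (4 * esize X₀ + 3) := by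
  induction i with
  | zero => simp [esize_list_nil]
  | succ i ih =>
    rw [iterate_succ_apply']
    set s := (stepG d pk)^[i] (blocks, X₀, []) with hs
    obtain ⟨h1, h2⟩ := ih
    have hp := hpk s
    set a := pk s with ha
    have hf : esize (s.2.1.filter (· ≠ a)) ≤ esize s.2.1 :=
      esize_le_of_sublist List.filter_sublist
    have e : (i + 1) * (4 * esize X₀ + 3) = i * (4 * esize X₀ + 3) + (4 * esize X₀ + 3) := by
      ring
    have hstep : stepG d pk s = if s.2.2.length + 1 = d
        then ((a :: s.2.2) :: s.1, s.2.1.filter (· ≠ a), [])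
        else (s.1, s.2.1.filter (· ≠ a), a :: s.2.2) := rfl
    rw [hstep]
    split_ifs with hc
    · refine ⟨hf.trans h1, ?_⟩
      simp only [esize_list_cons, esize_list_nil]
      omega
    · refine ⟨hf.trans h1, ?_⟩
      simp only [esize_list_cons]
      omega

theorem pt_piece (d : ℕ) {pk : α → State → ℕ} {X₀ : α → List ℕ} {blocks : α → List (List ℕ)}
    (hpk : PT A (fun p : α × State => pk p.1 p.2))
    (hpk' : ∀ a s, esize (pk a s) ≤ esize s.2.1) (hX₀ : PT A X₀) (hb : PT A blocks) :
    PT A (fun a => ((stepG d (pk a))^[(X₀ a).length] (blocks a, X₀ a, [])).1) := by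
  have h1 : PT A (fun a => (X₀ a).foldl (fun s _ => stepG d (pk a) s)
      (blocks a, X₀ a, ([] : List ℕ))) := by
    refine pt_foldl_const (step := fun a s => stepG d (pk a) s) hX₀
      (hb.pair (hX₀.pair (PT.const [])))
      (pt_stepG d (hpk.comp ((PT.fst'.comp PT.fst').pair PT.snd')) PT.snd')
      (b := fun a => 2 * (esize (blocks a) + esize (X₀ a) * (4 * esize (X₀ a) + 3)) +
        2 * esize (X₀ a) + 2) ?_ fun a i hi => ?_
    · have := hX₀.pbd
      have := hb.pbd
      fun_prop
    · obtain ⟨h1, h2⟩ := stepG_bound d (hpk' a) (X₀ a) (blocks a) i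
      set s := (stepG d (pk a))^[i] (blocks a, X₀ a, []) with hs
      have hi' : i ≤ esize (X₀ a) := hi.trans (length_le_esize _)
      have e4 : esize s = 2 * esize s.1 + (2 * esize s.2.1 + esize s.2.2 + 1) + 1 := by
        have h7 := esize_pair s.1 s.2
        have h8 := esize_pair s.2.1 s.2.2
        simp only [Prod.mk.eta] at h7 h8
        rw [h7, h8]
      have f2 : i * (4 * esize (X₀ a) + 3) ≤ esize (X₀ a) * (4 * esize (X₀ a) + 3) := by
        (clear * - hi'; gcongr)
      rw [e4]
      omega
  refine h1.fst.congr fun a => ?_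
  rw [List.foldl_const]

theorem pt_runG (d : ℕ) {pk : α → ℕ → State → ℕ} {X₀ : α → List ℕ}
    (hpk : ∀ q, PT A (fun p : α × State => pk p.1 q p.2))
    (hpk' : ∀ a q s, esize (pk a q s) ≤ esize s.2.1) (hX₀ : PT A X₀) (q : ℕ) :
    ∀ {blocks : α → List (List ℕ)}, PT A blocks →
      PT A (fun a => runG d (X₀ a) (pk a) q (blocks a)) := by
  induction q with
  | zero => intro blocks hb; exact hb
  | succ q ih =>
    intro blocks hb
    exact ih (pt_piece d (pk := fun a => pk a q) (hpk q) (fun a s => hpk' a q s) hX₀ hb)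

theorem pickS_esize (d : ℕ) (P : List (List ℕ)) (L X₀ : List ℕ) (q : ℕ) (s : State) :
    esize (pickS d P L X₀ q s) ≤ esize s.2.1 := by
  have key : ∀ (l : List ℕ) (p : ℕ → Bool), esize ((l.filter p).headD 0) ≤ esize l := by
    intro l p
    rcases e : l.filter p with _ | ⟨b, t⟩
    · simp [esize_nat]
    · have h1 : b ∈ l := by
        have : b ∈ l.filter p := by rw [e]; exact List.mem_cons_self
        exact List.mem_of_mem_filter this
      exact esize_le_of_mem h1
  exact key _ _

theorem pt_pairsL {o : α → ℕ} {L : α → List ℕ} (ho : PT A o) (hL : PT A L) :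
    PT A (fun a => pairsL (o a) (L a)) := by
  refine PT.map (f := fun _ i => [i, i + 1]) (PT.filter
    (f := fun a i => decide (o a ≤ i ∧ (i - o a) % 2 = 0)) hL ?_) ?_
  · exact PT.decide_and (p := fun p : α × ℕ => o p.1 ≤ p.2)
      (q := fun p : α × ℕ => (p.2 - o p.1) % 2 = 0) (PT.le (ho.comp PT.fst') PT.snd')
      (PT.eqNat (PT.mod (PT.snd'.sub (ho.comp PT.fst')) (PT.const 2)) (PT.const 0))
  · exact PT.cons PT.snd' (PT.cons (PT.snd'.add (PT.const 1)) (PT.const []))

theorem pt_starS (d : ℕ) {L : α → List ℕ} {r s : α → ℕ} (hL : PT A L) (hr : PT A r)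
    (hs : PT A s) : PT A (fun a => starS d (L a) (r a) (s a)) := by
  refine PT.map (f := fun a t =>
    (if t < d * s a then d * r a + t / d else d * r a + s a + (t - d * s a) / (d - 1)) ::
      (L a).filter fun x => t * (d - 1) ≤ x ∧ x < (t + 1) * (d - 1))
    (pt_filterLt hL ((PT.const d).mul (hs.add (PT.const (d - 1))))) ?_
  have hr' : PT A (fun p : α × ℕ => d * r p.1) := (PT.const d).mul (hr.comp PT.fst')
  have hs' : PT A (fun p : α × ℕ => d * s p.1) := (PT.const d).mul (hs.comp PT.fst')
  refine PT.cons (PT.ite (p := fun p : α × ℕ => p.2 < d * s p.1) (PT.lt PT.snd' hs')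
    (hr'.add (PT.div PT.snd' (PT.const d)))
    ((hr'.add (hs.comp PT.fst')).add (PT.div (PT.snd'.sub hs') (PT.const (d - 1))))) ?_
  exact PT.filter (f := fun (p : α × ℕ) x => decide (p.2 * (d - 1) ≤ x ∧ x < (p.2 + 1) * (d - 1)))
    (hL.comp PT.fst') (PT.decide_and (p := fun q : (α × ℕ) × ℕ => q.1.2 * (d - 1) ≤ q.2)
      (q := fun q : (α × ℕ) × ℕ => q.2 < (q.1.2 + 1) * (d - 1))
      (PT.le (PT.fst'.snd.mul (PT.const (d - 1))) PT.snd')
      (PT.lt PT.snd' ((PT.fst'.snd.add (PT.const 1)).mul (PT.const (d - 1)))))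

theorem pt_blocksOfS (d : ℕ) {L : α → List ℕ} (hL : PT A L) :
    PT A (fun a => blocksOfS d (L a)) := by
  have hm : PT A (fun a => (L a).length - d) := hL.length.sub (PT.const d)
  have hr : PT A (fun a => ((L a).length - d) / d) := PT.div hm (PT.const d)
  have hs : PT A (fun a => ((L a).length - d) % d) := PT.mod hm (PT.const d)
  have hX₀ := pt_filterLt hL ((PT.const d).mul hr)
  have hP := pt_pairsL hm hL
  refine pt_runG d (pk := fun a => pickS d (pairsL ((L a).length - d) (L a)) (L a)
    ((L a).filter (· < d * (((L a).length - d) / d)))) (fun q => ?_)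
    (fun a q s => pickS_esize _ _ _ _ _ _) hX₀ (d - 1)
    (PT.append (pt_plainB d hL hr (hs.add (PT.const (d - 1)))) (pt_starS d hL hr hs))
  exact pt_pickS d q (hP.comp PT.fst') (hL.comp PT.fst') (hX₀.comp PT.fst') PT.snd'

theorem pt_ptN {o i : α → ℕ} (ho : PT A o) (hi : PT A i) : PT A (fun a => ptN (o a) (i a)) :=
  PT.ite (p := fun a => i a < o a) (PT.lt hi ho) hi
    (PT.ite (p := fun a => (i a - o a) % 2 = 0)
      (PT.eqNat (PT.mod (hi.sub ho) (PT.const 2)) (PT.const 0)) (hi.add (PT.const 1))
      (hi.sub (PT.const 1)))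

theorem pt_outBitsS {o : α → ℕ} {L : α → List ℕ} {blocks : α → List (List ℕ)} (ho : PT A o)
    (hL : PT A L) (hb : PT A blocks) : PT A (fun a => outBitsS (o a) (L a) (blocks a)) := by
  refine PT.append (PT.flatMap (f := fun a i =>
    ((L a).map fun k => decide (ptN (o a) i = k ∧ i ≠ k)) ++
      (blocks a).map fun b => decide (i ∈ b)) hL ?_)
    (PT.flatMap (f := fun a b => ((L a).map fun i => decide (i ∈ b)) ++
      (blocks a).map fun _ => false) hb ?_)
  · refine PT.append (PT.map (f := fun (p : α × ℕ) k => decide (ptN (o p.1) p.2 = k ∧ p.2 ≠ k))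
      (hL.comp PT.fst') ?_)
      (PT.map (f := fun (p : α × ℕ) b => decide (p.2 ∈ b)) (hb.comp PT.fst')
        (PT.mem PT.snd' PT.fst'.snd))
    exact PT.decide_and (p := fun q : (α × ℕ) × ℕ => ptN (o q.1.1) q.1.2 = q.2)
      (q := fun q : (α × ℕ) × ℕ => q.1.2 ≠ q.2)
      (PT.eqNat (pt_ptN (ho.comp PT.fst'.fst) PT.fst'.snd) PT.snd')
      (PT.decide_not (p := fun q : (α × ℕ) × ℕ => q.1.2 = q.2) (PT.eqNat PT.fst'.snd PT.snd'))
  · exact PT.append (PT.map (f := fun (p : α × List ℕ) i => decide (i ∈ p.2))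
      (hL.comp PT.fst') (PT.mem PT.fst'.snd PT.snd'))
      (PT.map (f := fun _ _ => false) (hb.comp PT.fst') (PT.const false))

end run

theorem pt_odd (d : ℕ) : PT A (fun u : Un => bitsOdd d u.v) := by
  have hn : PT A (fun u : Un => (u.v + 1) / 2) :=
    PT.div ((PT.unVal PT.id).add (PT.const 1)) (PT.const 2)
  have hb : PBd (fun u : Un => (u.v + 1) / 2) :=
    ((PBd.unVal (A := A) PT.id).add (PBd.const 1)).mono fun u => Nat.div_le_self _ _
  have hL : PT A (fun u : Un => List.range ((u.v + 1) / 2)) := PT.range hn hb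
  exact pt_outBitsS (hL.length.sub (PT.const d)) hL (pt_blocksOfS d hL)

theorem pt_even (d : ℕ) : PT A (fun u : Un => bitsOf d u.v) := by
  have hn : PT A (fun u : Un => u.v / 2) := PT.div (PT.unVal PT.id) (PT.const 2)
  have hb : PBd (fun u : Un => u.v / 2) :=
    (PBd.unVal (A := A) PT.id).mono fun u => Nat.div_le_self _ _
  have hL : PT A (fun u : Un => List.range (u.v / 2)) := PT.range hn hb
  exact pt_outBits hL (pt_blocksOf d hL)

theorem pt_all (d : ℕ) : PT A (fun u : Un => Raw.mk (bitsAll d u.v)) :=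
  PT.rawOfList (PT.ite (p := fun u : Un => u.v % 2 = 0)
    (PT.eqNat (PT.mod (PT.unVal PT.id) (PT.const 2)) (PT.const 0)) (pt_even d) (pt_odd d))

/-- The function `bitsAll d` (input in unary, output a word) is computed in polynomial time by a
Turing machine with finite alphabets. -/
theorem exists_tm2_all (d : ℕ) :
    ∃ M : Turing.TM2ComputableInPolyTime (fun n : ℕ => List.replicate n true)
      (id : List Bool → List Bool) (bitsAll d), ∀ k, Finite (M.tm.Γ k) := by
  obtain ⟨g, hg, h⟩ := pt_all (A := ∅) d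
  exact exists_tm2_of_polyTimeFun _ _ (bitsAll d) g (polyTimeFun_iff.2 hg) fun n => h ⟨n⟩

end Vale.Agent.P049
end
end
end

section

section

section

/-! The graph of a pairing and a family of blocks. -/

namespace Vale.Agent.P049

open Finset Matrix Polynomial

variable {V W : Type} [Fintype V] [DecidableEq V] [Fintype W] [DecidableEq W]

/-- the graph of a pairing `pt` on `V` and a family of blocks, indexed by `W` -/
def pairG (pt : V → V) (hpt : ∀ i, pt (pt i) = i) (b : W → Finset V) : SimpleGraph (V ⊕ W) where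
  Adj := fun p q => match p, q with
    | Sum.inl i, Sum.inl k => pt i = k ∧ i ≠ k
    | Sum.inl i, Sum.inr j => i ∈ b j
    | Sum.inr j, Sum.inl i => i ∈ b j
    | Sum.inr _, Sum.inr _ => False
  symm := ⟨fun p q h => by
    rcases p with p | p <;> rcases q with q | q
    · exact ⟨by rw [← h.1, hpt], h.2.symm⟩
    · exact h
    · exact h
    · exact h⟩
  loopless := ⟨fun p h => by
    rcases p with p | p
    · exact h.2 rfl
    · exact h⟩

instance (pt : V → V) (hpt : ∀ i, pt (pt i) = i) (b : W → Finset V) :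
    DecidableRel (pairG pt hpt b).Adj := fun p q => by
  rcases p with p | p <;> rcases q with q | q <;> unfold pairG <;> infer_instance

/-- incidence matrix -/
def incS (b : W → Finset V) : Matrix V W ℝ := Matrix.of fun i j => if i ∈ b j then 1 else 0

theorem adj_pairG (pt : V → V) (hpt : ∀ i, pt (pt i) = i) (b : W → Finset V) :
    (pairG pt hpt b).adjMatrix ℝ = fromBlocks (pairM ℝ pt) 0 0 0 + lift (incS b) := by
  ext p q
  rw [SimpleGraph.adjMatrix_apply]
  rcases p with p | p <;> rcases q with q | q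
  · simp only [pairG, ne_eq, pairM, lift, Matrix.add_apply, fromBlocks_apply₁₁, of_apply, Matrix.zero_apply, add_zero]
  · simp [pairG, incS, lift]
  · simp [pairG, incS, lift]
  · simp [pairG, lift]

theorem incS_mul (b : W → Finset V) : incS b * (incS b)ᵀ = ∑ j, outer ℝ (b j) := by
  ext i k
  rw [Matrix.mul_apply, Matrix.sum_apply]
  apply sum_congr rfl
  intro j _
  simp only [incS, outer, Matrix.of_apply, Matrix.transpose_apply]
  by_cases h1 : i ∈ b j <;> by_cases h2 : k ∈ b j <;> simp [h1, h2]

theorem pairG_reg {d : ℕ} {pt : V → V} {hpt : ∀ i, pt (pt i) = i} (b : W → Finset V)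
    (h1 : ∀ j, (b j).card = d)
    (h2 : ∀ i, (univ.filter fun j => i ∈ b j).card + pdeg pt i = d) :
    (pairG pt hpt b).IsRegularOfDegree d := by
  intro p
  rw [← SimpleGraph.card_neighborFinset_eq_degree]
  rcases p with i | j
  · have h3 : (pairG pt hpt b).neighborFinset (Sum.inl i) =
        ((univ.filter fun k => pt i = k ∧ i ≠ k).map Function.Embedding.inl) ∪
          ((univ.filter fun j => i ∈ b j).map Function.Embedding.inr) := by
      ext q
      rw [SimpleGraph.mem_neighborFinset, mem_union, mem_map, mem_map]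
      rcases q with q | q
      · simp only [pairG, ne_eq, mem_filter, mem_univ, true_and, Function.Embedding.inl_apply, Sum.inl.injEq, exists_eq_right, Function.Embedding.inr_apply, reduceCtorEq, and_false, exists_false, or_false]
      · simp only [pairG, ne_eq, mem_filter, mem_univ, true_and, Function.Embedding.inl_apply, reduceCtorEq, and_false, exists_false, Function.Embedding.inr_apply, Sum.inr.injEq, exists_eq_right, false_or]
    rw [h3, card_union_of_disjoint, card_map, card_map, ← h2 i, add_comm]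
    · congr 1
      unfold pdeg
      split_ifs with h4
      · rw [card_eq_zero, filter_eq_empty_iff]
        intro k _ h5
        exact h5.2 (h4.symm.trans h5.1)
      · rw [card_eq_one]
        refine ⟨pt i, ?_⟩
        ext k
        rw [mem_filter, mem_singleton]
        constructor
        · rintro ⟨_, h5, _⟩
          exact h5.symm
        · rintro rfl
          exact ⟨mem_univ _, rfl, fun h => h4 h.symm⟩
    · rw [disjoint_left]
      intro q hq hq'
      rw [mem_map] at hq hq'
      obtain ⟨x, _, rfl⟩ := hq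
      obtain ⟨y, _, hy⟩ := hq'
      simp at hy
  · rw [← h1 j]
    symm
    apply card_bij (fun i _ => Sum.inl i)
    · intro i hi
      rw [SimpleGraph.mem_neighborFinset]
      exact hi
    · intro i _ i' _ h
      exact Sum.inl_injective h
    · intro q hq
      rw [SimpleGraph.mem_neighborFinset] at hq
      rcases q with q | q
      · exact ⟨q, hq, rfl⟩
      · exact hq.elim

theorem charpoly_pairG (pt : V → V) (hpt : ∀ i, pt (pt i) = i) (b : W → Finset V) :
    (Polynomial.X : ℝ[X]) ^ (Fintype.card V) * ((pairG pt hpt b).adjMatrix ℝ).charpoly =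
      Polynomial.X ^ (Fintype.card W) * (yM pt (∑ j, outer ℝ (b j))).det := by
  rw [adj_pairG, det_lift, incS_mul]
  congr 2
  unfold yM
  rw [← pairM_map (C : ℝ →+* ℝ[X]) pt]

theorem pairG_upper {d : ℕ} (hd : 3 ≤ d) {pt : V → V} {hpt : ∀ i, pt (pt i) = i}
    (b : W → Finset V) (hcard : Fintype.card V = Fintype.card W + 1) (h1 : ∀ j, (b j).card = d)
    (h2 : ∀ i, (univ.filter fun j => i ∈ b j).card + pdeg pt i = d) (H : ℝ[X])
    (hH : (yM pt (∑ j, outer ℝ (b j))).det = (Polynomial.X - C (d : ℝ)) * H)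
    (hpos : ∀ x, rd d ≤ x → 0 < H.eval x) :
    IsUpperRamanujan d (pairG pt hpt b) := by
  refine ⟨pairG_reg b h1 h2, ?_⟩
  have hX : (Polynomial.X : ℝ[X]) ≠ 0 := Polynomial.X_ne_zero
  have h3 := charpoly_pairG pt hpt b
  set P := ((pairG pt hpt b).adjMatrix ℝ).charpoly with hP
  have hne : P ≠ 0 := (Matrix.charpoly_monic ((pairG pt hpt b).adjMatrix ℝ)).ne_zero
  rw [hcard, pow_succ, mul_assoc, hH] at h3
  have h4 : Polynomial.X * P = (Polynomial.X - C (d : ℝ)) * H :=
    mul_left_cancel₀ (pow_ne_zero _ hX) h3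
  have hd0 : (d : ℝ) ≠ 0 := by
    have : (0 : ℝ) < d := by exact_mod_cast (by omega : 0 < d)
    exact this.ne'
  have h5 : (Polynomial.X : ℝ[X]) ∣ H := by
    have h6 : (Polynomial.X : ℝ[X]) ∣ (Polynomial.X - C (d : ℝ)) * H := ⟨P, h4.symm⟩
    rcases (Polynomial.prime_X).dvd_or_dvd h6 with h7 | h7
    · exfalso
      rw [Polynomial.X_dvd_iff] at h7
      simp only [map_natCast, coeff_sub, coeff_X_zero, coeff_natCast_ite, ↓reduceIte, zero_sub, neg_eq_zero, Nat.cast_eq_zero] at h7
      exact hd0 (by exact_mod_cast h7)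
    · exact h7
  obtain ⟨K, hK⟩ := h5
  have h6 : P = (Polynomial.X - C (d : ℝ)) * K := by
    apply mul_left_cancel₀ hX
    rw [h4, hK]; ring
  refine ⟨K.roots, ?_, ?_⟩
  · rw [h6] at hne ⊢
    rw [roots_mul hne, roots_X_sub_C, Multiset.singleton_add]
  · intro μ hμ
    have h7 := isRoot_of_mem_roots hμ
    by_contra hcon
    push Not at hcon
    have h8 := hpos μ (by unfold rd; exact hcon.le)
    rw [hK, eval_mul, h7.eq_zero, mul_zero] at h8
    exact lt_irrefl _ h8

end Vale.Agent.P049
end
end
end

section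

section

section

/-! The choice function of the algorithm for odd orders is correct. -/

open Finset Matrix Polynomial

namespace Vale.Agent.P049

universe u

/-! ### Expansion of node values as sums of determinants -/

section expand

variable {α : Type*} [Fintype α] [DecidableEq α]

theorem exists_ord {d r : ℕ} (hd : 0 < d) {X₀ : Finset α} (hX₀ : X₀.card = d * r) (q : ℕ) :
    ∀ (n : ℕ) (X γ : Finset α),
    ∃ (N : ℕ) (L : Fin N → Matrix α α ℤ),
      N ≤ (Fintype.card α) ^ n * ((Fintype.card α) ^ (Fintype.card α)) ^ q ∧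
      (∀ x i k, 0 ≤ L x i k ∧ L x i k ≤ q + n) ∧
      ∀ (R : Type u) [CommRing R] (A : Matrix α α R),
        ordSum d (restSum d X₀ q) n X γ A = ∑ x, (A - (L x).map (Int.cast : ℤ → R)).det := by
  intro n
  induction n with
  | zero =>
    intro X γ
    obtain ⟨N, L, h1, h2, h3⟩ := exists_rest.{u} hd hX₀ q
    exact ⟨N, L, by simpa only [pow_zero, one_mul] using h1, by simpa only [CharP.cast_eq_zero, add_zero] using h2, fun R _ A => by rw [ordSum_zero]; exact h3 R A⟩
  | succ n ih =>
    intro X γ
    have hch : ∀ x : α, ∃ (N : ℕ) (L : Fin N → Matrix α α ℤ),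
        N ≤ (Fintype.card α) ^ n * ((Fintype.card α) ^ (Fintype.card α)) ^ q ∧
        (∀ x i k, 0 ≤ L x i k ∧ L x i k ≤ q + (n + 1)) ∧
        ∀ (R : Type u) [CommRing R] (A : Matrix α α R),
          child d (restSum d X₀ q) n X γ A x = ∑ y, (A - (L y).map (Int.cast : ℤ → R)).det := by
      intro x
      by_cases hc : γ.card + 1 = d
      · obtain ⟨N, L, h1, h2, h3⟩ := ih (X.erase x) ∅
        refine ⟨N, fun y => L y + outer ℤ (insert x γ), h1, fun y i k => ?_, fun R _ A => ?_⟩
        · have h4 := h2 y i k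
          have h5 : 0 ≤ outer ℤ (insert x γ) i k ∧ outer ℤ (insert x γ) i k ≤ 1 := by
            simp only [outer, Matrix.of_apply]
            split_ifs <;> simp
          simp only [Matrix.add_apply]
          constructor <;> linarith only [h4, h5]
        · rw [child_pos hc, h3]
          apply Finset.sum_congr rfl
          intro y _
          congr 1
          rw [← outer_map (Int.castRingHom R)]
          ext i k
          simp only [Matrix.sub_apply, Matrix.map_apply, Matrix.add_apply]
          push_cast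
          simp only [eq_intCast]
          ring
      · obtain ⟨N, L, h1, h2, h3⟩ := ih (X.erase x) (insert x γ)
        refine ⟨N, L, h1, fun y i k => ⟨(h2 y i k).1, (h2 y i k).2.trans (by linarith only [])⟩,
          fun R _ A => ?_⟩
        rw [child_neg hc, h3]
    choose N L h1 h2 h3 using hch
    set ι' := Σ x : {x // x ∈ X}, Fin (N x) with hι'
    set e : ι' ≃ Fin (Fintype.card ι') := Fintype.equivFin ι' with he
    set F : ι' → Matrix α α ℤ := fun x => L x.1 x.2 with hF
    refine ⟨Fintype.card ι', fun x => F (e.symm x), ?_, ?_, ?_⟩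
    · have hcard : Fintype.card ι' = ∑ x : {x // x ∈ X}, N x :=
        Fintype.card_sigma.trans (Finset.sum_congr rfl fun x _ => Fintype.card_fin _)
      rw [hcard, Finset.sum_coe_sort X N]
      calc ∑ x ∈ X, N x
          ≤ ∑ x ∈ X, (Fintype.card α) ^ n * ((Fintype.card α) ^ (Fintype.card α)) ^ q :=
            Finset.sum_le_sum (fun x _ => h1 x)
        _ = X.card * ((Fintype.card α) ^ n * ((Fintype.card α) ^ (Fintype.card α)) ^ q) := by
            rw [Finset.sum_const, smul_eq_mul]
        _ ≤ Fintype.card α * ((Fintype.card α) ^ n * ((Fintype.card α) ^ (Fintype.card α)) ^ q) :=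
            Nat.mul_le_mul_right _ (Finset.card_le_univ _)
        _ = (Fintype.card α) ^ (n + 1) * ((Fintype.card α) ^ (Fintype.card α)) ^ q := by
            rw [pow_succ]; ring
    · intro x i k
      have := h2 (e.symm x).1 (e.symm x).2 i k
      simp only [hF]
      push_cast
      exact this
    · intro R _ A
      rw [ordSum_succ, ← Finset.sum_coe_sort]
      have h4 : ∑ x : {x // x ∈ X}, child d (restSum d X₀ q) n X γ A x =
          ∑ x : {x // x ∈ X}, ∑ y : Fin (N x), (A - (F ⟨x, y⟩).map (Int.cast : ℤ → R)).det := by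
        apply Finset.sum_congr rfl
        intro x _
        rw [h3]
      rw [h4, ← Fintype.sum_sigma']
      exact (Equiv.sum_comp e.symm (fun x => (A - (F x).map (Int.cast : ℤ → R)).det)).symm

end expand

/-! ### The node polynomial over the integers -/

section poly

variable {m : ℕ}

/-- integer version of `yM` -/
noncomputable def yMZ (pt : Fin m → Fin m) (F : Matrix (Fin m) (Fin m) ℤ) :
    Matrix (Fin m) (Fin m) ℤ[X] :=
  ((Polynomial.X : ℤ[X]) ^ 2) • (1 : Matrix (Fin m) (Fin m) ℤ[X]) -
    (Polynomial.X : ℤ[X]) • pairM ℤ[X] pt - F.map C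

theorem yMZ_map (pt : Fin m → Fin m) (F : Matrix (Fin m) (Fin m) ℤ) :
    (yMZ pt F).map (Polynomial.mapRingHom (Int.castRingHom ℝ)) =
      yM pt (F.map (Int.castRingHom ℝ)) := by
  refine Matrix.ext (fun i k => ?_)
  simp only [yMZ, yM, pairM, Matrix.map_apply, Matrix.sub_apply, Matrix.smul_apply,
    Matrix.one_apply, Matrix.of_apply, smul_eq_mul, Polynomial.coe_mapRingHom]
  split_ifs <;> simp

theorem yMZ_eval (pt : Fin m → Fin m) (F : Matrix (Fin m) (Fin m) ℤ) (x : ℤ) :
    (yMZ pt F).map (Polynomial.evalRingHom x) =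
      (x * x) • (1 : Matrix (Fin m) (Fin m) ℤ) - x • pairM ℤ pt - F := by
  refine Matrix.ext (fun i k => ?_)
  simp only [yMZ, pairM, Matrix.map_apply, Matrix.sub_apply, Matrix.smul_apply,
    Matrix.one_apply, Matrix.of_apply, smul_eq_mul, Polynomial.coe_evalRingHom]
  split_ifs <;> simp [sq]

theorem maj_yMZ {pt : Fin m → Fin m} {F : Matrix (Fin m) (Fin m) ℤ} {N b : ℕ}
    (hF : ∀ i k, (F i k).natAbs ≤ N) {L : Matrix (Fin m) (Fin m) ℤ}
    (hL : ∀ i k, 0 ≤ L i k ∧ L i k ≤ b) (i k : Fin m) :
    Maj ((yMZ pt F - L.map (Int.cast : ℤ → ℤ[X])) i k)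
      (C (N + b) + Polynomial.X + Polynomial.X ^ 2) := by
  intro j
  have hf := hF i k
  have hb := hL i k
  have hc : ((L i k : ℤ) : ℤ[X]) = C (L i k) := by simp
  simp only [yMZ, pairM, Matrix.sub_apply, Matrix.map_apply, Matrix.smul_apply, smul_eq_mul,
    Matrix.one_apply, Matrix.of_apply, Polynomial.coeff_add, Polynomial.coeff_sub, hc]
  generalize F i k = f at hf ⊢
  generalize L i k = l at hb ⊢
  have e1 : ∀ p : Prop, ∀ [Decidable p], ((Polynomial.X : ℤ[X]) ^ 2 * (if p then 1 else 0)).coeff j =
      if j = 2 ∧ p then 1 else 0 := by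
    intro p _
    by_cases hp : p <;> simp [hp, Polynomial.coeff_X_pow]
  have e2 : ∀ p : Prop, ∀ [Decidable p], ((Polynomial.X : ℤ[X]) * (if p then 1 else 0)).coeff j =
      if j = 1 ∧ p then 1 else 0 := by
    intro p _
    by_cases hp : p <;> simp [hp, Polynomial.coeff_X, eq_comm]
  rw [e1, e2, Polynomial.coeff_C, Polynomial.coeff_C, Polynomial.coeff_C, Polynomial.coeff_X,
    Polynomial.coeff_X_pow]
  split_ifs <;> omega

theorem node_maj {d r q n : ℕ} {X₀ X γ : Finset (Fin m)} (hd : 0 < d) (hX₀ : X₀.card = d * r)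
    {pt : Fin m → Fin m} {F : Matrix (Fin m) (Fin m) ℤ} {N : ℕ}
    (hF : ∀ i k, (F i k).natAbs ≤ N) :
    ∃ K : ℕ, K ≤ m ^ n * (m ^ m) ^ q ∧ Maj (ordSum d (restSum d X₀ q) n X γ (yMZ pt F))
      (∑ _x : Fin K, ∑ _σ : Equiv.Perm (Fin m), ∏ _i : Fin m,
        (C (N + (q + n)) + Polynomial.X + Polynomial.X ^ 2)) := by
  obtain ⟨K, L, h1, h2, h3⟩ := exists_ord.{0} hd hX₀ q n X γ
  rw [Fintype.card_fin] at h1
  refine ⟨K, h1, ?_⟩
  rw [h3]
  apply Maj.sum
  intro x _
  apply Maj.det
  intro i k
  exact maj_yMZ hF (fun i k => by have := h2 x i k; push_cast; exact this) i k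

theorem node_coeff_bound {d r q n : ℕ} {X₀ X γ : Finset (Fin m)} (hd : 0 < d)
    (hX₀ : X₀.card = d * r) (hn : n ≤ m)
    {pt : Fin m → Fin m} {F : Matrix (Fin m) (Fin m) ℤ} {N : ℕ}
    (hF : ∀ i k, (F i k).natAbs ≤ N) (k : ℕ) :
    ((ordSum d (restSum d X₀ q) n X γ (yMZ pt F)).coeff k).natAbs ≤
      (m ^ (q + 2) * (N + q + m + 2)) ^ m := by
  obtain ⟨K, hK, hM⟩ := node_maj (X := X) (γ := γ) (q := q) (n := n) (pt := pt) hd hX₀ hF
  refine (hM k).trans ((coeff_le_eval_one _ k).trans ?_)
  simp only [prod_const, card_univ, Fintype.card_fin, sum_const, Fintype.card_perm, nsmul_eq_mul, eval_mul, eval_natCast, eval_pow, eval_add, eval_C, eval_X, one_pow]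
  have h2 : m.factorial ≤ m ^ m := Nat.factorial_le_pow _
  have h3 : m ^ n ≤ m ^ m := by
    rcases Nat.eq_zero_or_pos m with rfl | hm
    · have : n = 0 := by omega
      subst this; exact le_rfl
    · exact Nat.pow_le_pow_right hm hn
  calc (K : ℕ) * (m.factorial * (N + (q + n) + 1 + 1) ^ m)
      ≤ (m ^ m * (m ^ m) ^ q) * (m ^ m * (N + q + m + 2) ^ m) := by
        apply Nat.mul_le_mul (hK.trans (Nat.mul_le_mul_right _ h3))
        exact Nat.mul_le_mul h2 (Nat.pow_le_pow_left (by omega) _)
    _ = (m ^ (q + 2) * (N + q + m + 2)) ^ m := by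
        rw [mul_pow, ← mul_assoc, ← pow_succ', ← pow_succ, ← pow_mul, ← pow_mul]
        congr 2
        ring

theorem node_natDegree {d r q n : ℕ} {X₀ X γ : Finset (Fin m)} (hd : 0 < d)
    (hX₀ : X₀.card = d * r) {pt : Fin m → Fin m} {F : Matrix (Fin m) (Fin m) ℤ} :
    (ordSum d (restSum d X₀ q) n X γ (yMZ pt F)).natDegree < 2 * m + 1 := by
  obtain ⟨K, hK, hM⟩ := node_maj (X := X) (γ := γ) (q := q) (n := n) (pt := pt) hd hX₀
    (N := ∑ i, ∑ k, (F i k).natAbs) (fun i k =>
      (Finset.single_le_sum (f := fun k => (F i k).natAbs) (fun _ _ => Nat.zero_le _)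
        (Finset.mem_univ k)).trans (Finset.single_le_sum
        (f := fun i => ∑ k, (F i k).natAbs) (fun _ _ => Nat.zero_le _) (Finset.mem_univ i)))
  rw [Nat.lt_succ_iff, Polynomial.natDegree_le_iff_coeff_eq_zero]
  intro k hk
  have h1 := hM k
  have h2 : (∑ _x : Fin K, ∑ _σ : Equiv.Perm (Fin m), ∏ _i : Fin m,
        ((C (∑ i, ∑ k, (F i k).natAbs + (q + n)) : ℕ[X]) + Polynomial.X +
          Polynomial.X ^ 2)).natDegree ≤ 2 * m := by
    apply Polynomial.natDegree_sum_le_of_forall_le
    intro x _
    apply Polynomial.natDegree_sum_le_of_forall_le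
    intro σ _
    refine (Polynomial.natDegree_prod_le _ _).trans ?_
    refine (Finset.sum_le_card_nsmul _ _ 2 (fun i _ => ?_)).trans ?_
    · compute_degree
    · simp only [card_univ, Fintype.card_fin, smul_eq_mul, mul_comm, Std.le_refl]
  rw [Polynomial.coeff_eq_zero_of_natDegree_lt (lt_of_le_of_lt h2 hk)] at h1
  exact Int.natAbs_eq_zero.mp (Nat.le_zero.mp h1)

end poly

/-! ### The pairing -/

section pairs

variable {m o : ℕ}

/-- the pairing on `Fin m` -/
def ptF (m o : ℕ) (i : Fin m) : Fin m := if h : ptN o i < m then ⟨ptN o i, h⟩ else i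

theorem ptN_lt (hev : (m - o) % 2 = 0) {i : ℕ} (hi : i < m) : ptN o i < m := by
  unfold ptN
  split_ifs <;> omega

theorem ptN_ptN {i : ℕ} : ptN o (ptN o i) = i := by
  unfold ptN
  split_ifs <;> omega

theorem ptF_val (hev : (m - o) % 2 = 0) (i : Fin m) : (ptF m o i : ℕ) = ptN o i := by
  unfold ptF
  rw [dif_pos (ptN_lt hev i.2)]

theorem ptF_ptF (hev : (m - o) % 2 = 0) (i : Fin m) : ptF m o (ptF m o i) = i := by
  apply Fin.ext
  rw [ptF_val hev, ptF_val hev, ptN_ptN]

theorem filter_range_sum {M : Type*} [AddCommMonoid M] (p : ℕ → Prop) [DecidablePred p]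
    (F : ℕ → M) : (((List.range m).filter fun j => decide (p j)).map F).sum =
      ∑ j ∈ (Finset.range m).filter p, F j := by
  rw [← List.sum_toFinset F (List.nodup_range.filter _)]
  congr 1
  ext x
  simp

theorem zs_entry (x : ℤ) (hev : (m - o) % 2 = 0) (i k : Fin m) :
    ((zsS (pairsL o (List.range m)) x).map fun z =>
      (if (i : ℕ) = k ∧ (i : ℕ) ∈ z.1 then z.2.1 else 0) +
        (if (i : ℕ) ∈ z.1 ∧ (k : ℕ) ∈ z.1 then z.2.2 else 0)).sum =
      -(x * pairM ℤ (ptF m o) i k) := by
  unfold zsS pairsL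
  rw [List.map_map, List.map_map, filter_range_sum]
  have hpt : (ptF m o i = k ∧ i ≠ k) ↔ (ptN o i = k ∧ (i : ℕ) ≠ k) := by
    rw [Fin.ext_iff, ptF_val hev, ne_eq, Fin.ext_iff]
  simp only [pairM, Matrix.of_apply, hpt, Function.comp_apply, List.mem_cons, List.not_mem_nil,
    or_false]
  by_cases hik : (i : ℕ) = k
  · rw [if_neg (by tauto), mul_zero, neg_zero]
    apply Finset.sum_eq_zero
    intro j _
    rw [← hik]
    by_cases hj : (i : ℕ) = j ∨ (i : ℕ) = j + 1 <;> simp [hj]
  · simp only [hik, false_and, if_false, zero_add]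
    rw [← Finset.sum_filter, Finset.filter_filter, Finset.sum_const, nsmul_eq_mul]
    by_cases hp : ptN o i = k
    · rw [if_pos ⟨hp, hik⟩, mul_one]
      have h1 : (Finset.range m).filter (fun a => (o ≤ a ∧ (a - o) % 2 = 0) ∧
          ((i : ℕ) = a ∨ (i : ℕ) = a + 1) ∧ ((k : ℕ) = a ∨ (k : ℕ) = a + 1)) =
          {min (i : ℕ) k} := by
        ext a
        simp only [Finset.mem_filter, Finset.mem_range, Finset.mem_singleton]
        have hi := i.2
        have hk := k.2
        unfold ptN at hp
        split_ifs at hp <;> omega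
      rw [h1, Finset.card_singleton]
      simp
    · rw [if_neg (by (clear * - hpt hp; tauto)), mul_zero, neg_zero]
      have h1 : (Finset.range m).filter (fun a => (o ≤ a ∧ (a - o) % 2 = 0) ∧
          ((i : ℕ) = a ∨ (i : ℕ) = a + 1) ∧ ((k : ℕ) = a ∨ (k : ℕ) = a + 1)) = ∅ := by
        ext a
        simp only [Finset.mem_filter, Finset.mem_range, Finset.notMem_empty, iff_false]
        have hi := i.2
        have hk := k.2
        unfold ptN at hp
        split_ifs at hp <;> omega
      rw [h1]
      simp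

theorem entryMat_blocks (c : ℤ) (zs : List (List ℕ × ℤ × ℤ)) (blocks : List (List ℕ)) :
    entryMat m c blocks zs = entryMat m c [] zs - FM ℤ m blocks := by
  induction blocks with
  | nil => rw [FM_nil, sub_zero]
  | cons b blocks ih => rw [entryMat_cons_block, FM_cons, ih]; abel

theorem entryMat_zsS (x : ℤ) (hev : (m - o) % 2 = 0) (blocks : List (List ℕ)) :
    entryMat m (x * x) blocks (zsS (pairsL o (List.range m)) x) =
      (x * x) • (1 : Matrix (Fin m) (Fin m) ℤ) - x • pairM ℤ (ptF m o) - FM ℤ m blocks := by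
  rw [entryMat_blocks]
  congr 1
  refine Matrix.ext (fun i k => ?_)
  simp only [entryMat, entry, Matrix.of_apply, List.map_nil, List.sum_nil, sub_zero,
    zs_entry x hev, Matrix.sub_apply, Matrix.smul_apply, Matrix.one_apply, smul_eq_mul,
    Fin.ext_iff]
  split_ifs <;> ring

end pairs

/-! ### The values computed by the algorithm -/

section value

variable {d m q : ℕ}

theorem valG_succ (c : ℤ) (zs : List (List ℕ × ℤ × ℤ)) (L X₀ : List ℕ) (f : ℕ) (X γ : List ℕ)
    (blocks : List (List ℕ)) :
    valG d c zs L X₀ q (f + 1) X γ blocks =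
    if γ.length = d then closedL d c L q (lvl d c L X₀ q) X (γ :: blocks, zs)
    else (X.map fun a => valG d c zs L X₀ q f (X.filter (· ≠ a)) (a :: γ) blocks).sum := rfl

theorem valG_eq (hd : 2 ≤ d) (c : ℤ) (zs : List (List ℕ × ℤ × ℤ)) {X₀ : List ℕ}
    (hX₀ : ListOK m X₀) (hdiv : d ∣ X₀.length)
    {f : ℕ} : ∀ {X γ : List ℕ}, ListOK m X → ListOK m γ → (∀ x ∈ X, x ∉ γ) → γ.length ≤ d →
    d ∣ X.length + γ.length → d + 1 ≤ f + γ.length → γ ≠ [] → ∀ (blocks : List (List ℕ)),
    valG d c zs (List.range m) X₀ q f X γ blocks =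
      if γ.length = d then ordSum d (restSum d (fs m X₀) q) X.length (fs m X) ∅
        (entryMat m c (γ :: blocks) zs)
      else ordSum d (restSum d (fs m X₀) q) X.length (fs m X) (fs m γ)
        (entryMat m c blocks zs) := by
  induction f with
  | zero =>
    intro X γ _ _ _ hlen _ hf _ _
    omega
  | succ f ih =>
    intro X γ hX hγ hdisj hlen hdivX hf hne blocks
    rw [valG_succ]
    by_cases hγd : γ.length = d
    · rw [if_pos hγd, if_pos hγd]
      rw [hγd] at hdivX
      exact closedL_eq hd c hX₀ hdiv hX ((Nat.dvd_add_left (dvd_refl d)).mp hdivX) _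
    · rw [if_neg hγd, if_neg hγd]
      have hγpos : 0 < γ.length := List.length_pos_iff.mpr hne
      have hXpos : 0 < X.length := by
        by_contra h
        have h0 : X.length = 0 := by omega
        rw [h0, Nat.zero_add] at hdivX
        have := Nat.le_of_dvd hγpos hdivX
        omega
      obtain ⟨n, hn⟩ : ∃ n, X.length = n + 1 := ⟨X.length - 1, by omega⟩
      rw [hn, ordSum_succ, sum_fs hX]
      apply Finset.sum_congr rfl
      intro a ha
      have haX : (a : ℕ) ∈ X := mem_fs.mp ha
      have haγ : (a : ℕ) ∉ γ := hdisj a haX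
      have hX' : ListOK m (X.filter (· ≠ (a : ℕ))) := hX.filter _
      have hγ' : ListOK m ((a : ℕ) :: γ) := hγ.cons haγ
      have hlen' : (X.filter (· ≠ (a : ℕ))).length = n := by
        rw [← card_fs hX', fs_filter, Finset.card_erase_of_mem ha, card_fs hX, hn]
        rfl
      have hdisj' : ∀ x ∈ X.filter (· ≠ (a : ℕ)), x ∉ (a : ℕ) :: γ := by
        intro x hx
        rw [List.mem_filter] at hx
        rw [List.mem_cons]
        rintro (h | h)
        · simp [h] at hx
        · exact hdisj x hx.1 h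
      rw [ih hX' hγ' hdisj' (by rw [List.length_cons]; omega)
        (by rw [hlen', List.length_cons]; rw [hn] at hdivX
            have : n + (γ.length + 1) = n + 1 + γ.length := by omega
            rw [this]; exact hdivX)
        (by rw [List.length_cons]; omega) (by simp) blocks]
      rw [hlen', fs_filter, fs_cons]
      by_cases hc : γ.length + 1 = d
      · rw [if_pos (by rw [List.length_cons]; exact hc),
          child_pos (by rw [card_fs hγ]; exact hc), entryMat_cons_block, fs_cons]
      · rw [if_neg (by rw [List.length_cons]; exact hc),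
          child_neg (by rw [card_fs hγ]; exact hc)]

/-- The child polynomial over the integers. -/
noncomputable def childZ (d m q o : ℕ) (X₀ X γ : List ℕ) (blocks : List (List ℕ)) (a : Fin m) :
    ℤ[X] :=
  child d (restSum d (fs m X₀) q) (X.length - 1) (fs m X) (fs m γ)
    (yMZ (ptF m o) (FM ℤ m blocks)) a

theorem FM_map (blocks : List (List ℕ)) :
    (FM ℤ m blocks).map (Int.castRingHom ℝ) = FM ℝ m blocks := by
  induction blocks with
  | nil => rw [FM_nil, FM_nil]; ext i k; simp
  | cons b blocks ih =>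
    rw [FM_cons, FM_cons, ← ih, ← outer_map (Int.castRingHom ℝ)]
    ext i k
    simp

theorem yMZ_sub (pt : Fin m → Fin m) (F : Matrix (Fin m) (Fin m) ℤ) (b : Finset (Fin m)) :
    yMZ pt F - outer ℤ[X] b = yMZ pt (outer ℤ b + F) := by
  unfold yMZ
  refine Matrix.ext (fun i k => ?_)
  simp only [outer, Matrix.sub_apply, Matrix.map_apply, Matrix.add_apply, Matrix.of_apply]
  split_ifs <;> simp only [Matrix.smul_apply, smul_eq_mul, eq_intCast, Int.cast_add, Int.cast_one] <;> ring

theorem childZ_cases {o : ℕ} (X₀ : List ℕ) {X γ : List ℕ} (hX : ListOK m X) (hγ : ListOK m γ)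
    (blocks : List (List ℕ)) {a : Fin m} (ha : (a : ℕ) ∈ X) :
    childZ d m q o X₀ X γ blocks a =
      if γ.length + 1 = d then ordSum d (restSum d (fs m X₀) q) (X.filter (· ≠ (a : ℕ))).length
        (fs m (X.filter (· ≠ (a : ℕ)))) ∅ (yMZ (ptF m o) (FM ℤ m (((a : ℕ) :: γ) :: blocks)))
      else ordSum d (restSum d (fs m X₀) q) (X.filter (· ≠ (a : ℕ))).length
        (fs m (X.filter (· ≠ (a : ℕ)))) (fs m ((a : ℕ) :: γ))
        (yMZ (ptF m o) (FM ℤ m blocks)) := by
  have hlen := length_filter_ne hX.1 ha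
  have hn : (X.filter (· ≠ (a : ℕ))).length = X.length - 1 := by omega
  unfold childZ
  by_cases hc : γ.length + 1 = d
  · rw [if_pos hc, child_pos (by rw [card_fs hγ]; exact hc), hn, fs_filter, FM_cons, fs_cons,
      yMZ_sub]
  · rw [if_neg hc, child_neg (by rw [card_fs hγ]; exact hc), hn, fs_filter, fs_cons]

end value

/-! ### Evaluation at a square root -/

section sign

theorem negT_iff {A B y : ℤ} {t : ℝ} (ht : 0 < t) (hy : t * t = y) :
    negT A B y = true ↔ (A : ℝ) + B * t < 0 := by
  have e1 : ∀ A B : ℤ, (B * B * y < A * A) ↔ (B : ℝ) * t * (B * t) < (A : ℝ) * A := by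
    intro A B
    have : (B : ℝ) * t * (B * t) = ((B * B * y : ℤ) : ℝ) := by
      push_cast; rw [← hy]; ring
    rw [this, ← Int.cast_mul, Int.cast_lt]
  have e2 : ∀ A B : ℤ, (A * A < B * B * y) ↔ (A : ℝ) * A < (B : ℝ) * t * (B * t) := by
    intro A B
    have : (B : ℝ) * t * (B * t) = ((B * B * y : ℤ) : ℝ) := by
      push_cast; rw [← hy]; ring
    rw [this, ← Int.cast_mul, Int.cast_lt]
  unfold negT
  split_ifs with hA
  · rw [decide_eq_true_eq, e1]
    have hA' : (A : ℝ) < 0 := by exact_mod_cast hA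
    rcases le_or_gt B 0 with hB | hB
    · have hB' : (B : ℝ) ≤ 0 := by exact_mod_cast hB
      simp only [hB, true_or, true_iff]
      have := mul_nonpos_of_nonpos_of_nonneg hB' ht.le
      linarith only [hA', this]
    · have hB' : (0 : ℝ) < B := by exact_mod_cast hB
      simp only [not_le.mpr hB, false_or]
      have h1 : 0 < (B : ℝ) * t := mul_pos hB' ht
      have h2 : (A : ℝ) * A = -A * -A := by ring
      rw [h2, ← mul_self_lt_mul_self_iff h1.le (by linarith only [hA'])]
      constructor <;> intro h <;> linarith only [h]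
  · rw [decide_eq_true_eq, e2]
    have hA' : (0 : ℝ) ≤ A := by exact_mod_cast not_lt.mp hA
    rcases lt_or_ge B 0 with hB | hB
    · have hB' : (B : ℝ) < 0 := by exact_mod_cast hB
      simp only [hB, true_and]
      have h1 : 0 < -((B : ℝ) * t) := by
        have := mul_neg_of_neg_of_pos hB' ht
        linarith only [this]
      have h2 : (B : ℝ) * t * (B * t) = -(B * t) * -(B * t) := by ring
      rw [h2, ← mul_self_lt_mul_self_iff hA' h1.le]
      constructor <;> intro h <;> linarith only [h]
    · have hB' : (0 : ℝ) ≤ B := by exact_mod_cast hB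
      simp only [not_lt.mpr hB, false_and, false_iff, not_lt]
      have := mul_nonneg hB' ht.le
      linarith only [hA', this]

theorem ypow_eq {y : ℤ} {n k : ℕ} (h : k ≤ n) : ypow y (List.range n) k = y ^ k := by
  unfold ypow
  rw [filter_range h, List.map_const', List.prod_replicate, List.length_range]

theorem evL_eq (y : ℤ) (n : ℕ) (a : ℕ → ℤ) :
    evL y (List.range n) ((List.range n).map a) =
      ∑ k ∈ Finset.range n, a k * (if k % 2 = 0 then y ^ (k / 2) else 0) := by
  unfold evL
  rw [dot_range _ _ le_rfl]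
  apply Finset.sum_congr rfl
  intro k hk
  rw [Finset.mem_range] at hk
  rw [ypow_eq (by omega)]

theorem odL_eq (y : ℤ) (n : ℕ) (a : ℕ → ℤ) :
    odL y (List.range n) ((List.range n).map a) =
      ∑ k ∈ Finset.range n, a k * (if k % 2 = 0 then 0 else y ^ (k / 2)) := by
  unfold odL
  rw [dot_range _ _ le_rfl]
  apply Finset.sum_congr rfl
  intro k hk
  rw [Finset.mem_range] at hk
  rw [ypow_eq (by omega)]

theorem eval_sqrt (p : ℤ[X]) {n : ℕ} (hn : p.natDegree < n) {y : ℤ} {t : ℝ} (hy : t * t = y) :
    (p.map (Int.castRingHom ℝ)).eval t =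
      ((evL y (List.range n) ((List.range n).map fun k => p.coeff k) : ℤ) : ℝ) +
      ((odL y (List.range n) ((List.range n).map fun k => p.coeff k) : ℤ) : ℝ) * t := by
  rw [Polynomial.eval_eq_sum_range' (lt_of_le_of_lt Polynomial.natDegree_map_le hn), evL_eq,
    odL_eq]
  push_cast
  rw [Finset.sum_mul, ← Finset.sum_add_distrib]
  apply Finset.sum_congr rfl
  intro k _
  rw [Polynomial.coeff_map, eq_intCast]
  have hk : t ^ k = t ^ (k % 2) * (y : ℝ) ^ (k / 2) := by
    rw [← hy, ← sq, ← pow_mul, ← pow_add]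
    congr 1
    omega
  rw [hk]
  rcases Nat.mod_two_eq_zero_or_one k with h | h
  · rw [h]; simp
  · rw [h]; simp only [pow_one, one_ne_zero, ↓reduceIte, mul_zero, zero_add]; ring

end sign

/-! ### Correctness of the sign test -/

section main

variable {d m q o : ℕ}

theorem valG_childZ (hd : 2 ≤ d) {X₀ : List ℕ} (hX₀ : ListOK m X₀) (hdiv : d ∣ X₀.length)
    (hev : (m - o) % 2 = 0) {blocks : List (List ℕ)} {X γ : List ℕ} (hX : ListOK m X)
    (hγ : ListOK m γ) (hdisj : ∀ x ∈ X, x ∉ γ) (hlt : γ.length < d)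
    (hdvd : d ∣ X.length + γ.length) {a : Fin m} (ha : (a : ℕ) ∈ X) (x : ℤ) :
    valG d (x * x) (zsS (pairsL o (List.range m)) x) (List.range m) X₀ q (d + 1)
      (X.filter (· ≠ (a : ℕ))) ((a : ℕ) :: γ) blocks =
      (childZ d m q o X₀ X γ blocks a).eval x := by
  have hlen := length_filter_ne hX.1 ha
  have haγ : (a : ℕ) ∉ γ := hdisj a ha
  have hev' : ∀ (n : ℕ) (X' γ' : Finset (Fin m)) (bl : List (List ℕ)),
      ordSum d (restSum d (fs m X₀) q) n X' γ'
        (entryMat m (x * x) bl (zsS (pairsL o (List.range m)) x)) =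
      (ordSum d (restSum d (fs m X₀) q) n X' γ' (yMZ (ptF m o) (FM ℤ m bl))).eval x := by
    intro n X' γ' bl
    rw [entryMat_zsS x hev, ← yMZ_eval]
    exact (ordSum_map (Polynomial.evalRingHom x) d (restSum d (fs m X₀) q)
      (restSum d (fs m X₀) q) (restSum_map (Polynomial.evalRingHom x) d (fs m X₀) q) n X' γ'
      (yMZ (ptF m o) (FM ℤ m bl))).symm
  rw [childZ_cases X₀ hX hγ blocks ha, valG_eq hd _ _ hX₀ hdiv (hX.filter _) (hγ.cons haγ)
    ?_ ?_ ?_ ?_ (by simp)]
  · simp only [List.length_cons, hev']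
    split_ifs <;> rfl
  · intro x hx
    simp only [List.mem_filter, ne_eq, decide_not, Bool.not_eq_eq_eq_not, Bool.not_true,
      decide_eq_false_iff_not] at hx
    simp only [List.mem_cons, not_or]
    exact ⟨hx.2, hdisj x hx.1⟩
  · simp only [List.length_cons]; omega
  · simp only [List.length_cons]
    have h1 : (X.filter (· ≠ (a : ℕ))).length + (γ.length + 1) = X.length + γ.length := by omega
    rw [h1]; exact hdvd
  · simp only [List.length_cons]; omega

theorem length_le_of_ok {l : List ℕ} (h : ListOK m l) : l.length ≤ m := by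
  rw [← card_fs h]
  exact (Finset.card_le_univ _).trans (by simp only [Fintype.card_fin, Std.le_refl])

theorem childZ_bound (hd : 2 ≤ d) {X₀ : List ℕ} (hX₀ : ListOK m X₀) (hdiv : d ∣ X₀.length)
    {blocks : List (List ℕ)} {X γ : List ℕ} (hX : ListOK m X)
    (hγ : ListOK m γ) {a : Fin m} (ha : (a : ℕ) ∈ X) (k : ℕ) :
    2 * |(childZ d m q o X₀ X γ blocks a).coeff k| < bigX q (List.range m) blocks := by
  obtain ⟨r, hr⟩ := hdiv
  have hcard₀ : (fs m X₀).card = d * r := by rw [card_fs hX₀, hr]
  obtain ⟨h0, h1⟩ := le_absSum (entryMat m 0 blocks [])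
  have hF0 : entryMat m 0 blocks [] = -FM ℤ m blocks := by
    rw [entryMat_blocks, neg_eq_zero_sub]
    congr 1
    refine Matrix.ext (fun i k => ?_)
    simp [entryMat, entry]
  unfold bigX
  rw [matL_eq, base_eq, List.length_range]
  obtain ⟨N, hN⟩ : ∃ N : ℕ, absSum (rows (entryMat m 0 blocks [])) = N :=
    ⟨(absSum (rows (entryMat m 0 blocks []))).natAbs, by omega⟩
  rw [hN] at h1 ⊢
  have hF : ∀ i k, (FM ℤ m blocks i k).natAbs ≤ N := by
    intro i k
    have := h1 i k
    rw [hF0, Matrix.neg_apply, abs_neg, Int.abs_eq_natAbs] at this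
    omega
  have hF1 : ∀ (b : List ℕ) i k, (FM ℤ m (b :: blocks) i k).natAbs ≤ N + 1 := by
    intro b i k
    rw [FM_cons, Matrix.add_apply]
    have h2 := hF i k
    have h3 : (outer ℤ (fs m b) i k).natAbs ≤ 1 := by
      simp only [outer, Matrix.of_apply]
      split_ifs <;> simp
    have h4 := Int.natAbs_add_le (outer ℤ (fs m b) i k) (FM ℤ m blocks i k)
    omega
  have hlen : (X.filter (· ≠ (a : ℕ))).length ≤ m := length_le_of_ok (hX.filter _)
  have hb : ((childZ d m q o X₀ X γ blocks a).coeff k).natAbs ≤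
      (m ^ (q + 2) * (N + 1 + q + m + 2)) ^ m := by
    rw [childZ_cases X₀ hX hγ blocks ha]
    split_ifs
    · exact node_coeff_bound (by omega) hcard₀ hlen (hF1 _) k
    · exact node_coeff_bound (by omega) hcard₀ hlen (fun i k => (hF i k).trans (by omega)) k
  have h3 : (m ^ (q + 2) * (N + 1 + q + m + 2)) ^ m ≤
      ((m + 1) ^ (q + 2) * (N + m + 3 + (q + 1) + 3)) ^ m := by
    apply Nat.pow_le_pow_left
    apply Nat.mul_le_mul
    · exact Nat.pow_le_pow_left (by omega) _
    · omega
  have h4 : 0 < ((m + 1) ^ (q + 2) * (N + m + 3 + (q + 1) + 3)) ^ m := by (clear * -; positivity)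
  have h5 : (((m : ℤ) + 1) ^ (q + 1 + 1) * ((N : ℤ) + m + 3 + ((q + 1 : ℕ) : ℤ) + 3)) ^ m =
      ((((m + 1) ^ (q + 2) * (N + m + 3 + (q + 1) + 3)) ^ m : ℕ) : ℤ) := by
    push_cast; ring
  rw [h5, Int.abs_eq_natAbs]
  have h6 : 2 * ((childZ d m q o X₀ X γ blocks a).coeff k).natAbs <
      5 * ((m + 1) ^ (q + 2) * (N + m + 3 + (q + 1) + 3)) ^ m := by omega
  exact_mod_cast h6

theorem childZ_natDegree (hd : 2 ≤ d) {X₀ : List ℕ} (hX₀ : ListOK m X₀) (hdiv : d ∣ X₀.length)
    {blocks : List (List ℕ)} {X γ : List ℕ} (hX : ListOK m X)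
    (hγ : ListOK m γ) {a : Fin m} (ha : (a : ℕ) ∈ X) :
    (childZ d m q o X₀ X γ blocks a).natDegree < 2 * m + 1 := by
  obtain ⟨r, hr⟩ := hdiv
  have hcard₀ : (fs m X₀).card = d * r := by rw [card_fs hX₀, hr]
  rw [childZ_cases X₀ hX hγ blocks ha]
  split_ifs
  · exact node_natDegree (by omega) hcard₀
  · exact node_natDegree (by omega) hcard₀

theorem coefsS_eq (hd : 2 ≤ d) {X₀ : List ℕ} (hX₀ : ListOK m X₀) (hdiv : d ∣ X₀.length)
    (hev : (m - o) % 2 = 0) {blocks : List (List ℕ)} {X γ : List ℕ} (hX : ListOK m X)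
    (hγ : ListOK m γ) (hdisj : ∀ x ∈ X, x ∉ γ) (hlt : γ.length < d)
    (hdvd : d ∣ X.length + γ.length) {a : Fin m} (ha : (a : ℕ) ∈ X) :
    coefsS d (pairsL o (List.range m)) (List.range m) X₀ q (X.filter (· ≠ (a : ℕ)))
      ((a : ℕ) :: γ) blocks = (List.range (2 * m + 1)).map fun k =>
        (childZ d m q o X₀ X γ blocks a).coeff k := by
  unfold coefsS idxL
  rw [valG_childZ hd hX₀ hdiv hev hX hγ hdisj hlt hdvd ha,
    digitsL_coeff _ _ (fun k => childZ_bound hd hX₀ hdiv hX hγ ha k)]
  rw [List.length_range, List.length_range]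

theorem childZ_map {X₀ X γ : List ℕ} {blocks : List (List ℕ)} {a : Fin m} :
    (childZ d m q o X₀ X γ blocks a).map (Int.castRingHom ℝ) =
      child d (restSum d (fs m X₀) q) (X.length - 1) (fs m X) (fs m γ)
        (yM (ptF m o) (FM ℝ m blocks)) a := by
  have h : ∀ (n : ℕ) (X' γ' : Finset (Fin m)) (A : Matrix (Fin m) (Fin m) ℤ[X]),
      (ordSum d (restSum d (fs m X₀) q) n X' γ' A).map (Int.castRingHom ℝ) =
      ordSum d (restSum d (fs m X₀) q) n X' γ'
        (A.map (Polynomial.mapRingHom (Int.castRingHom ℝ))) := by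
    intro n X' γ' A
    exact ordSum_map (Polynomial.mapRingHom (Int.castRingHom ℝ)) d (restSum d (fs m X₀) q)
      (restSum d (fs m X₀) q)
      (restSum_map (Polynomial.mapRingHom (Int.castRingHom ℝ)) d (fs m X₀) q) n X' γ' A
  unfold childZ
  by_cases hc : (fs m γ).card + 1 = d
  · rw [child_pos hc, child_pos hc, h]
    congr 1
    rw [← FM_map, ← yMZ_map, ← outer_map (Polynomial.mapRingHom (Int.castRingHom ℝ))]
    refine Matrix.ext (fun i k => ?_)
    simp only [Matrix.map_apply, Matrix.sub_apply, map_sub]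
  · rw [child_neg hc, child_neg hc, h, yMZ_map, FM_map]

/-- The sign test of the algorithm. -/
theorem negS_iff (hd : 2 ≤ d) {X₀ : List ℕ} (hX₀ : ListOK m X₀) (hdiv : d ∣ X₀.length)
    (hev : (m - o) % 2 = 0) {blocks : List (List ℕ)} {X γ : List ℕ} (hX : ListOK m X)
    (hγ : ListOK m γ) (hdisj : ∀ x ∈ X, x ∉ γ) (hlt : γ.length < d)
    (hdvd : d ∣ X.length + γ.length) {a : Fin m} (ha : (a : ℕ) ∈ X) :
    negS d (pairsL o (List.range m)) (List.range m) X₀ q (X.filter (· ≠ (a : ℕ)))
      ((a : ℕ) :: γ) blocks = true ↔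
    (child d (restSum d (fs m X₀) q) (X.length - 1) (fs m X) (fs m γ)
      (yM (ptF m o) (FM ℝ m blocks)) a).eval (2 * Real.sqrt ((d : ℝ) - 1)) < 0 := by
  have hd2 : (2 : ℝ) ≤ d := by exact_mod_cast hd
  have hpos : 0 < (d : ℝ) - 1 := by linarith only [hd2]
  have ht : 0 < 2 * Real.sqrt ((d : ℝ) - 1) := by
    have := Real.sqrt_pos.mpr hpos
    linarith only [this]
  have hy : 2 * Real.sqrt ((d : ℝ) - 1) * (2 * Real.sqrt ((d : ℝ) - 1)) =
      ((4 * ((d : ℤ) - 1) : ℤ) : ℝ) := by
    push_cast
    have := Real.mul_self_sqrt hpos.le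
    linear_combination 4 * this
  unfold negS
  rw [coefsS_eq hd hX₀ hdiv hev hX hγ hdisj hlt hdvd ha, negT_iff ht hy, ← childZ_map]
  unfold idxL
  rw [List.length_range, eval_sqrt _ (childZ_natDegree hd hX₀ hdiv hX hγ ha) hy]

end main

end Vale.Agent.P049
end
end
end

section

section

section

/-! The concrete pairing: the vertices `≥ o` are paired consecutively. -/

namespace Vale.Agent.P049

theorem ptN_eq_iff {o i : ℕ} : ptN o i = i ↔ i < o := by
  unfold ptN
  split_ifs <;> omega

variable {o d m : ℕ}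

theorem ev_of (hd : Even d) (hm : m = o + d) : (m - o) % 2 = 0 := by
  obtain ⟨e, rfl⟩ := hd
  omega

theorem ptF_eq_iff (hd : Even d) (hm : m = o + d) (i : Fin m) : ptF m o i = i ↔ (i : ℕ) < o := by
  rw [Fin.ext_iff, ptF_val (ev_of hd hm), ptN_eq_iff]

theorem pdeg_ptF (hd : Even d) (hm : m = o + d) (i : Fin m) :
    pdeg (ptF m o) i = if (i : ℕ) < o then 0 else 1 := by
  unfold pdeg
  simp only [ptF_eq_iff hd hm i]

end Vale.Agent.P049
end
end
end

section

section

section

/-! The initial blocks satisfy the invariant (with a pairing). -/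

namespace Vale.Agent.P049

open Finset

variable {d r s m : ℕ}

/-- centre of the star number `t` -/
def cenS (d r s t : ℕ) : ℕ := if t < d * s then d * r + t / d else d * r + s + (t - d * s) / (d - 1)

/-- a star block -/
def starBlkS (d m r s t : ℕ) : List ℕ :=
  cenS d r s t :: (List.range m).filter fun x => t * (d - 1) ≤ x ∧ x < (t + 1) * (d - 1)

/-- numerical facts -/
structure NumS (d r s m : ℕ) : Prop where
  hd : 3 ≤ d
  he : Even d
  hm : m = d * r + s + d
  hs : s < d
  hr : (d - 1) * (s + (d - 1)) < r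

namespace NumS

theorem base_le (h : NumS d r s m) : d * (s + (d - 1)) * (d - 1) ≤ d * r := by
  rw [mul_assoc]
  exact Nat.mul_le_mul_left _ (by rw [mul_comm]; exact h.hr.le)

theorem plain_le (h : NumS d r s m) {t : ℕ} (ht : t < r - (d - 1) * (s + (d - 1))) :
    d * (s + (d - 1)) * (d - 1) + (t + 1) * d ≤ d * r := by
  have h1 : t + 1 + (s + (d - 1)) * (d - 1) ≤ r := by
    have := h.hr; rw [mul_comm (s + (d - 1))]; omega
  calc d * (s + (d - 1)) * (d - 1) + (t + 1) * d = d * (t + 1 + (s + (d - 1)) * (d - 1)) := by ring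
    _ ≤ d * r := Nat.mul_le_mul_left _ h1

theorem star_le (h : NumS d r s m) {t : ℕ} (ht : t < d * (s + (d - 1))) :
    (t + 1) * (d - 1) ≤ d * (s + (d - 1)) * (d - 1) := Nat.mul_le_mul_right _ ht

theorem le_m (h : NumS d r s m) : d * r ≤ m := by rw [h.hm]; omega

theorem hm' (h : NumS d r s m) : m = (d * r + s) + d := h.hm

theorem ds_le (h : NumS d r s m) : d * (s + (d - 1)) ≤ m := by
  have hd := h.hd
  have h1 : d * (s + (d - 1)) ≤ d * (s + (d - 1)) * (d - 1) :=
    Nat.le_mul_of_pos_right _ (by omega)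
  exact h1.trans (h.base_le.trans h.le_m)

theorem rs_le (h : NumS d r s m) : r - (d - 1) * (s + (d - 1)) ≤ m := by
  have h1 : r ≤ d * r := Nat.le_mul_of_pos_left r (by have := h.hd; omega)
  have := h.le_m
  omega

theorem cen_ge (t : ℕ) : d * r ≤ cenS d r s t := by
  unfold cenS
  split_ifs
  · exact Nat.le_add_right _ _
  · rw [add_assoc]; exact Nat.le_add_right _ _

theorem ds_eq (_ : NumS d r s m) : d * (s + (d - 1)) = d * s + d * (d - 1) := mul_add _ _ _

theorem cen_lt (h : NumS d r s m) {t : ℕ} (ht : t < d * (s + (d - 1))) : cenS d r s t < m := by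
  have hd := h.hd
  have hm := h.hm
  unfold cenS
  split_ifs with h1
  · have : t / d < s := by rw [Nat.div_lt_iff_lt_mul (by omega), mul_comm]; exact h1
    omega
  · have h2 := h.ds_eq
    have : (t - d * s) / (d - 1) < d := by
      rw [Nat.div_lt_iff_lt_mul (by omega)]
      omega
    omega

end NumS

theorem starBlkS_ok (h : NumS d r s m) {t : ℕ} (ht : t < d * (s + (d - 1))) :
    (starBlkS d m r s t).length = d ∧ ListOK m (starBlkS d m r s t) := by
  have h1 := (h.star_le ht).trans h.base_le
  have h2 := h.cen_lt ht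
  have h3 := h.le_m
  have hd := h.hd
  unfold starBlkS
  refine ⟨?_, ?_, ?_⟩
  · rw [List.length_cons, filter_Ico_length (h1.trans h3)]
    have : (t + 1) * (d - 1) - t * (d - 1) = d - 1 := by
      rw [add_mul, one_mul]; omega
    (clear * - hd this; omega)
  · rw [List.nodup_cons]
    refine ⟨?_, List.nodup_range.filter _⟩
    simp only [List.mem_filter, List.mem_range, decide_eq_true_eq]
    rintro ⟨_, _, h4⟩
    have := NumS.cen_ge (d := d) (r := r) (s := s) t
    omega
  · intro x hx
    simp only [List.mem_cons, List.mem_filter, List.mem_range, decide_eq_true_eq] at hx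
    rcases hx with rfl | hx
    · exact h2
    · exact hx.1

theorem plainBlkS_ok (h : NumS d r s m) {t : ℕ} (ht : t < r - (d - 1) * (s + (d - 1))) :
    (plainBlk d m (s + (d - 1)) t).length = d ∧ ListOK m (plainBlk d m (s + (d - 1)) t) := by
  have h1 := h.plain_le ht
  have h3 := h.le_m
  unfold plainBlk
  refine ⟨?_, List.nodup_range.filter _, ?_⟩
  · rw [filter_Ico_length (h1.trans h3), add_mul, one_mul]
    omega
  · intro x hx
    simp only [List.mem_filter, List.mem_range, decide_eq_true_eq] at hx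
    exact hx.1

/-- the initial blocks -/
def initBS (d r s m : ℕ) : List (List ℕ) :=
  (List.range (r - (d - 1) * (s + (d - 1)))).map (plainBlk d m (s + (d - 1))) ++
    (List.range (d * (s + (d - 1)))).map (starBlkS d m r s)

theorem initBS_ok (h : NumS d r s m) : ∀ b ∈ initBS d r s m, b.length = d ∧ ListOK m b := by
  intro b hb
  unfold initBS at hb
  rw [List.mem_append, List.mem_map, List.mem_map] at hb
  rcases hb with ⟨t, ht, rfl⟩ | ⟨t, ht, rfl⟩
  · exact plainBlkS_ok h (List.mem_range.1 ht)
  · exact starBlkS_ok h (List.mem_range.1 ht)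

theorem mem_starBlkS {v t : ℕ} (hv : v < m) :
    v ∈ starBlkS d m r s t ↔ v = cenS d r s t ∨ (t * (d - 1) ≤ v ∧ v < (t + 1) * (d - 1)) := by
  unfold starBlkS
  simp only [List.mem_cons, List.mem_filter, List.mem_range, decide_eq_true_eq, hv, true_and]

theorem count_initBS (h : NumS d r s m) {v : ℕ} (hv : v < m) :
    ((initBS d r s m).filter fun b => decide (v ∈ b)).length =
      if v < d * r then 1 else if v < d * r + s then d else d - 1 := by
  have hd := h.hd
  have hbase := h.base_le
  unfold initBS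
  rw [List.filter_append, List.length_append, count_map, count_map]
  simp only [mem_starBlkS hv, mem_plainBlk hv]
  set s1 := s + (d - 1) with hs1
  by_cases hvr : v < d * r
  · rw [if_pos hvr]
    by_cases hvb : v < d * s1 * (d - 1)
    · have e1 : (Finset.range (r - (d - 1) * s1)).filter (fun t =>
          d * s1 * (d - 1) + t * d ≤ v ∧ v < d * s1 * (d - 1) + (t + 1) * d) = ∅ := by
        apply filter_eq_empty_iff.2
        intro t _ ht
        have := ht.1
        have h5 : 0 ≤ t * d := Nat.zero_le _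
        omega
      have e2 : (Finset.range (d * s1)).filter (fun t =>
          v = cenS d r s t ∨ (t * (d - 1) ≤ v ∧ v < (t + 1) * (d - 1))) = {v / (d - 1)} := by
        ext t
        simp only [mem_filter, Finset.mem_range, mem_singleton]
        constructor
        · rintro ⟨_, h1 | ⟨h1, h2⟩⟩
          · have := NumS.cen_ge (d := d) (r := r) (s := s) t
            omega
          · exact (Nat.div_eq_of_lt_le h1 h2).symm
        · rintro rfl
          have h1 := Nat.div_mul_le_self v (d - 1)
          refine ⟨?_, Or.inr ⟨h1, ?_⟩⟩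
          · rw [Nat.div_lt_iff_lt_mul (by omega)]; exact hvb
          · exact Nat.lt_mul_of_div_lt (Nat.lt_succ_self _) (by omega)
      rw [e1, e2]
      simp
    · push Not at hvb
      have e1 : (Finset.range (r - (d - 1) * s1)).filter (fun t =>
          d * s1 * (d - 1) + t * d ≤ v ∧ v < d * s1 * (d - 1) + (t + 1) * d) =
          {(v - d * s1 * (d - 1)) / d} := by
        ext t
        simp only [mem_filter, Finset.mem_range, mem_singleton]
        constructor
        · rintro ⟨_, h1, h2⟩
          exact (Nat.div_eq_of_lt_le (by omega) (by omega)).symm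
        · rintro rfl
          have h1 := Nat.div_mul_le_self (v - d * s1 * (d - 1)) d
          have h2 : v - d * s1 * (d - 1) < ((v - d * s1 * (d - 1)) / d + 1) * d :=
            Nat.lt_mul_of_div_lt (Nat.lt_succ_self _) (by omega)
          refine ⟨?_, by omega, by omega⟩
          rw [Nat.div_lt_iff_lt_mul (by omega)]
          have h3 : (r - (d - 1) * s1) * d + d * s1 * (d - 1) = d * r := by
            rw [Nat.sub_mul]
            have h4 : (d - 1) * s1 * d ≤ r * d := Nat.mul_le_mul_right _ h.hr.le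
            have h5 : (d - 1) * s1 * d = d * s1 * (d - 1) := by ring
            have h6 : r * d = d * r := mul_comm _ _
            omega
          omega
      have e2 : (Finset.range (d * s1)).filter (fun t =>
          v = cenS d r s t ∨ (t * (d - 1) ≤ v ∧ v < (t + 1) * (d - 1))) = ∅ := by
        apply filter_eq_empty_iff.2
        rintro t ht (h1 | ⟨h1, h2⟩)
        · have := NumS.cen_ge (d := d) (r := r) (s := s) t
          omega
        · have h4 : (t + 1) * (d - 1) ≤ d * s1 * (d - 1) := h.star_le (Finset.mem_range.1 ht)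
          omega
      rw [e1, e2]
      simp only [card_singleton, card_empty, add_zero]
  · rw [if_neg hvr]
    push Not at hvr
    have hpl : ∀ t, t < r - (d - 1) * s1 → d * s1 * (d - 1) + (t + 1) * d ≤ d * r :=
      fun t ht => h.plain_le ht
    have hst : ∀ t, t < d * s1 → (t + 1) * (d - 1) ≤ d * s1 * (d - 1) := fun t ht => h.star_le ht
    have e1 : (Finset.range (r - (d - 1) * s1)).filter (fun t =>
        d * s1 * (d - 1) + t * d ≤ v ∧ v < d * s1 * (d - 1) + (t + 1) * d) = ∅ := by
      apply filter_eq_empty_iff.2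
      rintro t ht ⟨h1, h2⟩
      have := hpl t (Finset.mem_range.1 ht)
      omega
    have hdse : d * s1 = d * s + d * (d - 1) := h.ds_eq
    have e0 : ∀ t ∈ Finset.range (d * s1), (v = cenS d r s t ∨
        (t * (d - 1) ≤ v ∧ v < (t + 1) * (d - 1))) ↔ v = cenS d r s t := by
      intro t ht
      constructor
      · rintro (h1 | ⟨h1, h2⟩)
        · exact h1
        · have := hst t (Finset.mem_range.1 ht)
          omega
      · exact Or.inl
    rw [e1, filter_congr e0, card_empty, zero_add]
    by_cases hvs : v < d * r + s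
    · rw [if_pos hvs]
      have e2 : (Finset.range (d * s1)).filter (fun t => v = cenS d r s t) =
          Ico (d * (v - d * r)) (d * (v - d * r) + d) := by
        ext t
        simp only [mem_filter, Finset.mem_range, mem_Ico]
        constructor
        · rintro ⟨h0, h1⟩
          unfold cenS at h1
          split_ifs at h1 with hts
          · have h3 : t / d = v - d * r := by omega
            rw [← h3]
            have h4 := Nat.div_add_mod t d
            have h5 := Nat.mod_lt t (by omega : 0 < d)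
            omega
          · exfalso
            have h9 : d * r + s ≤ d * r + s + (t - d * s) / (d - 1) := Nat.le_add_right _ _
            omega
        · rintro ⟨h1, h2⟩
          have h3 : t / d = v - d * r := by
            apply Nat.div_eq_of_lt_le
            · rw [mul_comm]; exact h1
            · rw [add_mul, one_mul, mul_comm]; exact h2
          have h4 : v - d * r + 1 ≤ s := by omega
          have h5 := Nat.mul_le_mul_left d h4
          rw [mul_add, mul_one] at h5
          have h6 : t < d * s := by omega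
          refine ⟨by omega, ?_⟩
          unfold cenS
          rw [if_pos h6]
          omega
      rw [e2, Nat.card_Ico]
      (clear * - hd; omega)
    · rw [if_neg hvs]
      push Not at hvs
      have e2 : (Finset.range (d * s1)).filter (fun t => v = cenS d r s t) =
          Ico (d * s + (d - 1) * (v - (d * r + s))) (d * s + (d - 1) * (v - (d * r + s)) + (d - 1)) := by
        ext t
        simp only [mem_filter, Finset.mem_range, mem_Ico]
        constructor
        · rintro ⟨h0, h1⟩
          unfold cenS at h1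
          split_ifs at h1 with hts
          · have h3 : t / d < s := by
              rw [Nat.div_lt_iff_lt_mul (by omega), mul_comm]; exact hts
            omega
          · have h3 : (t - d * s) / (d - 1) = v - (d * r + s) := by omega
            rw [← h3]
            have h4 := Nat.div_add_mod (t - d * s) (d - 1)
            have h5 := Nat.mod_lt (t - d * s) (by omega : 0 < d - 1)
            omega
        · rintro ⟨h1, h2⟩
          have h3 : (t - d * s) / (d - 1) = v - (d * r + s) := by
            apply Nat.div_eq_of_lt_le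
            · rw [mul_comm (v - (d * r + s))]; omega
            · rw [add_mul, one_mul, mul_comm (v - (d * r + s))]; omega
          have h4 : v - (d * r + s) + 1 ≤ d := by have := h.hm; omega
          have h5 := Nat.mul_le_mul_left (d - 1) h4
          rw [mul_add, mul_one, mul_comm (d - 1) d] at h5
          refine ⟨by omega, ?_⟩
          unfold cenS
          rw [if_neg (by omega)]
          omega
      rw [e2, Nat.card_Ico]
      omega

theorem initBS_cons (h : NumS d r s m) :
    ∃ rest, initBS d r s m = plainBlk d m (s + (d - 1)) 0 :: rest := by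
  have := h.hr
  obtain ⟨k, hk⟩ : ∃ k, r - (d - 1) * (s + (d - 1)) = k + 1 :=
    ⟨r - (d - 1) * (s + (d - 1)) - 1, by omega⟩
  unfold initBS
  rw [hk, List.range_succ_eq_map, List.map_cons]
  exact ⟨_, rfl⟩

theorem out_leS (h : NumS d r s m) {b : List ℕ} (hb : b ∈ initBS d r s m) :
    (fs m b \ fs m (List.range (d * r))).card ≤ 1 := by
  unfold initBS at hb
  rw [List.mem_append, List.mem_map, List.mem_map] at hb
  rw [Finset.card_le_one]
  rcases hb with ⟨t, ht, rfl⟩ | ⟨t, ht, rfl⟩
  · intro x hx
    rw [mem_sdiff, mem_fs, mem_fs, List.mem_range, mem_plainBlk x.2] at hx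
    have := h.plain_le (List.mem_range.1 ht)
    exact absurd (lt_of_lt_of_le hx.1.2 this) hx.2
  · have key : ∀ x ∈ fs m (starBlkS d m r s t) \ fs m (List.range (d * r)),
        (x : ℕ) = cenS d r s t := by
      intro x hx
      rw [mem_sdiff, mem_fs, mem_fs, List.mem_range, mem_starBlkS x.2] at hx
      rcases hx.1 with h1 | h1
      · exact h1
      · have h2 := h.star_le (List.mem_range.1 ht)
        have h3 := h.base_le
        exact absurd (lt_of_lt_of_le h1.2 (h2.trans h3)) hx.2
    intro x hx y hy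
    exact Fin.ext ((key x hx).trans (key y hy).symm)

/-- The initial blocks satisfy the invariant with `d - 1` random pieces to come. -/
theorem init_invS (h : NumS d r s m) :
    PInvS m d (d - 1) (ptF m (d * r + s)) (List.range (d * r)) (initBS d r s m) := by
  have hd := h.hd
  have hok := initBS_ok h
  have hX₀ : ListOK m (List.range (d * r)) :=
    ⟨List.nodup_range, fun x hx => (List.mem_range.1 hx).trans_le h.le_m⟩
  have hd1 : ((d - 1 : ℕ) : ℝ) = (d : ℝ) - 1 := by
    rw [Nat.cast_sub (by omega)]; simp only [Nat.cast_one]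
  have hpd := pdeg_ptF h.he h.hm'
  have hcol : ∀ v, ∑ i, FM ℝ m (initBS d r s m) i v +
      d * (d - 1 : ℕ) * (if v ∈ fs m (List.range (d * r)) then 1 else 0) =
        (d : ℝ) * (d - pdeg (ptF m (d * r + s)) v) := by
    intro v
    rw [FM_colSum hok v, count_initBS h v.2, hpd v]
    simp only [mem_fs, List.mem_range, hd1]
    split_ifs with h1 h2 h2
    · push_cast; ring
    · omega
    · push_cast; ring
    · rw [hd1]; push_cast; ring
  obtain ⟨rest, hrest⟩ := initBS_cons h
  have hplain0 : (0 : ℕ) < r - (d - 1) * (s + (d - 1)) := by have := h.hr; (clear * - this; omega)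
  have hFM : FM ℝ m (initBS d r s m) =
      sumOuter ℝ (fs m (plainBlk d m (s + (d - 1)) 0) ::ₘ
        ((rest.map (fs m) : List (Finset (Fin m))) : Multiset (Finset (Fin m)))) := by
    unfold FM
    rw [hrest, List.map_cons, ← Multiset.cons_coe]
  have hmult : (fs m (plainBlk d m (s + (d - 1)) 0) ::ₘ
      ((rest.map (fs m) : List (Finset (Fin m))) : Multiset (Finset (Fin m)))) =
      (((initBS d r s m).map (fs m) : List (Finset (Fin m))) : Multiset (Finset (Fin m))) := by
    rw [hrest, List.map_cons, ← Multiset.cons_coe]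
  have hbase : d * (s + (d - 1)) * (d - 1) < m := by
    have h1 := h.plain_le hplain0
    have h2 := h.le_m
    have : 0 < (0 + 1) * d := by omega
    (clear * - hd h1 h2; omega)
  refine ⟨hok, hcol, ?_⟩
  rw [hFM]
  apply root_goodS hd (by omega) (by rw [card_fs hX₀]; simp)
    (l := ⟨d * (s + (d - 1)) * (d - 1), hbase⟩) _ (rd_nonneg d) (rd_sq hd).ge
  · rw [← hFM]; exact hcol
  · refine ⟨ptF_ptF (ev_of h.he h.hm'), ?_, ?_, ?_, ?_, ?_, ?_, ?_⟩
    · intro i hi
      rw [mem_fs, List.mem_range] at hi
      rw [ptF_eq_iff h.he h.hm']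
      omega
    · intro b hb
      rw [Multiset.mem_coe, List.mem_map] at hb
      obtain ⟨b, hb, rfl⟩ := hb
      have := hok b (by rw [hrest]; exact List.mem_cons_of_mem _ hb)
      rw [card_fs this.2, this.1]
    · intro b hb
      rw [Multiset.mem_coe, List.mem_map] at hb
      obtain ⟨b, hb, rfl⟩ := hb
      exact out_leS h (by rw [hrest]; exact List.mem_cons_of_mem _ hb)
    · intro v hv
      rw [mem_fs, List.mem_range] at hv
      rw [hmult, filter_coe_map, count_initBS h v.2, if_pos hv]
    · intro u hu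
      rw [mem_fs, List.mem_range] at hu
      have h1 : (((rest.map (fs m) : List (Finset (Fin m))) :
          Multiset (Finset (Fin m))).filter (u ∈ ·)).card ≤
            if (u : ℕ) < d * r + s then d else d - 1 := by
        refine (Multiset.card_le_card (Multiset.filter_le_filter _ (Multiset.le_cons_self _
          (fs m (plainBlk d m (s + (d - 1)) 0))))).trans ?_
        rw [hmult, filter_coe_map, count_initBS h u.2, if_neg hu]
      simp only [ptF_eq_iff h.he h.hm' u]
      split_ifs at h1 ⊢ with h2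
      · omega
      · omega
    · rw [mem_fs, mem_plainBlk hbase]
      constructor
      · simp only [zero_mul, add_zero, Std.le_refl]
      · have : 0 < (0 + 1) * d := by omega
        change d * (s + (d - 1)) * (d - 1) < _
        omega
    · intro v hv
      rw [mem_fs, mem_plainBlk v.2] at hv
      rw [mem_fs, List.mem_range]
      exact lt_of_lt_of_le hv.2 (h.plain_le hplain0)

theorem numS_of_large {d m : ℕ} (hd : 3 ≤ d) (he : Even d) (hm : 2 * d ^ 3 ≤ m) :
    NumS d ((m - d) / d) ((m - d) % d) m := by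
  have hd0 : 0 < d := by omega
  have h1 : (m - d) % d < d := Nat.mod_lt _ hd0
  have hdm : d ≤ 2 * d ^ 3 := by nlinarith only [hd, pow_succ d 2]
  have h3 : m - d = d * ((m - d) / d) + (m - d) % d := (Nat.div_add_mod _ _).symm
  refine ⟨hd, he, by omega, h1, ?_⟩
  have h2 : 2 * d ^ 2 - 1 ≤ (m - d) / d := by
    rw [Nat.le_div_iff_mul_le hd0]
    have : (2 * d ^ 2 - 1) * d + d = 2 * d ^ 3 := by
      rw [Nat.sub_mul, one_mul]
      have h4 : 2 * d ^ 2 * d = 2 * d ^ 3 := by ring
      have h5 : d ≤ 2 * d ^ 2 * d := Nat.le_mul_of_pos_left d (by positivity)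
      omega
    omega
  obtain ⟨e, rfl⟩ := Nat.exists_eq_add_of_le' (show 1 ≤ d by omega)
  have h5 : (m - (e + 1)) % (e + 1) ≤ e := by omega
  have h6 : (e + 1 - 1) * ((m - (e + 1)) % (e + 1) + (e + 1 - 1)) ≤ e * (e + e) := by
    rw [Nat.add_sub_cancel]; exact Nat.mul_le_mul_left _ (by omega)
  have h7 : e * (e + e) + 1 < 2 * (e + 1) ^ 2 := by nlinarith only []
  omega

end Vale.Agent.P049
end
end
end

section

section

section

/-! The final blocks give a graph of odd order with the upper Ramanujan bound. -/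

namespace Vale.Agent.P049

open Finset Matrix Polynomial

variable {m : ℕ}

/-- Final blocks: `m - 1` blocks of size `d`, every vertex in `d - pdeg` blocks. -/
theorem final_blocksS {d : ℕ} (hd : 3 ≤ d) {pt : Fin m → Fin m} (hpt : ∀ i, pt (pt i) = i)
    (hsum : ∑ v, pdeg pt v = d) {X₀ : List ℕ} {blocks : List (List ℕ)}
    (h : PInvS m d 0 pt X₀ blocks) : blocks.length + 1 = m ∧
      IsUpperRamanujan d (pairG pt hpt fun j : Fin blocks.length => fs m (blocks[(j : ℕ)])) := by
  have hd0 : (d : ℝ) ≠ 0 := by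
    have : (0 : ℝ) < d := by exact_mod_cast (by omega : 0 < d)
    exact this.ne'
  have hcol : ∀ v, ∑ i, FM ℝ m blocks i v = (d : ℝ) * (d - pdeg pt v) := fun v => by
    have := h.col v
    simpa only [CharP.cast_eq_zero, mul_zero, mul_ite, mul_one, ite_self, add_zero] using this
  have hm : blocks.length + 1 = m := by
    have h1 := FM_total h.bok
    simp only [hcol] at h1
    rw [← mul_sum, sum_sub_distrib, sum_const, card_univ, Fintype.card_fin, nsmul_eq_mul,
      ← Nat.cast_sum, hsum] at h1
    have h2 : (d : ℝ) ^ 2 ≠ 0 := pow_ne_zero _ hd0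
    have h3 : (d : ℝ) ^ 2 * (blocks.length + 1 : ℕ) = (d : ℝ) ^ 2 * m := by
      push_cast
      linear_combination -h1
    exact_mod_cast mul_left_cancel₀ h2 h3
  refine ⟨hm, ?_⟩
  obtain ⟨H, hH, hpos⟩ := h.good.fac
  have hcount : ∀ v : Fin m, (blocks.filter fun b => (v : ℕ) ∈ b).length + pdeg pt v = d := by
    intro v
    have h1 := FM_colSum h.bok v
    rw [hcol v] at h1
    have h2 := mul_left_cancel₀ hd0 h1
    have h3 : (((blocks.filter fun b => (v : ℕ) ∈ b).length + pdeg pt v : ℕ) : ℝ) = d := by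
      push_cast; linarith only [h2]
    exact_mod_cast h3
  apply pairG_upper hd _ _ _ _ H _ hpos
  · rw [Fintype.card_fin, Fintype.card_fin, hm]
  · intro j
    have := h.bok (blocks[(j : ℕ)]) (List.getElem_mem _)
    rw [card_fs this.2, this.1]
  · intro i
    rw [← hcount i, ← card_filter_fin blocks (fun b => (i : ℕ) ∈ b)]
    congr 2
    ext j
    rw [mem_filter, mem_filter, mem_fs]
    rfl
  · have h1 : (∑ j : Fin blocks.length, outer ℝ (fs m (blocks[(j : ℕ)]))) = FM ℝ m blocks :=
      (FM_eq_sum blocks).symm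
    rw [h1]
    exact hH

theorem sum_pdeg_ptF {o d : ℕ} (hd : Even d) (hm : m = o + d) :
    ∑ v, pdeg (ptF m o) v = d := by
  simp only [pdeg_ptF hd hm]
  rw [Fin.sum_univ_eq_sum_range (fun i => if i < o then 0 else 1) m, hm, sum_range_add]
  rw [sum_eq_zero (fun i hi => by rw [if_pos (mem_range.1 hi)]), zero_add]
  simp

theorem runG_invS {d : ℕ} (hd : 3 ≤ d) {pt : Fin m → Fin m} (hpt : ∀ i, pt (pt i) = i)
    {X₀ : List ℕ} (hX₀ : ListOK m X₀)
    (hdiv0 : d ∣ X₀.length) {pk : ℕ → State → ℕ} (hpk : ∀ q, PickOKS m d q pt X₀ (pk q)) :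
    ∀ (q : ℕ) (blocks : List (List ℕ)), PInvS m d q pt X₀ blocks →
      PInvS m d 0 pt X₀ (runG d X₀ pk q blocks) := by
  intro q
  induction q with
  | zero => exact fun _ h => h
  | succ q ih => exact fun blocks h => ih _ (h.step hd hpt hX₀ hdiv0 (hpk q))

end Vale.Agent.P049
end
end
end

section

section

section

/-! Correctness of the algorithm for all orders. -/

namespace Vale.Agent.P049

open Finset Function

variable {d m q : ℕ}

theorem pickS_ok (hd : 2 ≤ d) {o : ℕ} (hev : (m - o) % 2 = 0) {X₀ : List ℕ} (hX₀ : ListOK m X₀)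
    (hdiv : d ∣ X₀.length) (q : ℕ) :
    PickOKS m d q (ptF m o) X₀ (pickS d (pairsL o (List.range m)) (List.range m) X₀ q) := by
  rintro ⟨blocks, X, γ⟩ h _ ⟨a, ha, hneg⟩
  have hval : ∀ a : Fin m, (a : ℕ) ∈ X → (childValS m d q (ptF m o) X₀ (blocks, X, γ) a < 0 ↔
      negS d (pairsL o (List.range m)) (List.range m) X₀ q (X.filter (· ≠ (a : ℕ)))
        ((a : ℕ) :: γ) blocks = true) := by
    intro a ha
    rw [negS_iff hd hX₀ hdiv hev h.xok h.gok h.disj h.glt h.dvd ha]
    rfl
  set L := X.filter fun a => negS d (pairsL o (List.range m)) (List.range m) X₀ q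
    (X.filter (· ≠ a)) (a :: γ) blocks with hL
  have hmem : (a : ℕ) ∈ L := by
    rw [hL, List.mem_filter]
    exact ⟨ha, (hval a ha).1 hneg⟩
  have hpick : pickS d (pairsL o (List.range m)) (List.range m) X₀ q (blocks, X, γ) =
      L.headD 0 := rfl
  have hLne : L ≠ [] := List.ne_nil_of_mem hmem
  obtain ⟨b, L', hbL⟩ := List.exists_cons_of_ne_nil hLne
  have hb : b ∈ L := by rw [hbL]; exact List.mem_cons_self
  have hb' := hb
  rw [hL, List.mem_filter] at hb'
  have hbm : b < m := h.xok.2 b hb'.1
  refine ⟨⟨b, hbm⟩, ?_, hb'.1, ?_⟩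
  · rw [hpick, hbL]; rfl
  · rw [hval ⟨b, hbm⟩ hb'.1]
    exact hb'.2

theorem initS_eq {r s : ℕ} (h : NumS d r s m) : initS d (List.range m) r s = initBS d r s m := by
  unfold initS initBS
  rw [plainB_eq h.rs_le]
  congr 1
  unfold starS
  rw [filter_lt_range h.ds_le]
  rfl

theorem blocksOfS_inv (hd : 3 ≤ d) (he : Even d) (hm : 2 * d ^ 3 ≤ m) :
    PInvS m d 0 (ptF m (m - d)) (List.range (d * ((m - d) / d))) (blocksOfS d (List.range m)) := by
  have h := numS_of_large hd he hm
  have hX₀ : ListOK m (List.range (d * ((m - d) / d))) :=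
    ⟨List.nodup_range, fun x hx => (List.mem_range.1 hx).trans_le h.le_m⟩
  have ho : m - d = d * ((m - d) / d) + (m - d) % d := (Nat.div_add_mod _ _).symm
  have hev : (m - (m - d)) % 2 = 0 := by
    obtain ⟨e, he⟩ := he
    have := h.hm
    omega
  have hinit := init_invS h
  rw [← ho] at hinit
  unfold blocksOfS
  rw [List.length_range, filter_lt_range h.le_m, initS_eq h]
  exact runG_invS hd (ptF_ptF hev) hX₀ (by simp only [List.length_range, dvd_mul_right])
    (fun q => pickS_ok (by omega) hev hX₀ (by simp only [List.length_range, dvd_mul_right]) q) (d - 1) _ hinit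

theorem outBitsS_eq {m o : ℕ} (hpt : ∀ i, ptF m o (ptF m o i) = i) (hev : (m - o) % 2 = 0)
    (blocks : List (List ℕ)) :
    outBitsS o (List.range m) blocks =
      (List.ofFn fun p : Fin (m + blocks.length) => List.ofFn fun q : Fin (m + blocks.length) =>
        decide (((pairG (ptF m o) hpt fun j : Fin blocks.length => fs m (blocks[(j : ℕ)])).comap
          finSumFinEquiv.symm).Adj p q)).flatten := by
  have hL : List.range m = List.ofFn fun i : Fin m => (i : ℕ) := by
    apply List.ext_getElem <;> simp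
  have hB := list_eq_ofFn blocks rfl
  have hl : ∀ (h : m ≤ m + blocks.length) (i : Fin m),
      (finSumFinEquiv.symm (Fin.castLE h i) : Fin m ⊕ Fin blocks.length) = Sum.inl i :=
    fun h i => finSumFinEquiv_symm_apply_castAdd i
  unfold outBitsS
  rw [List.flatMap_def, List.flatMap_def, ← List.flatten_append]
  congr 1
  rw [List.ofFn_add]
  congr 1
  · conv_lhs => rw [hL]
    rw [List.map_ofFn]
    congr 1
    funext i
    rw [comp_apply, List.ofFn_add]
    congr 1
    · rw [List.map_ofFn]
      congr 1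
      funext j
      rw [comp_apply]
      congr 1
      rw [SimpleGraph.comap_adj, hl, hl]
      change _ = (ptF m o i = j ∧ i ≠ j)
      rw [Fin.ext_iff, ptF_val hev, ne_eq, ne_eq, Fin.ext_iff]
    · conv_lhs => rw [hB]
      rw [List.map_ofFn]
      congr 1
      funext j
      rw [comp_apply]
      congr 1
      rw [SimpleGraph.comap_adj, hl,
        finSumFinEquiv_symm_apply_natAdd]
      exact propext mem_fs.symm
  · conv_lhs => rw [hB]
    rw [List.map_ofFn]
    congr 1
    funext i
    rw [comp_apply, List.ofFn_add]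
    congr 1
    · rw [hL, List.map_ofFn]
      congr 1
      funext j
      rw [comp_apply]
      congr 1
      rw [SimpleGraph.comap_adj, hl,
        finSumFinEquiv_symm_apply_natAdd]
      exact propext mem_fs.symm
    · rw [List.map_ofFn]
      congr 1
      funext j
      rw [comp_apply, eq_comm, decide_eq_false_iff_not, SimpleGraph.comap_adj,
        finSumFinEquiv_symm_apply_natAdd, finSumFinEquiv_symm_apply_natAdd]
      exact id

end Vale.Agent.P049
end
end
end

section

section

section

/-! The graphs of the algorithm are Ramanujan up to few eigenvalues. -/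

namespace Vale.Agent.P049

open Finset Matrix

theorem IsRamanujanUpTo.iso {V W : Type*} [Fintype V] [DecidableEq V] [Fintype W]
    [DecidableEq W] {d k : ℕ} {G : SimpleGraph V} [DecidableRel G.Adj] {G' : SimpleGraph W}
    [DecidableRel G'.Adj] (h : IsRamanujanUpTo d k G) (e : G ≃g G') :
    IsRamanujanUpTo d k G' := by
  obtain ⟨h2, s, h3, h4⟩ := h
  refine ⟨?_, s, ?_, h4⟩
  · intro w
    rw [← h2 (e.symm w)]
    have := e.degree_eq (e.symm w)
    rw [← this]
    simp only [SimpleGraph.Iso.degree_eq]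
  · rw [← h3, ← Matrix.charpoly_reindex e.toEquiv (G.adjMatrix ℝ)]
    congr 2
    ext i j
    rw [Matrix.reindex_apply, Matrix.submatrix_apply, SimpleGraph.adjMatrix_apply,
      SimpleGraph.adjMatrix_apply]
    congr 1
    have := e.symm.map_adj_iff (v := i) (w := j)
    exact propext this.symm

theorem IsBipartiteRamanujan.upTo {V : Type*} [Fintype V] [DecidableEq V] {d : ℕ} (hd : 3 ≤ d)
    {G : SimpleGraph V} [DecidableRel G.Adj] (h : IsBipartiteRamanujan d G) :
    IsRamanujanUpTo d 1 G := by
  obtain ⟨_, h2, s, h3, h4⟩ := h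
  have h5 : (0 : ℝ) ≤ 2 * √((d : ℝ) - 1) := by (clear * -; positivity)
  have h6 : (0 : ℝ) ≤ d := Nat.cast_nonneg d
  refine ⟨h2, (-(d : ℝ)) ::ₘ s, h3, ?_, ?_⟩
  · intro μ hμ
    rw [Multiset.mem_cons] at hμ
    rcases hμ with rfl | hμ
    · linarith only [h5]
    · exact (le_abs_self μ).trans (h4 μ hμ)
  · have h7 : s.filter (fun μ => μ < -(2 * √((d : ℝ) - 1))) = 0 := by
      rw [Multiset.filter_eq_nil]
      intro μ hμ
      have := h4 μ hμ
      rw [abs_le] at this
      exact not_lt.2 this.1
    rw [Multiset.filter_cons, h7, add_zero]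
    split_ifs <;> simp

/-- If deleting the vertices in `P` leaves a bipartite graph, then at most `|P| + 1` eigenvalues
violate the lower bound. -/
theorem IsUpperRamanujan.upTo {V : Type*} [Fintype V] [DecidableEq V] {d : ℕ}
    {G : SimpleGraph V} [DecidableRel G.Adj] (h : IsUpperRamanujan d G) (σ : V → ℝ)
    (hσ : ∀ v, σ v = 1 ∨ σ v = -1) (P : Finset V)
    (hP : ∀ i j, i ∉ P → j ∉ P → G.Adj i j → σ i * σ j = -1) :
    IsRamanujanUpTo d (P.card + 1) G := by
  obtain ⟨h2, s, h3, h4⟩ := h
  refine ⟨h2, s, h3, h4, ?_⟩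
  have hA : (G.adjMatrix ℝ).IsHermitian := by
    ext i j
    simp [SimpleGraph.adjMatrix_apply, SimpleGraph.adj_comm]
  have h5 := neg_count hA (2 * √((d : ℝ) - 1)) σ hσ P (by
    intro i j hi hj hij
    apply hP i j hi hj
    by_contra hcon
    rw [SimpleGraph.adjMatrix_apply, if_neg hcon] at hij
    exact hij rfl)
  rw [h3] at h5
  have h6 : (((d : ℝ) ::ₘ s).filter fun μ => 2 * √((d : ℝ) - 1) < μ).card ≤ 1 := by
    have h7 : s.filter (fun μ => 2 * √((d : ℝ) - 1) < μ) = 0 := by
      rw [Multiset.filter_eq_nil]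
      intro μ hμ
      exact not_lt.2 (h4 μ hμ)
    rw [Multiset.filter_cons, h7, add_zero]
    split_ifs <;> simp
  have h8 : (s.filter fun μ => μ < -(2 * √((d : ℝ) - 1))).card ≤
      ((((d : ℝ) ::ₘ s).filter fun μ => μ < -(2 * √((d : ℝ) - 1)))).card :=
    Multiset.card_le_card (Multiset.filter_le_filter _ (Multiset.le_cons_self _ _))
  omega

/-- the representatives of the pairs -/
theorem card_reps {o d m : ℕ} (hd : Even d) (hm : m = o + d) :
    (univ.filter fun i : Fin m => o ≤ (i : ℕ) ∧ ((i : ℕ) - o) % 2 = 0).card ≤ d / 2 := by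
  obtain ⟨e, rfl⟩ := hd
  have h1 : (univ.filter fun i : Fin m => o ≤ (i : ℕ) ∧ ((i : ℕ) - o) % 2 = 0).card ≤
      (Finset.range e).card := by
    apply card_le_card_of_injOn (fun i : Fin m => ((i : ℕ) - o) / 2)
    · intro i hi
      have h2 := i.2
      rw [mem_coe, mem_filter] at hi
      rw [coe_range, Set.mem_Iio]
      change ((i : ℕ) - o) / 2 < e
      omega
    · intro i hi j hj hij
      rw [mem_coe, mem_filter] at hi hj
      apply Fin.ext
      simp only at hij
      omega
  rw [card_range] at h1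
  omega

theorem pairG_upTo {d o m k : ℕ} (hd : Even d) (hm : m = o + d)
    (hpt : ∀ i, ptF m o (ptF m o i) = i) (b : Fin k → Finset (Fin m))
    (h : IsUpperRamanujan d (pairG (ptF m o) hpt b)) :
    IsRamanujanUpTo d (d / 2 + 1) (pairG (ptF m o) hpt b) := by
  set P := (univ.filter fun i : Fin m => o ≤ (i : ℕ) ∧ ((i : ℕ) - o) % 2 = 0) with hP
  have h1 := h.upTo (Sum.elim (fun _ => 1) (fun _ => -1)) (by
      intro v
      rcases v with v | v
      · left; rfl
      · right; rfl) (P.map Function.Embedding.inl) (by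
      intro i j hi hj hij
      rcases i with i | i <;> rcases j with j | j
      · exfalso
        have hij' : ptF m o i = j ∧ i ≠ j := hij
        have hi' : ¬ (o ≤ (i : ℕ) ∧ ((i : ℕ) - o) % 2 = 0) := by
          intro h2
          apply hi
          rw [mem_map]
          exact ⟨i, by rw [hP, mem_filter]; exact ⟨mem_univ _, h2⟩, rfl⟩
        have hj' : ¬ (o ≤ (j : ℕ) ∧ ((j : ℕ) - o) % 2 = 0) := by
          intro h2
          apply hj
          rw [mem_map]
          exact ⟨j, by rw [hP, mem_filter]; exact ⟨mem_univ _, h2⟩, rfl⟩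
        have h3 := congrArg (Fin.val) hij'.1
        rw [ptF_val (ev_of hd hm)] at h3
        have h4 : (i : ℕ) ≠ j := fun h => hij'.2 (Fin.ext h)
        unfold ptN at h3
        split_ifs at h3 <;> omega
      · simp
      · simp
      · exact hij.elim)
  obtain ⟨h2, s, h3, h4, h5⟩ := h1
  refine ⟨h2, s, h3, h4, h5.trans ?_⟩
  rw [card_map]
  exact Nat.add_le_add_right (card_reps hd hm) 1

/-- Correctness for odd `n`. -/
theorem bitsOdd_correct2 {d n : ℕ} (hd : 3 ≤ d) (hn : 4 * d ^ 3 ≤ n) (ho : Odd n) (he : Even d) :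
    ∃ (G : SimpleGraph (Fin n)) (_ : DecidableRel G.Adj), IsRamanujanUpTo d (d / 2 + 1) G ∧
      bitsOdd d n = (List.ofFn fun i : Fin n => List.ofFn fun j : Fin n =>
        decide (G.Adj i j)).flatten := by
  obtain ⟨k, rfl⟩ := ho
  have hm : (2 * k + 1 + 1) / 2 = k + 1 := by omega
  have hinv := blocksOfS_inv (m := k + 1) hd he (by omega)
  have h := numS_of_large (m := k + 1) hd he (by omega)
  have hm2 : k + 1 = (k + 1 - d) + d := by have := h.hm; omega
  have hev := ev_of he hm2
  have hpt := fun i => ptF_ptF (m := k + 1) hev i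
  obtain ⟨h1, h2⟩ := final_blocksS hd hpt (sum_pdeg_ptF he hm2) hinv
  have h3 := pairG_upTo he hm2 hpt _ h2
  unfold bitsOdd
  rw [hm, List.length_range, outBitsS_eq hpt hev]
  have hc : k + 1 + (blocksOfS d (List.range (k + 1))).length = 2 * k + 1 := by omega
  set G := pairG (ptF (k + 1) (k + 1 - d)) hpt fun j : Fin (blocksOfS d (List.range (k + 1))).length =>
    fs (k + 1) ((blocksOfS d (List.range (k + 1)))[(j : ℕ)]) with hG
  rw [← hc]
  exact ⟨_, inferInstance, h3.iso (SimpleGraph.Iso.comap finSumFinEquiv.symm _).symm, rfl⟩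

/-- Correctness for all `n`. -/
theorem bitsAll_correct2 {d n : ℕ} (hd : 3 ≤ d) (hn : 4 * d ^ 3 ≤ n) (he : Even (d * n)) :
    ∃ (G : SimpleGraph (Fin n)) (_ : DecidableRel G.Adj),
      IsRamanujanUpTo d (if Even n then 1 else d / 2 + 1) G ∧
      (Even n → IsBipartiteRamanujan d G) ∧
      bitsAll d n = (List.ofFn fun i : Fin n => List.ofFn fun j : Fin n =>
        decide (G.Adj i j)).flatten := by
  unfold bitsAll
  by_cases hne : n % 2 = 0
  · rw [if_pos hne, if_pos (Nat.even_iff.2 hne)]
    obtain ⟨G, hG, h1, h2⟩ := bitsOf_correct hd (by omega) (Nat.even_iff.2 hne)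
    exact ⟨G, hG, h1.upTo hd, fun _ => h1, h2⟩
  · have hno : ¬ Even n := fun h => hne (Nat.even_iff.1 h)
    rw [if_neg hne, if_neg hno]
    have hd2 : Even d := by
      rcases Nat.even_mul.1 he with h | h
      · exact h
      · exact absurd h hno
    obtain ⟨G, hG, h1, h2⟩ := bitsOdd_correct2 hd hn (Nat.not_even_iff_odd.1 hno) hd2
    exact ⟨G, hG, h1, fun h => absurd h hno, h2⟩

end Vale.Agent.P049
end
end
end
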